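import Crest.Agent.R110.Defs

/-! Row 110 (S0145): the cut-off elements `rp`, `ct`. -/

set_option autoImplicit false

universe u

namespace Crest.Agent.R110

section CutRp

/-! ### facts without an order on `E` -/

section NoOrder

variable {E : Type u} [CStarAlgebra E]

/-- `f(x)/max x s` -/
private lemma div_max_continuous {f : ℝ → ℝ} (hf : Continuous f) {s : ℝ} (hs : 0 < s) :
    Continuous (fun x : ℝ => f x / max x s) := by
  refine hf.div (by fun_prop) (fun x => ?_)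
  exact (lt_max_of_lt_right hs).ne'

private lemma mul_div_max {f : ℝ → ℝ} {s : ℝ} (hs : 0 < s) (h0 : ∀ x, x ≤ s → f x = 0) (x : ℝ) :
    x * (f x / max x s) = f x := by
  rcases le_total x s with hx | hx
  · rw [h0 x hx]; simp
  · rw [max_eq_left hx]
    have : 0 < x := hs.trans_le hx
    field_simp

lemma self_mul_cfc_div {a : E} (ha : IsSelfAdjoint a) {f : ℝ → ℝ} (hf : Continuous f) {s : ℝ}
    (hs : 0 < s) (h0 : ∀ x, x ≤ s → f x = 0) :
    a * cfc (fun x => f x / max x s) a = cfc f a :=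
  cfc_self_mul ha (div_max_continuous hf hs) (fun x _ => mul_div_max hs h0 x)

lemma cfc_div_mul_self {a : E} (ha : IsSelfAdjoint a) {f : ℝ → ℝ} (hf : Continuous f) {s : ℝ}
    (hs : 0 < s) (h0 : ∀ x, x ≤ s → f x = 0) :
    cfc (fun x => f x / max x s) a * a = cfc f a :=
  cfc_mul_self ha (div_max_continuous hf hs)
    (fun x _ => by rw [mul_comm]; exact mul_div_max hs h0 x)

theorem cfc_mem {I : Set E} (hI : PIIdeal I) {a : E} (ha : IsSelfAdjoint a) (haI : a ∈ I)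
    {f : ℝ → ℝ} (hf : Continuous f) {s : ℝ} (hs : 0 < s) (h0 : ∀ x, x ≤ s → f x = 0) :
    cfc f a ∈ I := by
  rw [← self_mul_cfc_div ha hf hs h0]
  exact hI.mul_right _ haI

end NoOrder

variable {E : Type u} [CStarAlgebra E] [PartialOrder E] [StarOrderedRing E]

theorem rp_nonneg (s t : ℝ) (a : E) : 0 ≤ rp s t a := cfc_ramp_nonneg s t a

theorem rp_isSelfAdjoint (s t : ℝ) (a : E) : IsSelfAdjoint (rp s t a) := cfc_sa _ _

theorem star_rp (s t : ℝ) (a : E) : star (rp s t a) = rp s t a := star_cfc' _ _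


theorem norm_rp_le_one (s t : ℝ) (a : E) : ‖rp s t a‖ ≤ 1 := norm_cfc_ramp_le s t a


theorem rp_mul_rp {a : E} (ha : IsSelfAdjoint a) {s t s' t' : ℝ} (h1 : s < t) (h2 : t ≤ s')
    (h3 : s' < t') : rp s t a * rp s' t' a = rp s' t' a :=
  cfc_absorb ha (ramp_continuous _ _) (ramp_continuous _ _) (ramp_mul_ramp h1 h2 h3)

theorem map_rp {Q : Type u} [CStarAlgebra Q] (ρ : E →⋆ₐ[ℂ] Q) {a : E} (ha : IsSelfAdjoint a)
    (s t : ℝ) : ρ (rp s t a) = rp s t (ρ a) := map_ramp ρ ha s t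


theorem map_nonneg' {Q : Type u} [CStarAlgebra Q] [PartialOrder Q] [StarOrderedRing Q]
    (ρ : E →⋆ₐ[ℂ] Q) {a : E} (ha : 0 ≤ a) : 0 ≤ ρ a := by
  obtain ⟨x, rfl⟩ := CStarAlgebra.nonneg_iff_eq_star_mul_self.mp ha
  rw [map_mul, map_star]
  exact star_mul_self_nonneg _

theorem rp_eq_zero_iff {a : E} (ha : 0 ≤ a) {s t : ℝ} (hs : 0 ≤ s) (h : s < t) :
    rp s t a = 0 ↔ ‖a‖ ≤ s := by
  constructor
  · intro h0
    by_contra hcon
    push Not at hcon
    have hnt : Nontrivial E := by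
      rcases subsingleton_or_nontrivial E with hE | hE
      · exfalso
        rw [Subsingleton.elim a 0, norm_zero] at hcon; linarith
      · exact hE
    have := norm_apply_le_norm_cfc (ramp s t) a
      (CStarAlgebra.norm_mem_spectrum_of_nonneg ha) (by fun_prop) (IsSelfAdjoint.of_nonneg ha)
    rw [show cfc (ramp s t) a = 0 from h0, norm_zero, norm_le_zero_iff] at this
    have h2 : 0 < ramp s t ‖a‖ := by
      unfold ramp
      refine lt_max_of_lt_right (lt_min one_pos ?_)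
      exact div_pos (by linarith) (by linarith)
    linarith
  · intro hn
    exact cfc_ramp_eq_zero ha h hn

theorem map_rp_eq_zero_iff {Q : Type u} [CStarAlgebra Q] (ρ : E →⋆ₐ[ℂ] Q) {a : E} (ha : 0 ≤ a)
    {s t : ℝ} (hs : 0 ≤ s) (h : s < t) : ρ (rp s t a) = 0 ↔ ‖ρ a‖ ≤ s := by
  letI := CStarAlgebra.spectralOrder Q
  haveI := CStarAlgebra.spectralOrderedRing Q
  rw [map_rp ρ (IsSelfAdjoint.of_nonneg ha)]
  exact rp_eq_zero_iff (map_nonneg' ρ ha) hs h

theorem norm_map_rp_eq_one {Q : Type u} [CStarAlgebra Q] (ρ : E →⋆ₐ[ℂ] Q) {a : E} (ha : 0 ≤ a)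
    {s t : ℝ} (hs : 0 ≤ s) (h : s < t) (hn : t ≤ ‖ρ a‖) : ‖ρ (rp s t a)‖ = 1 := by
  letI := CStarAlgebra.spectralOrder Q
  haveI := CStarAlgebra.spectralOrderedRing Q
  rw [map_rp ρ (IsSelfAdjoint.of_nonneg ha)]
  refine le_antisymm (norm_rp_le_one _ _ _) ?_
  have hnt : Nontrivial Q := by
    rcases subsingleton_or_nontrivial Q with hE | hE
    · exfalso
      rw [Subsingleton.elim (ρ a) 0, norm_zero] at hn; linarith
    · exact hE
  have := norm_apply_le_norm_cfc (ramp s t) (ρ a)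
    (CStarAlgebra.norm_mem_spectrum_of_nonneg (map_nonneg' ρ ha)) (by fun_prop)
    (IsSelfAdjoint.of_nonneg (map_nonneg' ρ ha))
  rw [ramp_eq_one h hn] at this
  simpa [rp] using this

theorem norm_lt_of_norm_map_rp_lt_one {Q : Type u} [CStarAlgebra Q] (ρ : E →⋆ₐ[ℂ] Q) {a : E}
    (ha : 0 ≤ a) {s t : ℝ} (hs : 0 ≤ s) (h : s < t) (hn : ‖ρ (rp s t a)‖ < 1) : ‖ρ a‖ < t := by
  by_contra hcon
  push Not at hcon
  rw [norm_map_rp_eq_one ρ ha hs h hcon] at hn
  exact lt_irrefl _ hn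



theorem rp_mem {I : Set E} (hI : PIIdeal I) {a : E} (ha : IsSelfAdjoint a) (haI : a ∈ I)
    {s t : ℝ} (hs : 0 < s) (h : s < t) : rp s t a ∈ I :=
  cfc_mem hI ha haI (ramp_continuous s t) hs (fun _ hx => ramp_eq_zero h hx)

theorem exists_sqrt_rp {I : Set E} (hI : PIIdeal I) {a : E} (ha : IsSelfAdjoint a) (haI : a ∈ I)
    {s t : ℝ} (hs : 0 < s) (h : s < t) :
    ∃ q : E, 0 ≤ q ∧ ‖q‖ ≤ 1 ∧ q ∈ I ∧ q * q = rp s t a ∧
      (∀ s₀, s₀ < s → rp s₀ s a * q = q) ∧ (0 ≤ a → Thr a s q) := by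
  have hc : Continuous (fun x => Real.sqrt (ramp s t x)) := (ramp_continuous s t).sqrt
  have hz : ∀ x, x ≤ s → Real.sqrt (ramp s t x) = 0 := fun x hx => by
    rw [ramp_eq_zero h hx, Real.sqrt_zero]
  refine ⟨cfc (fun x => Real.sqrt (ramp s t x)) a, ?_, ?_, ?_, ?_, ?_, ?_⟩
  · exact cfc_nonneg (fun _ _ => Real.sqrt_nonneg _)
  · refine norm_cfc_le_of zero_le_one (fun x _ => ?_)
    rw [abs_of_nonneg (Real.sqrt_nonneg _)]
    calc Real.sqrt (ramp s t x) ≤ Real.sqrt 1 := Real.sqrt_le_sqrt (ramp_le_one s t x)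
      _ = 1 := Real.sqrt_one
  · exact cfc_mem hI ha haI hc hs hz
  · exact cfc_sqrt_mul_sqrt ha (ramp_continuous s t) (ramp_nonneg s t)
  · intro s₀ hs₀
    refine cfc_absorb ha (ramp_continuous _ _) hc (fun x => ?_)
    rcases le_total x s with hx | hx
    · rw [hz x hx, mul_zero]
    · rw [ramp_eq_one hs₀ hx, one_mul]
  · intro ha0 Q _ ρ hρ
    letI := CStarAlgebra.spectralOrder Q
    haveI := CStarAlgebra.spectralOrderedRing Q
    rw [map_cfc' ρ ha hc]
    exact cfc_eq_zero_of_norm_le (map_nonneg' ρ ha0) hρ (fun x _ hx => hz x hx)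

theorem norm_rp_mul_le {c : E} (hc : 0 ≤ c) {s t : ℝ} (hs : 0 < s) (h : s < t) (x : E) :
    ‖rp s t c * x‖ ≤ s⁻¹ * ‖c * x‖ := by
  have hsa := IsSelfAdjoint.of_nonneg hc
  have e : rp s t c = cfc (fun x => ramp s t x / max x s) c * c :=
    (cfc_div_mul_self hsa (ramp_continuous s t) hs (fun _ hx => ramp_eq_zero h hx)).symm
  rw [e, mul_assoc]
  refine (norm_mul_le _ _).trans ?_
  refine mul_le_mul_of_nonneg_right ?_ (norm_nonneg _)
  refine norm_cfc_le_of (by positivity) (fun y _ => ?_)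
  have hm : 0 < max y s := lt_max_of_lt_right hs
  rw [abs_of_nonneg (div_nonneg (ramp_nonneg _ _ _) hm.le), div_eq_mul_inv]
  calc ramp s t y * (max y s)⁻¹ ≤ 1 * s⁻¹ := by
        refine mul_le_mul (ramp_le_one _ _ _) ?_ (by positivity) zero_le_one
        exact inv_anti₀ hs (le_max_right _ _)
    _ = s⁻¹ := one_mul _

theorem mul_rp_of_mul {p c : E} (hc : 0 ≤ c) (hp : p * c = c) {s t : ℝ} (hs : 0 < s) (h : s < t) :
    p * rp s t c = rp s t c := by
  have hsa := IsSelfAdjoint.of_nonneg hc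
  have e : rp s t c = c * cfc (fun x => ramp s t x / max x s) c :=
    (self_mul_cfc_div hsa (ramp_continuous s t) hs (fun _ hx => ramp_eq_zero h hx)).symm
  rw [e, ← mul_assoc, hp]

theorem absorb_trans {p g x : E} (h1 : p * g = g) (h2 : g * x = x) : p * x = x := by
  rw [← h2, ← mul_assoc, h1]

end CutRp

end Crest.Agent.R110
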