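import Mathlib

-- ▼ part R110/Cut
section

/-!
# R110.Cut : cut-off calculus in C*-algebras

`ramp s t` is `0` on `(-∞,s]`, `1` on `[t,∞)` and linear between.  `cut k x = (x-k)_+`.
-/

set_option autoImplicit false

universe u

namespace Crest.Agent.R110

noncomputable section

/-- `0` on `(-∞,s]`, `1` on `[t,∞)`, linear between. -/
def ramp (s t : ℝ) : ℝ → ℝ := fun x => max 0 (min 1 ((x - s) / (t - s)))

/-- `(x - k)_+` -/
def cut (k : ℝ) : ℝ → ℝ := fun x => max 0 (x - k)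

@[fun_prop, continuity]
lemma cut_continuous (k : ℝ) : Continuous (cut k) := by
  unfold cut; fun_prop

lemma cut_nonneg (k x : ℝ) : 0 ≤ cut k x := le_max_left _ _

lemma cut_eq_zero {k x : ℝ} (hx : x ≤ k) : cut k x = 0 := by
  unfold cut; exact max_eq_left (by linarith)



@[fun_prop, continuity]
lemma ramp_continuous (s t : ℝ) : Continuous (ramp s t) := by
  unfold ramp; fun_prop

lemma ramp_nonneg (s t x : ℝ) : 0 ≤ ramp s t x := by
  unfold ramp; exact le_max_left _ _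

lemma ramp_le_one (s t x : ℝ) : ramp s t x ≤ 1 := max_le zero_le_one (min_le_left _ _)

lemma ramp_eq_zero {s t x : ℝ} (hst : s < t) (hx : x ≤ s) : ramp s t x = 0 := by
  unfold ramp
  have : (x - s) / (t - s) ≤ 0 := div_nonpos_of_nonpos_of_nonneg (by linarith) (by linarith)
  exact max_eq_left ((min_le_right _ _).trans this)

lemma ramp_eq_one {s t x : ℝ} (hst : s < t) (hx : t ≤ x) : ramp s t x = 1 := by
  unfold ramp
  have h0 : 0 < t - s := by linarith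
  have : 1 ≤ (x - s) / (t - s) := by rw [le_div_iff₀ h0]; linarith
  rw [min_eq_left this]; exact max_eq_right zero_le_one

lemma ramp_mul_ramp {s t t' t'' : ℝ} (hst : s < t) (h : t ≤ t') (h' : t' < t'') (x : ℝ) :
    ramp s t x * ramp t' t'' x = ramp t' t'' x := by
  rcases le_total x t' with hx | hx
  · rw [ramp_eq_zero h' hx, mul_zero]
  · rw [ramp_eq_one hst (h.trans hx), one_mul]


variable {E : Type u} [CStarAlgebra E]

/-! ### Products and absorption -/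

lemma cfc_mul_of {h : E} (_hh : IsSelfAdjoint h) {f g k : ℝ → ℝ} (hf : Continuous f)
    (hg : Continuous g) (hfg : ∀ x ∈ spectrum ℝ h, f x * g x = k x) :
    cfc f h * cfc g h = cfc k h := by
  rw [← cfc_mul f g h hf.continuousOn hg.continuousOn]
  exact cfc_congr (fun x hx => hfg x hx)

lemma cfc_absorb {h : E} (hh : IsSelfAdjoint h) {f g : ℝ → ℝ} (hf : Continuous f)
    (hg : Continuous g) (hfg : ∀ x, f x * g x = g x) :
    cfc f h * cfc g h = cfc g h :=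
  cfc_mul_of hh hf hg (fun x _ => hfg x)


lemma cfc_self_mul {h : E} (hh : IsSelfAdjoint h) {f k : ℝ → ℝ} (hf : Continuous f)
    (hk : ∀ x ∈ spectrum ℝ h, x * f x = k x) : h * cfc f h = cfc k h := by
  have h1 : h * cfc f h = cfc (fun x : ℝ => x) h * cfc f h := by rw [cfc_id' ℝ h]
  rw [h1]
  exact cfc_mul_of hh continuous_id hf hk

lemma cfc_mul_self {h : E} (hh : IsSelfAdjoint h) {f k : ℝ → ℝ} (hf : Continuous f)
    (hk : ∀ x ∈ spectrum ℝ h, f x * x = k x) : cfc f h * h = cfc k h := by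
  have h1 : cfc f h * h = cfc f h * cfc (fun x : ℝ => x) h := by rw [cfc_id' ℝ h]
  rw [h1]
  exact cfc_mul_of hh hf continuous_id hk

lemma cfc_sandwich {h : E} (hh : IsSelfAdjoint h) {f k : ℝ → ℝ} (hf : Continuous f)
    (hk : ∀ x ∈ spectrum ℝ h, f x * x * f x = k x) : cfc f h * h * cfc f h = cfc k h := by
  rw [cfc_mul_self hh hf (k := fun x => f x * x) (fun _ _ => rfl)]
  exact cfc_mul_of hh (hf.mul continuous_id) hf hk

lemma cfc_sa (f : ℝ → ℝ) (h : E) : IsSelfAdjoint (cfc f h) := cfc_predicate f h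

lemma star_cfc' (f : ℝ → ℝ) (h : E) : star (cfc f h) = cfc f h := (cfc_sa f h).star_eq

/-! ### Norms -/

lemma norm_cfc_le_of {f : ℝ → ℝ} {h : E} {c : ℝ} (hc : 0 ≤ c) (hf : ∀ x ∈ spectrum ℝ h, |f x| ≤ c) :
    ‖cfc f h‖ ≤ c :=
  norm_cfc_le hc (fun x hx => by rw [Real.norm_eq_abs]; exact hf x hx)

lemma norm_cfc_ramp_le (s t : ℝ) (h : E) : ‖cfc (ramp s t) h‖ ≤ 1 :=
  norm_cfc_le_of zero_le_one (fun x _ => by
    rw [abs_of_nonneg (ramp_nonneg _ _ _)]; exact ramp_le_one _ _ _)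

lemma spectrum_abs_le {h : E} {x : ℝ} (hx : x ∈ spectrum ℝ h) (hh : IsSelfAdjoint h) : |x| ≤ ‖h‖ := by
  rcases subsingleton_or_nontrivial E with hE | hE
  · exfalso
    have : spectrum ℝ h = ∅ := spectrum.of_subsingleton h
    rw [this] at hx; exact hx
  · have := norm_apply_le_norm_cfc (fun x : ℝ => x) h hx (by fun_prop) hh
    rw [cfc_id' ℝ h] at this
    simpa using this




lemma one_sub_cfc {f : ℝ → ℝ} {h : E} (hh : IsSelfAdjoint h) (hf : Continuous f) :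
    1 - cfc f h = cfc (fun x => 1 - f x) h := by
  have h1 : 1 - cfc f h = cfc (fun _ : ℝ => (1 : ℝ)) h - cfc f h := by rw [cfc_const_one ℝ h]
  rw [h1, ← cfc_sub (fun _ : ℝ => (1 : ℝ)) f h (by fun_prop) hf.continuousOn]

/-! ### Star homomorphisms -/

lemma map_cfc' {Q : Type u} [CStarAlgebra Q] (π : E →⋆ₐ[ℂ] Q) {f : ℝ → ℝ} {h : E}
    (hh : IsSelfAdjoint h) (hf : Continuous f) : π (cfc f h) = cfc f (π h) := by
  have hπ : Continuous π := by
    refine AddMonoidHomClass.continuous_of_bound π 1 (fun x => ?_)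
    rw [one_mul]; exact NonUnitalStarAlgHom.norm_apply_le π x
  exact StarAlgHomClass.map_cfc π f h hf.continuousOn hπ hh (hh.map π)


lemma map_ramp {Q : Type u} [CStarAlgebra Q] (π : E →⋆ₐ[ℂ] Q) {h : E}
    (hh : IsSelfAdjoint h) (s t : ℝ) : π (cfc (ramp s t) h) = cfc (ramp s t) (π h) :=
  map_cfc' π hh (by fun_prop)


/-! ### Approximate commutation -/







/-! ### Inverse square roots on a window -/






/-- `((x-κ)_+/x)^{1/2}` -/
def psi (κ : ℝ) : ℝ → ℝ := fun x => Real.sqrt (cut κ x / max x κ)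

lemma psi_continuous {κ : ℝ} (hκ : 0 < κ) : Continuous (psi κ) := by
  unfold psi
  refine Continuous.sqrt ?_
  refine Continuous.div (by fun_prop) (by fun_prop) (fun x => ?_)
  exact (lt_max_of_lt_right hκ).ne'


lemma psi_sq {κ : ℝ} (hκ : 0 < κ) (x : ℝ) : psi κ x * psi κ x = cut κ x / max x κ := by
  unfold psi
  refine Real.mul_self_sqrt ?_
  have : 0 < max x κ := lt_max_of_lt_right hκ
  have h2 := cut_nonneg κ x
  positivity

lemma psi_mul_mul {κ : ℝ} (hκ : 0 < κ) (x : ℝ) : psi κ x * x * psi κ x = cut κ x := by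
  have : psi κ x * x * psi κ x = psi κ x * psi κ x * x := by ring
  rw [this, psi_sq hκ]
  rcases le_total x κ with hx | hx
  · rw [cut_eq_zero hx]; simp
  · rw [max_eq_left hx]
    have : 0 < x := hκ.trans_le hx
    field_simp

lemma psi_sq_le {κ : ℝ} (hκ : 0 < κ) (x : ℝ) : psi κ x * psi κ x ≤ cut κ x / κ := by
  rw [psi_sq hκ]
  exact div_le_div_of_nonneg_left (cut_nonneg _ _) hκ (le_max_right _ _)


/-! ### Square roots -/

lemma cfc_sqrt_mul_sqrt {h : E} (hh : IsSelfAdjoint h) {f : ℝ → ℝ} (hf : Continuous f)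
    (hf0 : ∀ x, 0 ≤ f x) :
    cfc (fun x => Real.sqrt (f x)) h * cfc (fun x => Real.sqrt (f x)) h = cfc f h :=
  cfc_mul_of hh (by fun_prop) (by fun_prop) (fun x _ => Real.mul_self_sqrt (hf0 x))

section order

variable [PartialOrder E] [StarOrderedRing E]

lemma spectrum_nonneg {h : E} (h0 : 0 ≤ h) {x : ℝ} (hx : x ∈ spectrum ℝ h) : 0 ≤ x :=
  spectrum_nonneg_of_nonneg h0 hx

lemma spectrum_le_norm {h : E} (h0 : 0 ≤ h) {x : ℝ} (hx : x ∈ spectrum ℝ h) : x ≤ ‖h‖ :=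
  (le_abs_self x).trans (spectrum_abs_le hx (IsSelfAdjoint.of_nonneg h0))


lemma cfc_ramp_nonneg (s t : ℝ) (h : E) : 0 ≤ cfc (ramp s t) h :=
  cfc_nonneg (fun _ _ => ramp_nonneg _ _ _)


lemma norm_cfc_le_of_nonneg {f : ℝ → ℝ} {h : E} (h0 : 0 ≤ h) {c : ℝ} (hc : 0 ≤ c)
    (hf : ∀ x, 0 ≤ x → x ≤ ‖h‖ → |f x| ≤ c) : ‖cfc f h‖ ≤ c :=
  norm_cfc_le_of hc (fun x hx => hf x (spectrum_nonneg h0 hx) (spectrum_le_norm h0 hx))

/-- A function vanishing on `[0,k]` vanishes at `h` with `‖h‖ ≤ k`. -/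
lemma cfc_eq_zero_of_norm_le {f : ℝ → ℝ} {h : E} (h0 : 0 ≤ h) {k : ℝ} (hk : ‖h‖ ≤ k)
    (hf : ∀ x, 0 ≤ x → x ≤ k → f x = 0) : cfc f h = 0 := by
  have := norm_cfc_le_of_nonneg h0 le_rfl (f := f) (c := 0)
    (fun x hx hx' => by rw [hf x hx (hx'.trans hk)]; simp)
  exact norm_le_zero_iff.mp this


lemma cfc_ramp_eq_zero {h : E} (h0 : 0 ≤ h) {s t : ℝ} (hst : s < t) (hs : ‖h‖ ≤ s) :
    cfc (ramp s t) h = 0 :=
  cfc_eq_zero_of_norm_le h0 hs (fun _ _ hx => ramp_eq_zero hst hx)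






end order

end

end Crest.Agent.R110
end

-- ▼ part R110/Defs

/-! Row 110 (S0145): pi ⟹ spi. FROZEN DEFINITIONS (captain helper137). Do not edit.
`ramp s t` and `cut κ` are defined in `Crest.Agent.R110.Cut` (helper417):
`ramp s t = fun x => max 0 (min 1 ((x - s) / (t - s)))`, `cut k = fun x => max 0 (x - k)`. -/

set_option autoImplicit false

universe u

namespace Crest.Agent.R110

/-- the cut-off element `f_{s,t}(a)`. -/
noncomputable def rp {E : Type u} [CStarAlgebra E] (s t : ℝ) (a : E) : E := cfc (ramp s t) a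

/-- `(a-κ)_+`. -/
noncomputable def ct {E : Type u} [CStarAlgebra E] (κ : ℝ) (a : E) : E := cfc (cut κ) a

/-- every unital star hom (same universe) killing `g` kills `z`. -/
def Kill {E : Type u} [CStarAlgebra E] (g z : E) : Prop :=
  ∀ (Q : Type u) [CStarAlgebra Q] (ρ : E →⋆ₐ[ℂ] Q), ρ g = 0 → ρ z = 0

/-- `‖ρ h‖ ≤ κ` implies `ρ z = 0`. -/
def Thr {E : Type u} [CStarAlgebra E] (h : E) (κ : ℝ) (z : E) : Prop :=
  ∀ (Q : Type u) [CStarAlgebra Q] (ρ : E →⋆ₐ[ℂ] Q), ‖ρ h‖ ≤ κ → ρ z = 0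

/-- `‖ρ h‖ ≤ κ` implies `‖ρ x‖ ≤ r`. -/
def Dom {E : Type u} [CStarAlgebra E] (h : E) (κ : ℝ) (x : E) (r : ℝ) : Prop :=
  ∀ (Q : Type u) [CStarAlgebra Q] (ρ : E →⋆ₐ[ℂ] Q), ‖ρ h‖ ≤ κ → ‖ρ x‖ ≤ r

/-- A (not necessarily closed) two-sided star ideal whose elements `x⋆x` are properly infinite. -/
structure PIIdeal {E : Type u} [CStarAlgebra E] (I : Set E) : Prop where
  zero_mem : (0 : E) ∈ I
  add_mem : ∀ {x y : E}, x ∈ I → y ∈ I → x + y ∈ I
  mul_left : ∀ (w : E) {x : E}, x ∈ I → w * x ∈ I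
  mul_right : ∀ (w : E) {x : E}, x ∈ I → x * w ∈ I
  star_mem : ∀ {x : E}, x ∈ I → star x ∈ I
  pi : ∀ x ∈ I, ∀ ε : ℝ, 0 < ε → ∃ r s : E,
    ‖star r * (star x * x) * r - star x * x‖ < ε ∧
    ‖star s * (star x * x) * s - star x * x‖ < ε ∧
    ‖star r * (star x * x) * s‖ < ε

/-- The image of a PI ideal under a surjective star hom is a PI ideal. -/
theorem PIIdeal.map {E B : Type u} [CStarAlgebra E] [CStarAlgebra B] {I : Set E}
    (hI : PIIdeal I) (π : E →⋆ₐ[ℂ] B) (hπ : Function.Surjective π) : PIIdeal (π '' I) := by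
  refine ⟨⟨0, hI.zero_mem, map_zero π⟩, ?_, ?_, ?_, ?_, ?_⟩
  · rintro _ _ ⟨x, hx, rfl⟩ ⟨y, hy, rfl⟩
    exact ⟨x + y, hI.add_mem hx hy, map_add π x y⟩
  · rintro w _ ⟨x, hx, rfl⟩
    obtain ⟨w, rfl⟩ := hπ w
    exact ⟨w * x, hI.mul_left w hx, map_mul π w x⟩
  · rintro w _ ⟨x, hx, rfl⟩
    obtain ⟨w, rfl⟩ := hπ w
    exact ⟨x * w, hI.mul_right w hx, map_mul π x w⟩
  · rintro _ ⟨x, hx, rfl⟩
    exact ⟨star x, hI.star_mem hx, map_star π x⟩
  · rintro _ ⟨x, hx, rfl⟩ ε hε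
    obtain ⟨r, s, h1, h2, h3⟩ := hI.pi x hx ε hε
    refine ⟨π r, π s, ?_, ?_, ?_⟩
    · refine lt_of_le_of_lt (le_of_eq_of_le ?_ (NonUnitalStarAlgHom.norm_apply_le π _)) h1
      simp only [map_sub, map_mul, map_star]
    · refine lt_of_le_of_lt (le_of_eq_of_le ?_ (NonUnitalStarAlgHom.norm_apply_le π _)) h2
      simp only [map_sub, map_mul, map_star]
    · refine lt_of_le_of_lt (le_of_eq_of_le ?_ (NonUnitalStarAlgHom.norm_apply_le π _)) h3
      simp only [map_mul, map_star]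

theorem norm_hom_le {E Q : Type u} [CStarAlgebra E] [CStarAlgebra Q] (ρ : E →⋆ₐ[ℂ] Q) (x : E) :
    ‖ρ x‖ ≤ ‖x‖ := NonUnitalStarAlgHom.norm_apply_le ρ x

end Crest.Agent.R110
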