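import Crest.Agent.R110.QuasiCentral
import Mathlib

-- ▼ part R110/QCThr
section

/-!
# R110.QCThr (helper177): quasi-central units in predicate form

`J := {z | every star hom rho with ‖rho h‖ ≤ k kills z}` is a closed two-sided ideal.
-/

set_option autoImplicit false

namespace Crest.Agent.R110

universe u

variable {E : Type u} [CStarAlgebra E] [PartialOrder E] [StarOrderedRing E]

/-- the closed two-sided ideal of all elements killed by the homs satisfying `P`. -/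
noncomputable def killIdeal (P : ∀ (Q : Type u) [CStarAlgebra Q], (E →⋆ₐ[ℂ] Q) → Prop) :
    TwoSidedIdeal E :=
  .mk' {z | ∀ (Q : Type u) [CStarAlgebra Q] (ρ : E →⋆ₐ[ℂ] Q), P Q ρ → ρ z = 0}
    (fun Q _ ρ _ => map_zero ρ)
    (fun {x y} hx hy Q _ ρ h => by rw [map_add, hx Q ρ h, hy Q ρ h, add_zero])
    (fun {x} hx Q _ ρ h => by rw [map_neg, hx Q ρ h, neg_zero])
    (fun {x y} hy Q _ ρ h => by rw [map_mul, hy Q ρ h, mul_zero])
    (fun {x y} hx Q _ ρ h => by rw [map_mul, hx Q ρ h, zero_mul])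

theorem mem_killIdeal (P : ∀ (Q : Type u) [CStarAlgebra Q], (E →⋆ₐ[ℂ] Q) → Prop) (z : E) :
    z ∈ killIdeal P ↔ ∀ (Q : Type u) [CStarAlgebra Q] (ρ : E →⋆ₐ[ℂ] Q), P Q ρ → ρ z = 0 := by
  unfold killIdeal; rw [TwoSidedIdeal.mem_mk']; rfl

theorem isClosed_killIdeal (P : ∀ (Q : Type u) [CStarAlgebra Q], (E →⋆ₐ[ℂ] Q) → Prop) :
    IsClosed ((killIdeal P : TwoSidedIdeal E) : Set E) := by
  have : ((killIdeal P : TwoSidedIdeal E) : Set E)
      = {z | ∀ (Q : Type u) [CStarAlgebra Q] (ρ : E →⋆ₐ[ℂ] Q), P Q ρ → ρ z = 0} := by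
    ext z; exact mem_killIdeal P z
  rw [this]
  simp only [Set.ofPred_forall]
  refine isClosed_iInter fun Q => isClosed_iInter fun _ => isClosed_iInter fun ρ =>
    isClosed_iInter fun _ => ?_
  have hc : Continuous ρ := (AddMonoidHomClass.continuous_of_bound ρ 1 (fun x => by rw [one_mul]; exact NonUnitalStarAlgHom.norm_apply_le ρ x))
  exact isClosed_eq hc continuous_const

/-- **Quasi-central units, predicate form.** -/
theorem exists_quasiCentral_of_kill (P : ∀ (Q : Type u) [CStarAlgebra Q], (E →⋆ₐ[ℂ] Q) → Prop)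
    (X G : Finset E)
    (hG : ∀ j ∈ G, ∀ (Q : Type u) [CStarAlgebra Q] (ρ : E →⋆ₐ[ℂ] Q), P Q ρ → ρ j = 0)
    {ε : ℝ} (hε : 0 < ε) :
    ∃ e : E, (∀ (Q : Type u) [CStarAlgebra Q] (ρ : E →⋆ₐ[ℂ] Q), P Q ρ → ρ e = 0) ∧
      0 ≤ e ∧ e ≤ 1 ∧ (∀ x ∈ X, ‖e * x - x * e‖ ≤ ε) ∧
      ∀ j ∈ G, ‖e * j - j‖ ≤ ε ∧ ‖j * e - j‖ ≤ ε := by
  obtain ⟨e, he, h⟩ := exists_quasiCentral (killIdeal P) (isClosed_killIdeal P) X G
    (fun j hj => (mem_killIdeal P j).mpr (hG j hj)) hε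
  exact ⟨e, (mem_killIdeal P e).mp he, h⟩

/-- Threshold version. -/
theorem exists_quasiCentral_thr (h : E) (k : ℝ) (X G : Finset E)
    (hG : ∀ j ∈ G, ∀ (Q : Type u) [CStarAlgebra Q] (ρ : E →⋆ₐ[ℂ] Q), ‖ρ h‖ ≤ k → ρ j = 0)
    {ε : ℝ} (hε : 0 < ε) :
    ∃ e : E, (∀ (Q : Type u) [CStarAlgebra Q] (ρ : E →⋆ₐ[ℂ] Q), ‖ρ h‖ ≤ k → ρ e = 0) ∧
      0 ≤ e ∧ e ≤ 1 ∧ (∀ x ∈ X, ‖e * x - x * e‖ ≤ ε) ∧
      ∀ j ∈ G, ‖e * j - j‖ ≤ ε ∧ ‖j * e - j‖ ≤ ε :=
  exists_quasiCentral_of_kill (fun _ _ ρ => ‖ρ h‖ ≤ k) X G hG hε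

end Crest.Agent.R110
end

-- ▼ part R110/SuperAux
section

/-!
# R110.SuperAux (helper646) : norm estimates for the superposition lemma
-/

set_option autoImplicit false

open scoped Topology

namespace Crest.Agent.R110.SLAux

universe u v

section gram

variable {E : Type u} [CStarAlgebra E]

/-- The Gram estimate for `T = T₁ p + T₂ q`, `p² + q² = 1`. -/
theorem gram_est (T₁ T₂ x p q j₁ j₂ : E) (hp : IsSelfAdjoint p) (hq : IsSelfAdjoint q)
    (hpq : p * p + q * q = 1) (hp1 : ‖p‖ ≤ 1) (hq1 : ‖q‖ ≤ 1)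
    {δ η : ℝ}
    (h1 : ‖star T₁ * T₁ - x‖ ≤ δ) (h2 : ‖star T₂ * T₂ - x - j₁‖ ≤ δ)
    (h3 : ‖star T₁ * T₂ - j₂‖ ≤ δ)
    (hj1 : ‖j₁ * q‖ ≤ η) (hj2 : ‖j₂ * q‖ ≤ η)
    (hcp : ‖x * p - p * x‖ ≤ η) (hcq : ‖x * q - q * x‖ ≤ η) :
    ‖star (T₁ * p + T₂ * q) * (T₁ * p + T₂ * q) - x‖ ≤ 4 * δ + 5 * η := by
  have hps : star p = p := hp.star_eq
  have hqs : star q = q := hq.star_eq
  set A := p * (star T₁ * T₁ - x) * p with hA
  set B := q * (star T₂ * T₂ - x - j₁) * q with hB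
  set D := p * (star T₁ * T₂ - j₂) * q with hD
  set G := q * (j₁ * q) with hG
  set H := p * (j₂ * q) with hH
  set K := p * (x * p - p * x) with hK
  set L := q * (x * q - q * x) with hL
  have hid : star (T₁ * p + T₂ * q) * (T₁ * p + T₂ * q) - x
      = A + B + D + star D + G + H + star H + K + L := by
    have hx' : x = p * p * x + q * q * x := by
      rw [← add_mul, hpq, one_mul]
    have h0 : star (T₁ * p + T₂ * q) * (T₁ * p + T₂ * q)
        - (A + B + D + star D + G + H + star H + K + L) = p * p * x + q * q * x := by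
      simp only [hA, hB, hD, hG, hH, hK, hL, star_add, star_mul, star_sub, star_star, hps, hqs]
      noncomm_ring
    rw [← hx'] at h0
    rw [sub_eq_iff_eq_add] at h0 ⊢
    rw [h0]; abel
  have hn : ∀ a b y : E, ‖a‖ ≤ 1 → ‖b‖ ≤ 1 → ‖a * y * b‖ ≤ ‖y‖ := by
    intro a b y ha hb
    calc ‖a * y * b‖ ≤ ‖a * y‖ * ‖b‖ := norm_mul_le _ _
      _ ≤ ‖a * y‖ * 1 := by gcongr
      _ ≤ ‖a‖ * ‖y‖ := by rw [mul_one]; exact norm_mul_le _ _
      _ ≤ 1 * ‖y‖ := by gcongr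
      _ = ‖y‖ := one_mul _
  have hn' : ∀ a y : E, ‖a‖ ≤ 1 → ‖a * y‖ ≤ ‖y‖ := by
    intro a y ha
    calc ‖a * y‖ ≤ ‖a‖ * ‖y‖ := norm_mul_le _ _
      _ ≤ 1 * ‖y‖ := by gcongr
      _ = ‖y‖ := one_mul _
  have nA : ‖A‖ ≤ δ := (hn _ _ _ hp1 hp1).trans h1
  have nB : ‖B‖ ≤ δ := (hn _ _ _ hq1 hq1).trans h2
  have nD : ‖D‖ ≤ δ := (hn _ _ _ hp1 hq1).trans h3
  have nD' : ‖star D‖ ≤ δ := by rw [norm_star]; exact nD
  have nG : ‖G‖ ≤ η := (hn' _ _ hq1).trans hj1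
  have nH : ‖H‖ ≤ η := (hn' _ _ hp1).trans hj2
  have nH' : ‖star H‖ ≤ η := by rw [norm_star]; exact nH
  have nK : ‖K‖ ≤ η := (hn' _ _ hp1).trans hcp
  have nL : ‖L‖ ≤ η := (hn' _ _ hq1).trans hcq
  rw [hid]
  calc ‖A + B + D + star D + G + H + star H + K + L‖
      ≤ ‖A‖ + ‖B‖ + ‖D‖ + ‖star D‖ + ‖G‖ + ‖H‖ + ‖star H‖ + ‖K‖ + ‖L‖ := by
        refine (norm_add_le _ _).trans (add_le_add_left ?_ _)
        refine (norm_add_le _ _).trans (add_le_add_left ?_ _)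
        refine (norm_add_le _ _).trans (add_le_add_left ?_ _)
        refine (norm_add_le _ _).trans (add_le_add_left ?_ _)
        refine (norm_add_le _ _).trans (add_le_add_left ?_ _)
        refine (norm_add_le _ _).trans (add_le_add_left ?_ _)
        refine (norm_add_le _ _).trans (add_le_add_left ?_ _)
        exact norm_add_le _ _
    _ ≤ 4 * δ + 5 * η := by linarith

end gram

section order

variable {E : Type u} [CStarAlgebra E] [PartialOrder E] [StarOrderedRing E]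

omit [PartialOrder E] [StarOrderedRing E] in
/-- `‖j q‖² ≤ ‖j (1 - w)‖ ‖j‖` when `q² = 1 - w`. -/
theorem norm_mul_sqrt_sq (j q w : E) (hq : IsSelfAdjoint q) (hqw : q * q = 1 - w) :
    ‖j * q‖ ^ 2 ≤ ‖j - j * w‖ * ‖j‖ := by
  have h1 : ‖j * q‖ ^ 2 = ‖(j * q) * star (j * q)‖ := by
    rw [sq, CStarRing.norm_self_mul_star]
  have h2 : (j * q) * star (j * q) = (j - j * w) * star j := by
    rw [star_mul, hq.star_eq]
    have : j * q * (q * star j) = j * (q * q) * star j := by noncomm_ring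
    rw [this, hqw]; noncomm_ring
  rw [h1, h2]
  calc ‖(j - j * w) * star j‖ ≤ ‖j - j * w‖ * ‖star j‖ := norm_mul_le _ _
    _ = _ := by rw [norm_star]

/-- `‖s q‖² ≤ (1 - l) ‖s‖² + l ‖s - s e₁‖ ‖s‖` when `q² = 1 - w`, `w ≥ l e₁`. -/
theorem norm_mul_sqrt_sq_le (s q w e₁ : E) (hq : IsSelfAdjoint q) (hqw : q * q = 1 - w)
    {l : ℝ} (hl0 : 0 ≤ l) (hl1 : l ≤ 1) (hw : l • e₁ ≤ w) :
    ‖s * q‖ ^ 2 ≤ (1 - l) * ‖s‖ ^ 2 + l * (‖s - s * e₁‖ * ‖s‖) := by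
  have h1 : ‖s * q‖ ^ 2 = ‖(s * q) * star (s * q)‖ := by
    rw [sq, CStarRing.norm_self_mul_star]
  have h2 : (s * q) * star (s * q) = s * (1 - w) * star s := by
    rw [star_mul, hq.star_eq]
    have : s * q * (q * star s) = s * (q * q) * star s := by noncomm_ring
    rw [this, hqw]
  have h3 : s * (1 - w) * star s ≤ s * (1 - l • e₁) * star s :=
    star_right_conjugate_le_conjugate (sub_le_sub_left hw _) s
  have h0 : 0 ≤ s * (1 - w) * star s := by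
    rw [← h2]; exact mul_star_self_nonneg _
  have h4 : ‖s * (1 - w) * star s‖ ≤ ‖s * (1 - l • e₁) * star s‖ :=
    CStarAlgebra.norm_le_norm_of_nonneg_of_le h0 h3
  have h5 : s * (1 - l • e₁) * star s
      = (1 - l) • (s * star s) + l • ((s - s * e₁) * star s) := by
    rw [mul_sub, mul_one, mul_smul_comm, sub_mul, smul_mul_assoc, sub_mul, smul_sub, sub_smul,
      one_smul]
    abel
  rw [h1, h2]
  refine h4.trans ?_
  rw [h5]
  refine (norm_add_le _ _).trans (add_le_add ?_ ?_)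
  · rw [norm_smul, Real.norm_eq_abs, abs_of_nonneg (by linarith), CStarRing.norm_self_mul_star, sq]
  · rw [norm_smul, Real.norm_eq_abs, abs_of_nonneg hl0]
    refine mul_le_mul_of_nonneg_left ?_ hl0
    calc ‖(s - s * e₁) * star s‖ ≤ ‖s - s * e₁‖ * ‖star s‖ := norm_mul_le _ _
      _ = _ := by rw [norm_star]

/-- The estimate of Case I. -/
theorem caseI_est (T₁ T₂ d s p q e₁ w : E) (hp : IsSelfAdjoint p) (hq : IsSelfAdjoint q)
    (hqw : q * q = 1 - w) (hp1 : ‖p‖ ≤ 1)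
    {l η δ R : ℝ} (hl0 : 0 ≤ l) (hl1 : l ≤ 1) (hw : l • e₁ ≤ w) (hs : ‖s‖ ≤ 1)
    (hse : ‖s - s * e₁‖ ≤ η) (hd : ‖d‖ ≤ 1) (hT2 : ‖T₂‖ ≤ R)
    (hc : ‖(star T₂ * star d * s) * q - q * (star T₂ * star d * s)‖ ≤ η)
    (h1 : ‖star T₁ * star d * s‖ ≤ δ) :
    ‖star (T₁ * p + T₂ * q) * star d * s‖ ≤ δ + η + R * Real.sqrt (1 - l + l * η) := by
  have hps : star p = p := hp.star_eq
  have hqs : star q = q := hq.star_eq
  have hη : 0 ≤ η := (norm_nonneg _).trans hse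
  have hR : 0 ≤ R := (norm_nonneg _).trans hT2
  have hid : star (T₁ * p + T₂ * q) * star d * s
      = p * (star T₁ * star d * s) - ((star T₂ * star d * s) * q - q * (star T₂ * star d * s))
        + star T₂ * star d * (s * q) := by
    simp only [star_add, star_mul, hps, hqs]
    noncomm_ring
  have hsq : ‖s * q‖ ≤ Real.sqrt (1 - l + l * η) := by
    apply Real.le_sqrt_of_sq_le
    have h := norm_mul_sqrt_sq_le s q w e₁ hq hqw hl0 hl1 hw
    have hs2 : ‖s‖ ^ 2 ≤ 1 := pow_le_one₀ (norm_nonneg _) hs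
    have h3 : ‖s - s * e₁‖ * ‖s‖ ≤ η * 1 := mul_le_mul hse hs (norm_nonneg _) hη
    nlinarith [mul_le_mul_of_nonneg_left h3 hl0, mul_le_mul_of_nonneg_left hs2 (sub_nonneg.2 hl1)]
  rw [hid]
  have n1 : ‖p * (star T₁ * star d * s)‖ ≤ δ := by
    calc ‖p * (star T₁ * star d * s)‖ ≤ ‖p‖ * ‖star T₁ * star d * s‖ := norm_mul_le _ _
      _ ≤ 1 * δ := by gcongr
      _ = δ := one_mul _
  have n3 : ‖star T₂ * star d * (s * q)‖ ≤ R * Real.sqrt (1 - l + l * η) := by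
    calc ‖star T₂ * star d * (s * q)‖ ≤ ‖star T₂ * star d‖ * ‖s * q‖ := norm_mul_le _ _
      _ ≤ (‖star T₂‖ * ‖star d‖) * ‖s * q‖ := by gcongr; exact norm_mul_le _ _
      _ ≤ (R * 1) * Real.sqrt (1 - l + l * η) := by
        rw [norm_star, norm_star]; gcongr
      _ = _ := by ring
  calc ‖p * (star T₁ * star d * s) - ((star T₂ * star d * s) * q - q * (star T₂ * star d * s))
        + star T₂ * star d * (s * q)‖
      ≤ ‖p * (star T₁ * star d * s)‖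
        + ‖(star T₂ * star d * s) * q - q * (star T₂ * star d * s)‖
        + ‖star T₂ * star d * (s * q)‖ :=
        (norm_add_le _ _).trans (add_le_add_left (norm_sub_le _ _) _)
    _ ≤ _ := by linarith

omit [PartialOrder E] [StarOrderedRing E] in
/-- The estimate of Case II. -/
theorem caseII_est (T₁ T₂ d s p q w : E) (hp : IsSelfAdjoint p) (hq : IsSelfAdjoint q)
    (hpw : p * p = w) (hq1 : ‖q‖ ≤ 1)
    {l θ R₁ R : ℝ} (hw : ‖w‖ ≤ l) (hs : ‖s‖ ≤ R) (hd : ‖d‖ ≤ 1) (hT1 : ‖T₁‖ ≤ R₁)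
    (h2 : ‖star T₂ * star d * s‖ ≤ θ) :
    ‖star (T₁ * p + T₂ * q) * star d * s‖ ≤ Real.sqrt l * R₁ * R + θ := by
  have hps : star p = p := hp.star_eq
  have hqs : star q = q := hq.star_eq
  have hR1 : 0 ≤ R₁ := (norm_nonneg _).trans hT1
  have hR : 0 ≤ R := (norm_nonneg _).trans hs
  have hpn : ‖p‖ ≤ Real.sqrt l := by
    apply Real.le_sqrt_of_sq_le
    rw [sq, ← CStarRing.norm_star_mul_self, hps, hpw]; exact hw
  have hid : star (T₁ * p + T₂ * q) * star d * s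
      = p * star T₁ * star d * s + q * (star T₂ * star d * s) := by
    simp only [star_add, star_mul, hps, hqs]
    noncomm_ring
  rw [hid]
  refine (norm_add_le _ _).trans (add_le_add ?_ ?_)
  · calc ‖p * star T₁ * star d * s‖ ≤ ‖p * star T₁ * star d‖ * ‖s‖ := norm_mul_le _ _
      _ ≤ (‖p * star T₁‖ * ‖star d‖) * ‖s‖ := by gcongr; exact norm_mul_le _ _
      _ ≤ ((‖p‖ * ‖star T₁‖) * ‖star d‖) * ‖s‖ := by gcongr; exact norm_mul_le _ _
      _ ≤ ((Real.sqrt l * R₁) * 1) * R := by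
        rw [norm_star, norm_star]; gcongr
      _ = _ := by ring
  · calc ‖q * (star T₂ * star d * s)‖ ≤ ‖q‖ * ‖star T₂ * star d * s‖ := norm_mul_le _ _
      _ ≤ 1 * θ := by gcongr
      _ = θ := one_mul _

end order

section cutvec

/-- the function `ramp k1 k2 t / √t`, made continuous -/
noncomputable def gfun (k1 k2 : ℝ) : ℝ → ℝ :=
  fun t => max 0 (min 1 ((t - k1) / (k2 - k1))) / Real.sqrt (max k1 t)

theorem gfun_continuous {k1 k2 : ℝ} (hk1 : 0 < k1) : Continuous (gfun k1 k2) := by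
  unfold gfun
  refine Continuous.div (by fun_prop) (by fun_prop) ?_
  intro t
  have : 0 < max k1 t := lt_max_of_lt_left hk1
  exact (Real.sqrt_pos.2 this).ne'

theorem gfun_zero {k1 k2 : ℝ} (hk : k1 < k2) {t : ℝ} (ht : t ≤ k1) : gfun k1 k2 t = 0 := by
  unfold gfun
  have h : (t - k1) / (k2 - k1) ≤ 0 := div_nonpos_of_nonpos_of_nonneg (by linarith) (by linarith)
  have : max 0 (min 1 ((t - k1) / (k2 - k1))) = 0 := by
    apply max_eq_left; exact (min_le_right _ _).trans h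
  rw [this, zero_div]

theorem gfun_abs_le {k1 k2 : ℝ} (hk1 : 0 < k1) (t : ℝ) : |gfun k1 k2 t| ≤ 1 / Real.sqrt k1 := by
  unfold gfun
  have hm : 0 < max k1 t := lt_max_of_lt_left hk1
  have h0 : 0 ≤ max 0 (min 1 ((t - k1) / (k2 - k1))) := le_max_left _ _
  have h1 : max 0 (min 1 ((t - k1) / (k2 - k1))) ≤ 1 := max_le (by norm_num) (min_le_left _ _)
  rw [abs_of_nonneg (by positivity)]
  have h2 : Real.sqrt k1 ≤ Real.sqrt (max k1 t) := Real.sqrt_le_sqrt (le_max_left _ _)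
  have h3 : 0 < Real.sqrt k1 := Real.sqrt_pos.2 hk1
  gcongr

theorem gfun_sq_mul_abs_le {k1 k2 : ℝ} (hk1 : 0 < k1) {t : ℝ} (ht : 0 ≤ t) :
    |gfun k1 k2 t * t * gfun k1 k2 t| ≤ 1 := by
  unfold gfun
  have hm : 0 < max k1 t := lt_max_of_lt_left hk1
  set r := max 0 (min 1 ((t - k1) / (k2 - k1))) with hr
  have h0 : 0 ≤ r := le_max_left _ _
  have h1 : r ≤ 1 := max_le (by norm_num) (min_le_left _ _)
  have h3 : 0 < Real.sqrt (max k1 t) := Real.sqrt_pos.2 hm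
  have h4 : r / Real.sqrt (max k1 t) * t * (r / Real.sqrt (max k1 t))
      = r ^ 2 * (t / max k1 t) := by
    have : Real.sqrt (max k1 t) ^ 2 = max k1 t := Real.sq_sqrt hm.le
    field_simp
    rw [this]; ring
  rw [h4, abs_of_nonneg (by positivity)]
  have h5 : t / max k1 t ≤ 1 := (div_le_one hm).2 (le_max_right _ _)
  have h6 : r ^ 2 ≤ 1 := pow_le_one₀ h0 h1
  calc r ^ 2 * (t / max k1 t) ≤ 1 * 1 := by gcongr
    _ = 1 := one_mul _

theorem gfun_sq_mul {k1 k2 : ℝ} (hk1 : 0 < k1) (hk : k1 < k2) {t : ℝ} (ht : k2 ≤ t) :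
    gfun k1 k2 t * t * gfun k1 k2 t = 1 := by
  unfold gfun
  have hr : max 0 (min 1 ((t - k1) / (k2 - k1))) = 1 := by
    have : 1 ≤ (t - k1) / (k2 - k1) := by rw [le_div_iff₀ (by linarith)]; linarith
    rw [min_eq_left this]; simp
  have hm : max k1 t = t := max_eq_right (by linarith)
  have h0 : 0 < t := by linarith
  rw [hr, hm]
  have : Real.sqrt t ^ 2 = t := Real.sq_sqrt h0.le
  have h3 : 0 < Real.sqrt t := Real.sqrt_pos.2 h0
  field_simp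
  rw [this]

/-- Given `S` with `s = S* S` and `0 < k₁ < k₂` there is `g = g(s)` with `S g` a contraction,
killed wherever `‖s‖ ≤ k₁` and of norm one wherever `‖s‖ > k₂`. -/
theorem exists_cut_vec {E : Type u} [CStarAlgebra E]
    (S : E) {k1 k2 : ℝ} (hk1 : 0 < k1) (hk : k1 < k2) :
    ∃ g : E, IsSelfAdjoint g ∧ ‖g‖ ≤ 1 / Real.sqrt k1 ∧ ‖S * g‖ ≤ 1 ∧
      ∀ (Q : Type v) [CStarAlgebra Q] (ρ : E →⋆ₐ[ℂ] Q),
        (‖ρ (star S * S)‖ ≤ k1 → ρ (S * g) = 0) ∧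
        (k2 < ‖ρ (star S * S)‖ → 1 ≤ ‖ρ (S * g)‖) := by
  set s : E := star S * S with hs
  have hsa : IsSelfAdjoint s := IsSelfAdjoint.star_mul_self S
  have hspec : ∀ t ∈ spectrum ℝ s, 0 ≤ t := spectrum_star_mul_self_nonneg
  have hgc := gfun_continuous (k2 := k2) hk1
  set g : E := cfc (gfun k1 k2) s with hg
  have hgsa : IsSelfAdjoint g := cfc_predicate _ _
  have key : ∀ (Q : Type u) [CStarAlgebra Q] (σ : Q), IsSelfAdjoint σ →
      cfc (gfun k1 k2) σ * σ * cfc (gfun k1 k2) σ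
        = cfc (fun t => gfun k1 k2 t * t * gfun k1 k2 t) σ := by
    intro Q _ σ hσ
    rw [cfc_mul (fun t => gfun k1 k2 t * t) (gfun k1 k2) σ (by fun_prop) (by fun_prop),
      cfc_mul (gfun k1 k2) (fun t => t) σ (by fun_prop) (by fun_prop), cfc_id' ℝ σ]
  have key' : ∀ (Q : Type v) [CStarAlgebra Q] (σ : Q), IsSelfAdjoint σ →
      cfc (gfun k1 k2) σ * σ * cfc (gfun k1 k2) σ
        = cfc (fun t => gfun k1 k2 t * t * gfun k1 k2 t) σ := by
    intro Q _ σ hσ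
    rw [cfc_mul (fun t => gfun k1 k2 t * t) (gfun k1 k2) σ (by fun_prop) (by fun_prop),
      cfc_mul (gfun k1 k2) (fun t => t) σ (by fun_prop) (by fun_prop), cfc_id' ℝ σ]
  have hSg : star (S * g) * (S * g) = g * s * g := by
    rw [star_mul, hgsa.star_eq, hs]; noncomm_ring
  refine ⟨g, hgsa, ?_, ?_, ?_⟩
  · refine norm_cfc_le (by positivity) ?_
    intro t _
    rw [Real.norm_eq_abs]; exact gfun_abs_le hk1 t
  · have h1 : ‖S * g‖ * ‖S * g‖ ≤ 1 := by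
      rw [← CStarRing.norm_star_mul_self, hSg, hg, key E s hsa]
      refine norm_cfc_le (by positivity) ?_
      intro t ht
      rw [Real.norm_eq_abs]; exact gfun_sq_mul_abs_le hk1 (hspec t ht)
    nlinarith [norm_nonneg (S * g)]
  · intro Q _ ρ
    have hρsa : IsSelfAdjoint (ρ s) := hsa.map ρ
    have hcont : Continuous ρ :=
      AddMonoidHomClass.continuous_of_bound ρ 1 (by
        simpa only [one_mul] using fun a => NonUnitalStarAlgHom.norm_apply_le ρ a)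
    have hρg : ρ g = cfc (gfun k1 k2) (ρ s) :=
      StarAlgHomClass.map_cfc ρ (gfun k1 k2) s (by fun_prop) hcont hsa hρsa
    refine ⟨?_, ?_⟩
    · intro hle
      rcases subsingleton_or_nontrivial Q with hQ | hQ
      · exact Subsingleton.elim _ _
      have h0 : ρ g = 0 := by
        rw [hρg]
        have : cfc (gfun k1 k2) (ρ s) = cfc (fun _ => (0 : ℝ)) (ρ s) := by
          refine cfc_congr ?_
          intro t ht
          have : ‖t‖ ≤ ‖ρ s‖ := spectrum.norm_le_norm_of_mem ht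
          exact gfun_zero hk ((le_abs_self t).trans (this.trans hle))
        rw [this]; simp
      rw [map_mul, h0, mul_zero]
    · intro hlt
      let _ : PartialOrder Q := CStarAlgebra.spectralOrder Q
      let _ : StarOrderedRing Q := CStarAlgebra.spectralOrderedRing Q
      have hQ : Nontrivial Q := by
        by_contra hne
        rw [not_nontrivial_iff_subsingleton] at hne
        have : ρ s = 0 := Subsingleton.elim _ _
        rw [this, norm_zero] at hlt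
        linarith
      have hpos : 0 ≤ ρ s := by
        rw [hs, map_mul, map_star]; exact star_mul_self_nonneg _
      have hmem : ‖ρ s‖ ∈ spectrum ℝ (ρ s) := CStarAlgebra.norm_mem_spectrum_of_nonneg hpos
      have h1 : ‖ρ (S * g)‖ * ‖ρ (S * g)‖ = ‖cfc (fun t => gfun k1 k2 t * t * gfun k1 k2 t) (ρ s)‖ := by
        rw [← CStarRing.norm_star_mul_self, ← map_star, ← map_mul, hSg, map_mul, map_mul, hρg,
          key' Q (ρ s) hρsa]
      have h2 := norm_apply_le_norm_cfc (fun t => gfun k1 k2 t * t * gfun k1 k2 t) (ρ s) hmem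
        (by fun_prop) hρsa
      rw [gfun_sq_mul hk1 hk hlt.le, ← h1, norm_one] at h2
      nlinarith [norm_nonneg (ρ (S * g))]


end cutvec

end Crest.Agent.R110.SLAux
end

-- ▼ part R110/SuperPQ

/-!
# R110.SuperPQ (helper646) : the square roots `p = √w`, `q = √(1-w)` and the constants
-/

set_option autoImplicit false

open scoped Topology

universe u

namespace Crest.Agent.R110

namespace SLAux

section construct

variable {E : Type u} [CStarAlgebra E] [PartialOrder E] [StarOrderedRing E]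

/-- The square roots used for the superposition. -/
theorem exists_pq (h : E) {k1 k2 : ℝ} (hk : k1 ≤ k2) {l : ℝ} (hl0 : 0 < l) (hl1 : l < 1)
    (s x y j₁ j₂ : E) (hs1 : ‖s‖ ≤ 1)
    (hs : ∀ (Q : Type u) [CStarAlgebra Q] (ρ : E →⋆ₐ[ℂ] Q), ‖ρ h‖ ≤ k1 → ρ s = 0)
    (hj₁ : ∀ (Q : Type u) [CStarAlgebra Q] (ρ : E →⋆ₐ[ℂ] Q), ‖ρ h‖ ≤ k2 → ρ j₁ = 0)
    (hj₂ : ∀ (Q : Type u) [CStarAlgebra Q] (ρ : E →⋆ₐ[ℂ] Q), ‖ρ h‖ ≤ k2 → ρ j₂ = 0)
    {η : ℝ} (hη : 0 < η) :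
    ∃ p q w e₁ : E, IsSelfAdjoint p ∧ IsSelfAdjoint q ∧ p * p = w ∧ q * q = 1 - w ∧ ‖p‖ ≤ 1 ∧
      ‖q‖ ≤ 1 ∧
      ‖j₁ * q‖ ≤ η ∧ ‖j₂ * q‖ ≤ η ∧ ‖x * p - p * x‖ ≤ η ∧ ‖x * q - q * x‖ ≤ η ∧
      ‖y * q - q * y‖ ≤ η ∧ l • e₁ ≤ w ∧ ‖s - s * e₁‖ ≤ η ∧
      ∀ (Q : Type u) [CStarAlgebra Q] (ρ : E →⋆ₐ[ℂ] Q), ‖ρ h‖ ≤ k2 → ‖ρ w‖ ≤ l := by
  classical
  have hc1 : Continuous fun t : ℝ => Real.sqrt t := by fun_prop
  have hc2 : Continuous fun t : ℝ => Real.sqrt (1 - t) := by fun_prop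
  obtain ⟨δ₁, hδ₁, H₁⟩ := comm_cfc.{u} (fun t : ℝ => Real.sqrt t) hc1.continuousOn
    (max ‖x‖ ‖y‖) hη
  obtain ⟨δ₂, hδ₂, H₂⟩ := comm_cfc.{u} (fun t : ℝ => Real.sqrt (1 - t)) hc2.continuousOn
    (max ‖x‖ ‖y‖) hη
  set η' : ℝ := min (min δ₁ δ₂) (min η (η ^ 2 / (‖j₁‖ + ‖j₂‖ + 1))) with hη'
  have hη'pos : 0 < η' := by positivity
  have a1 : η' ≤ δ₁ := (min_le_left _ _).trans (min_le_left _ _)
  have a2 : η' ≤ δ₂ := (min_le_left _ _).trans (min_le_right _ _)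
  have a3 : η' ≤ η := (min_le_right _ _).trans (min_le_left _ _)
  have a4 : η' ≤ η ^ 2 / (‖j₁‖ + ‖j₂‖ + 1) := (min_le_right _ _).trans (min_le_right _ _)
  obtain ⟨e₁, he₁k, he₁0, he₁1, he₁X, he₁G⟩ := exists_quasiCentral_thr h k1 {x, y} {j₁, j₂, s}
    (by
      intro j hj
      simp only [Finset.mem_insert, Finset.mem_singleton] at hj
      rcases hj with rfl | rfl | rfl
      · intro Q _ ρ hle; exact hj₁ Q ρ (hle.trans hk)
      · intro Q _ ρ hle; exact hj₂ Q ρ (hle.trans hk)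
      · intro Q _ ρ hle; exact hs Q ρ hle) hη'pos
  obtain ⟨e₂, he₂k, he₂0, he₂1, he₂X, he₂G⟩ := exists_quasiCentral_thr h k2 {x, y} {j₁, j₂}
    (by
      intro j hj
      simp only [Finset.mem_insert, Finset.mem_singleton] at hj
      rcases hj with rfl | rfl
      · intro Q _ ρ hle; exact hj₁ Q ρ hle
      · intro Q _ ρ hle; exact hj₂ Q ρ hle) hη'pos
  have hl1' : 0 ≤ 1 - l := by linarith
  set w : E := l • e₁ + (1 - l) • e₂ with hw
  have hw0 : 0 ≤ w := add_nonneg (smul_nonneg hl0.le he₁0) (smul_nonneg hl1' he₂0)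
  have hw1 : w ≤ 1 := by
    calc w ≤ l • (1 : E) + (1 - l) • (1 : E) :=
          add_le_add (smul_le_smul_of_nonneg_left he₁1 hl0.le)
            (smul_le_smul_of_nonneg_left he₂1 hl1')
      _ = 1 := by rw [← add_smul]; simp
  have hwsa : IsSelfAdjoint w := .of_nonneg hw0
  have hspec0 : ∀ t ∈ spectrum ℝ w, 0 ≤ t := fun t ht => spectrum_nonneg_of_nonneg hw0 ht
  have hspec1 : ∀ t ∈ spectrum ℝ w, t ≤ 1 := fun t ht =>
    (le_algebraMap_iff_spectrum_le (r := (1 : ℝ)) (a := w)).mp (by simpa using hw1) t ht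
  -- commutators of `w`
  have hwcomm : ∀ z : E, ‖e₁ * z - z * e₁‖ ≤ η' → ‖e₂ * z - z * e₂‖ ≤ η' →
      ‖w * z - z * w‖ ≤ η' := by
    intro z h1 h2
    have : w * z - z * w = l • (e₁ * z - z * e₁) + (1 - l) • (e₂ * z - z * e₂) := by
      rw [hw, add_mul, mul_add, smul_mul_assoc, smul_mul_assoc, mul_smul_comm, mul_smul_comm,
        smul_sub, smul_sub]
      abel
    rw [this]
    calc ‖l • (e₁ * z - z * e₁) + (1 - l) • (e₂ * z - z * e₂)‖
        ≤ ‖l • (e₁ * z - z * e₁)‖ + ‖(1 - l) • (e₂ * z - z * e₂)‖ := norm_add_le _ _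
      _ = l * ‖e₁ * z - z * e₁‖ + (1 - l) * ‖e₂ * z - z * e₂‖ := by
          rw [norm_smul, norm_smul, Real.norm_eq_abs, Real.norm_eq_abs, abs_of_nonneg hl0.le,
            abs_of_nonneg hl1']
      _ ≤ l * η' + (1 - l) * η' := by gcongr
      _ = η' := by ring
  have hwx : ‖w * x - x * w‖ ≤ η' := hwcomm x (he₁X x (by simp)) (he₂X x (by simp))
  have hwy : ‖w * y - y * w‖ ≤ η' := hwcomm y (he₁X y (by simp)) (he₂X y (by simp))
  have hfix : ∀ j : E, ‖j * e₁ - j‖ ≤ η' → ‖j * e₂ - j‖ ≤ η' → ‖j - j * w‖ ≤ η' := by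
    intro j h1 h2
    have : j - j * w = l • (j - j * e₁) + (1 - l) • (j - j * e₂) := by
      rw [hw, mul_add, mul_smul_comm, mul_smul_comm]
      module
    rw [this]
    calc ‖l • (j - j * e₁) + (1 - l) • (j - j * e₂)‖
        ≤ ‖l • (j - j * e₁)‖ + ‖(1 - l) • (j - j * e₂)‖ := norm_add_le _ _
      _ = l * ‖j - j * e₁‖ + (1 - l) * ‖j - j * e₂‖ := by
          rw [norm_smul, norm_smul, Real.norm_eq_abs, Real.norm_eq_abs, abs_of_nonneg hl0.le,
            abs_of_nonneg hl1']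
      _ ≤ l * η' + (1 - l) * η' := by
          rw [norm_sub_rev j, norm_sub_rev j]; gcongr
      _ = η' := by ring
  have hwj₁ : ‖j₁ - j₁ * w‖ ≤ η' := hfix j₁ (he₁G j₁ (by simp)).2 (he₂G j₁ (by simp)).2
  have hwj₂ : ‖j₂ - j₂ * w‖ ≤ η' := hfix j₂ (he₁G j₂ (by simp)).2 (he₂G j₂ (by simp)).2
  set p : E := cfc (fun t : ℝ => Real.sqrt t) w with hp
  set q : E := cfc (fun t : ℝ => Real.sqrt (1 - t)) w with hq
  have hpp : p * p = w := by
    rw [hp, ← cfc_mul _ _ w (by fun_prop) (by fun_prop)]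
    conv_rhs => rw [← cfc_id' ℝ w]
    exact cfc_congr fun t ht => Real.mul_self_sqrt (hspec0 t ht)
  have hqq : q * q = 1 - w := by
    rw [hq, ← cfc_mul _ _ w (by fun_prop) (by fun_prop)]
    have : (1 : E) - w = cfc (fun t : ℝ => 1 - t) w := by
      rw [cfc_sub (fun _ : ℝ => (1 : ℝ)) (fun t => t) w (by fun_prop) (by fun_prop), cfc_id' ℝ w,
        cfc_const_one ℝ w]
    rw [this]
    exact cfc_congr fun t ht => Real.mul_self_sqrt (by linarith [hspec1 t ht])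
  have hpsa : IsSelfAdjoint p := cfc_predicate _ _
  have hqsa : IsSelfAdjoint q := cfc_predicate _ _
  have hp1 : ‖p‖ ≤ 1 := norm_cfc_le (by norm_num) fun t ht => by
    rw [Real.norm_eq_abs, abs_of_nonneg (Real.sqrt_nonneg _)]
    exact Real.sqrt_le_one.mpr (hspec1 t ht)
  have hq1 : ‖q‖ ≤ 1 := norm_cfc_le (by norm_num) fun t ht => by
    rw [Real.norm_eq_abs, abs_of_nonneg (Real.sqrt_nonneg _)]
    exact Real.sqrt_le_one.mpr (by linarith [hspec0 t ht])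
  have hjq : ∀ j : E, ‖j‖ ≤ ‖j₁‖ + ‖j₂‖ → ‖j - j * w‖ ≤ η' → ‖j * q‖ ≤ η := by
    intro j hjn hj
    have h1 := norm_mul_sqrt_sq j q w hqsa hqq
    have h2 : ‖j - j * w‖ * ‖j‖ ≤ η ^ 2 := by
      calc ‖j - j * w‖ * ‖j‖ ≤ (η ^ 2 / (‖j₁‖ + ‖j₂‖ + 1)) * (‖j₁‖ + ‖j₂‖ + 1) := by
            refine mul_le_mul (hj.trans a4) (hjn.trans (by linarith)) (norm_nonneg _)
              (by positivity)
        _ = η ^ 2 := by field_simp
    exact le_of_sq_le_sq (h1.trans h2) hη.le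
  refine ⟨p, q, w, e₁, hpsa, hqsa, hpp, hqq, hp1, hq1,
    hjq j₁ (by linarith [norm_nonneg j₂]) hwj₁, hjq j₂ (by linarith [norm_nonneg j₁]) hwj₂,
    ?_, ?_, ?_, ?_, ?_, ?_⟩
  · rw [norm_sub_rev]
    exact H₁ E w x hw0 hw1 (le_max_left _ _) (hwx.trans a1)
  · rw [norm_sub_rev]
    exact H₂ E w x hw0 hw1 (le_max_left _ _) (hwx.trans a2)
  · rw [norm_sub_rev]
    exact H₂ E w y hw0 hw1 (le_max_right _ _) (hwy.trans a2)
  · rw [hw]; exact le_add_of_nonneg_right (smul_nonneg hl1' he₂0)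
  · rw [norm_sub_rev]; exact ((he₁G s (by simp)).2).trans a3
  · intro Q _ ρ hle
    have hsm : ∀ (c : ℝ) (z : E), ρ (c • z) = c • ρ z := by
      intro c z
      rw [← Complex.coe_smul c z, map_smul, Complex.coe_smul]
    rw [hw, map_add, hsm, hsm, he₂k Q ρ hle, smul_zero, add_zero, norm_smul,
      Real.norm_eq_abs, abs_of_nonneg hl0.le]
    have : ‖ρ e₁‖ ≤ 1 :=
      (NonUnitalStarAlgHom.norm_apply_le ρ e₁).trans (norm_le_one_of_nonneg_of_le_one he₁0 he₁1)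
    nlinarith

end construct

/-- The choice of the input error `δ`. -/
theorem exists_delta {l θ₁ θa θb θ' : ℝ}
    (hθb : 0 < θb) (h1 : Real.sqrt l + θ₁ < θa) (h2 : Real.sqrt (1 - l) < θa) (h3 : θb < θ') :
    ∃ δ : ℝ, 0 < δ ∧ δ < 1 / 10 ∧
      δ * (1 / Real.sqrt (1 / 6)) + δ + (1 + δ) * Real.sqrt (1 - l + l * δ) < θa ∧
      θ₁ < (θa - Real.sqrt l * (1 + δ)) * (1 - δ) ∧
      θb ^ 2 * (1 + δ) < θ' ^ 2 * (1 - 10 * δ) := by
  have e1 : ∀ᶠ δ : ℝ in 𝓝 0,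
      δ * (1 / Real.sqrt (1 / 6)) + δ + (1 + δ) * Real.sqrt (1 - l + l * δ) < θa := by
    have hc : Continuous fun δ : ℝ =>
      δ * (1 / Real.sqrt (1 / 6)) + δ + (1 + δ) * Real.sqrt (1 - l + l * δ) := by fun_prop
    refine (hc.tendsto 0).eventually_lt_const ?_
    simpa using h2
  have e2 : ∀ᶠ δ : ℝ in 𝓝 0, θ₁ < (θa - Real.sqrt l * (1 + δ)) * (1 - δ) := by
    have hc : Continuous fun δ : ℝ => (θa - Real.sqrt l * (1 + δ)) * (1 - δ) := by fun_prop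
    refine (hc.tendsto 0).eventually_const_lt ?_
    simp only [add_zero, mul_one, sub_zero]; linarith
  have e3 : ∀ᶠ δ : ℝ in 𝓝 0, 0 < θ' ^ 2 * (1 - 10 * δ) - θb ^ 2 * (1 + δ) := by
    have hc : Continuous fun δ : ℝ => θ' ^ 2 * (1 - 10 * δ) - θb ^ 2 * (1 + δ) := by fun_prop
    refine (hc.tendsto 0).eventually_const_lt ?_
    simp only [mul_zero, sub_zero, mul_one, add_zero]
    nlinarith
  have e4 : ∀ᶠ δ : ℝ in 𝓝 0, δ < 1 / 10 := eventually_lt_nhds (by norm_num)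
  have e5 : ∀ᶠ δ : ℝ in 𝓝[>] 0, (_ ∧ _) ∧ 0 < δ :=
    ((e1.and (e2.and (e3.and e4))).filter_mono nhdsWithin_le_nhds).and self_mem_nhdsWithin
  obtain ⟨δ, ⟨g1, g2, g3, g4⟩, g5⟩ := e5.exists
  exact ⟨δ, g5, g4, g1, g2, by linarith⟩

theorem real1 {n δ : ℝ} (hn : 0 ≤ n) (hδ : 0 < δ) (h : n * n ≤ 1 + δ) : n ≤ 1 + δ := by
  nlinarith

theorem real2 {a n : ℝ} (ha : 0 < a) (hn : 1 ≤ n) : a ≤ a * n := by nlinarith

theorem real3 {r n δ : ℝ} (hn : 0 ≤ n) (hδ : 0 < δ) (h1 : 1 ≤ r)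
    (h2 : r ≤ n * n + δ) : 1 - δ ≤ n := by
  by_contra hlt
  push Not at hlt
  nlinarith

theorem real4 {a b n θ δ : ℝ} (hδ : 0 < δ) (hδ1 : δ < 1 / 10) (hθ : 0 ≤ θ) (hn : 1 - δ ≤ n)
    (h : θ < (a - b * (1 + δ)) * (1 - δ)) : b * (1 + δ) * n + θ < a * n := by
  have hc : 0 < a - b * (1 + δ) := by
    by_contra hneg
    push Not at hneg
    nlinarith
  have h9 : θ < (a - b * (1 + δ)) * n := h.trans_le (by gcongr)
  linarith [h9]

theorem real5 {θb θ' δ m n : ℝ} (hδ1 : δ < 1 / 10) (hθ' : 0 < θ')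
    (hm : m ≤ δ) (h : n ^ 2 ≤ (1 + m) / (1 - 10 * δ))
    (h3 : θb ^ 2 * (1 + δ) < θ' ^ 2 * (1 - 10 * δ)) : θb * n ≤ θ' := by
  have hκ : 0 < 1 - 10 * δ := by linarith
  have h' : n ^ 2 ≤ (1 + δ) / (1 - 10 * δ) := by
    refine h.trans ?_
    gcongr
  have hfin : (θb * n) ^ 2 ≤ θ' ^ 2 := by
    rw [mul_pow]
    calc θb ^ 2 * n ^ 2 ≤ θb ^ 2 * ((1 + δ) / (1 - 10 * δ)) := by gcongr
      _ = (θb ^ 2 * (1 + δ)) / (1 - 10 * δ) := by ring
      _ ≤ θ' ^ 2 := by rw [div_le_iff₀ hκ]; exact h3.le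
  exact le_of_sq_le_sq hfin hθ'.le

end SLAux

end Crest.Agent.R110
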