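import Crest.Agent.R110.Compare
import Crest.Agent.R110.SuperPQ
import Mathlib
import Crest.Agent.R110.Defs
import Crest.Agent.R110.CutRp

-- ▼ part R110/Super
section

/-!
# R110.Super (helper646) : the superposition lemma (SL)
-/

set_option autoImplicit false

universe u

namespace Crest.Agent.R110

set_option maxHeartbeats 2000000 in
/-- SL (superposition). -/
theorem superposition {lam θ₁ θ' : ℝ} (h0 : 0 < lam) (h1 : lam < 1) (hθ₁ : 0 ≤ θ₁)
    (hA : Real.sqrt lam + θ₁ < θ') (hB : 1 - lam < θ' ^ 2) :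
    ∃ δ : ℝ, 0 < δ ∧ ∀ (E : Type u) [CStarAlgebra E] [PartialOrder E] [StarOrderedRing E]
      (I : Set E) (_ : PIIdeal I) (α β d v v' w w' S₁ T₁ : E),
      IsSelfAdjoint α → α ∈ I → IsSelfAdjoint β → β ∈ I → ‖d‖ ≤ 1 →
      ‖v‖ ≤ 1 → 0 ≤ v' → ‖v'‖ ≤ 1 →
      (∀ (Q : Type u) [CStarAlgebra Q] (ρ : E →⋆ₐ[ℂ] Q), ρ v' ≠ 0 → 1 ≤ ‖ρ v‖) →
      ‖w‖ ≤ 1 → 0 ≤ w' → ‖w'‖ ≤ 1 →
      (∀ (Q : Type u) [CStarAlgebra Q] (ρ : E →⋆ₐ[ℂ] Q), ρ w' ≠ 0 → 1 ≤ ‖ρ w‖) →
      ‖S₁‖ ≤ 1 → α * S₁ = S₁ → β * T₁ = T₁ → ‖star S₁ * d * T₁‖ ≤ δ → ‖star T₁ * T₁ - w‖ ≤ δ →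
      (∀ (B : Type u) [CStarAlgebra B] [PartialOrder B] [StarOrderedRing B] (π : E →⋆ₐ[ℂ] B),
        Function.Surjective π → ‖π (star S₁ * S₁)‖ ≤ 1 / 2 →
        ∃ S₂ T₂ : B, π α * S₂ = S₂ ∧ π β * T₂ = T₂ ∧ ‖star S₂ * S₂ - π v‖ ≤ δ ∧
          ‖star T₂ * T₂ - π w‖ ≤ δ ∧ ‖star (π T₁) * T₂‖ ≤ δ ∧ ‖star S₂ * π d * T₂‖ ≤ θ₁) →
      ∀ ε : ℝ, 0 < ε → ∃ S T : E, (∃ y, S = α * y) ∧ (∃ y, T = β * y) ∧
        ‖star S * S - v'‖ < ε ∧ ‖star T * T - w'‖ < ε ∧ ‖star S * d * T‖ ≤ θ' := by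
  have hsl : 0 < Real.sqrt lam := Real.sqrt_pos.2 h0
  have hθ'pos : 0 < θ' := by linarith
  have hsl1 : Real.sqrt (1 - lam) < θ' := by
    rw [Real.sqrt_lt' hθ'pos]; exact hB
  set M : ℝ := max (Real.sqrt lam + θ₁) (Real.sqrt (1 - lam)) with hMdef
  have hM : M < θ' := max_lt hA hsl1
  have hM0 : 0 < M := lt_max_of_lt_left (by linarith)
  have hMa : Real.sqrt lam + θ₁ ≤ M := le_max_left _ _
  have hMb : Real.sqrt (1 - lam) ≤ M := le_max_right _ _
  set θa : ℝ := (2 * M + θ') / 3 with hθa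
  set θb : ℝ := (M + 2 * θ') / 3 with hθb
  have hθa0 : 0 < θa := by rw [hθa]; linarith
  have hθab : θa < θb := by rw [hθa, hθb]; linarith
  have hθb' : θb < θ' := by rw [hθb]; linarith
  obtain ⟨δ, hδ0, hδ1, g1, g2, g3⟩ := SLAux.exists_delta (l := lam) (θ₁ := θ₁) (θa := θa)
    (θb := θb) (θ' := θ') (hθa0.trans hθab) (by rw [hθa]; linarith) (by rw [hθa]; linarith) hθb'
  refine ⟨δ, hδ0, ?_⟩
  intro E _ _ _ I hI α β d v v' w w' S₁ T₁ hα hαI hβ hβI hd hv hv'0 hv'1 hvv' hw hw'0 hw'1 hww'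
    hS1 hαS hβT hST hTT hsup ε hε
  set s₁ : E := star S₁ * S₁ with hs₁
  have hs₁0 : 0 ≤ s₁ := star_mul_self_nonneg S₁
  obtain ⟨B, _, π, hπ, hπs, -, hfac, hlift⟩ := exists_quot hs₁0 (k := 1 / 2) (by norm_num)
  let _ : PartialOrder B := CStarAlgebra.spectralOrder B
  let _ : StarOrderedRing B := CStarAlgebra.spectralOrderedRing B
  have hπT : ∀ z : E, π z = 0 → Thr s₁ (1 / 2) z := by
    intro z hz Q _ ρ hle
    obtain ⟨σ, hσ⟩ := hfac Q ρ hle
    rw [← hσ, hz, map_zero]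
  obtain ⟨S₂, T₂, hαS2, hβT2, hS2, hT2, hT12, hθ⟩ := hsup B π hπ hπs
  -- the lift of `T₂`
  obtain ⟨t, ht, -⟩ := hlift T₂
  obtain ⟨y₀, -, hy1, hy2⟩ := exists_mul_norm_le π (β * t)
  set T₂' : E := β * t * y₀ with hT₂'
  have hT2' : π T₂' = T₂ := by rw [hy1, map_mul, ht, hβT2]
  have hT2n : ‖T₂'‖ ≤ ‖T₂‖ := by
    refine hy2.trans (le_of_eq ?_)
    rw [map_mul, ht, hβT2]
  have hgram_le : ∀ (A : Type u) [CStarAlgebra A] (X z : A), ‖star X * X - z‖ ≤ δ → ‖z‖ ≤ 1 →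
      ‖X‖ ≤ 1 + δ := by
    intro A _ X z hX hz
    have h2 : ‖X‖ * ‖X‖ ≤ 1 + δ := by
      rw [← CStarRing.norm_star_mul_self]
      calc ‖star X * X‖ = ‖(star X * X - z) + z‖ := by rw [sub_add_cancel]
        _ ≤ ‖star X * X - z‖ + ‖z‖ := norm_add_le _ _
        _ ≤ 1 + δ := by linarith
    exact SLAux.real1 (norm_nonneg X) hδ0 h2
  have hT2le : ‖T₂'‖ ≤ 1 + δ :=
    hT2n.trans (hgram_le B T₂ (π w) hT2 ((norm_hom_le π w).trans hw))
  have hT1le : ‖T₁‖ ≤ 1 + δ := hgram_le E T₁ w hTT hw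
  -- the elements of the kernel
  obtain ⟨x₁, hx1, hx1n⟩ := hlift (star T₂ * T₂ - π w)
  obtain ⟨x₂, hx2, hx2n⟩ := hlift (star (π T₁) * T₂)
  set j₁ : E := star T₂' * T₂' - w - x₁ with hj₁
  set j₂ : E := star T₁ * T₂' - x₂ with hj₂
  have hj1 : Thr s₁ (1 / 3) j₁ := by
    intro Q _ ρ hle
    refine hπT j₁ ?_ Q ρ (hle.trans (by norm_num))
    rw [hj₁, map_sub, map_sub, map_mul, map_star, hT2', hx1, sub_self]
  have hj2 : Thr s₁ (1 / 3) j₂ := by
    intro Q _ ρ hle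
    refine hπT j₂ ?_ Q ρ (hle.trans (by norm_num))
    rw [hj₂, map_sub, map_mul, map_star, hT2', hx2, sub_self]
  -- the cut vector
  obtain ⟨g, hgsa, hgn, hSg, hgQ⟩ := SLAux.exists_cut_vec.{u, u} S₁ (k1 := 1 / 6) (k2 := 1 / 3)
    (by norm_num) (by norm_num)
  set s' : E := S₁ * g with hs'
  have hs'Thr : Thr s₁ (1 / 6) s' := fun Q _ ρ hle => (hgQ Q ρ).1 hle
  obtain ⟨p, q, ww, e₁, hp, hq, hpw, hqw, hp1, hq1, hj1q, hj2q, hxp, hxq, hyq, hle₁, hse, hwQ⟩ :=
    SLAux.exists_pq s₁ (k1 := 1 / 6) (k2 := 1 / 3) (by norm_num) h0 h1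
      s' w (star T₂' * star d * s') j₁ j₂ hSg hs'Thr hj1 hj2 hδ0
  set T₀ : E := T₁ * p + T₂' * q with hT₀
  have gram : ‖star T₀ * T₀ - w‖ ≤ 4 * δ + 5 * δ := by
    refine SLAux.gram_est T₁ T₂' w p q j₁ j₂ hp hq (by rw [hpw, hqw]; abel) hp1 hq1 hTT ?_ ?_
      hj1q hj2q hxp hxq
    · rw [hj₁, sub_sub_cancel]; exact hx1n.trans hT2
    · rw [hj₂, sub_sub_cancel]; exact hx2n.trans hT12
  have hT0β : T₀ = β * (T₁ * p + t * y₀ * q) := by
    rw [mul_add, ← mul_assoc, hβT, hT₀, hT₂']; simp only [mul_assoc]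
  have hT0I : T₀ ∈ I := by rw [hT0β]; exact hI.mul_right _ hβI
  have hST' : ‖star T₁ * star d * S₁‖ ≤ δ := by
    have : star T₁ * star d * S₁ = star (star S₁ * d * T₁) := by
      simp only [star_mul, star_star, mul_assoc]
    rw [this, norm_star]; exact hST
  have h1g : ‖star T₁ * star d * s'‖ ≤ δ * (1 / Real.sqrt (1 / 6)) := by
    have : star T₁ * star d * s' = (star T₁ * star d * S₁) * g := by
      rw [hs']; simp only [mul_assoc]
    rw [this]
    calc ‖(star T₁ * star d * S₁) * g‖ ≤ ‖star T₁ * star d * S₁‖ * ‖g‖ := norm_mul_le _ _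
      _ ≤ δ * (1 / Real.sqrt (1 / 6)) := by gcongr
  have caseI : ‖star T₀ * star d * s'‖ < θa := by
    refine lt_of_le_of_lt ?_ g1
    exact SLAux.caseI_est T₁ T₂' d s' p q e₁ ww hp hq hqw hp1 h0.le h1.le hle₁ hSg hse hd hT2le
      hyq h1g
  -- the harm condition
  have harm : ∀ (Q : Type u) [CStarAlgebra Q] (ρ : E →⋆ₐ[ℂ] Q), ρ v' ≠ 0 →
      ∃ s : Q, ρ α * s = s ∧ ‖star (ρ T₀) * star (ρ d) * s‖ < θa * ‖s‖ := by
    intro Q _ ρ hρ
    by_cases hcase : 1 / 3 < ‖ρ s₁‖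
    · refine ⟨ρ s', ?_, ?_⟩
      · rw [← map_mul, hs', ← mul_assoc, hαS]
      · have h3 : ‖star (ρ T₀) * star (ρ d) * ρ s'‖ = ‖ρ (star T₀ * star d * s')‖ := by
          simp only [map_mul, map_star]
        rw [h3]
        have h4 : 1 ≤ ‖ρ s'‖ := (hgQ Q ρ).2 hcase
        calc ‖ρ (star T₀ * star d * s')‖ ≤ ‖star T₀ * star d * s'‖ := norm_hom_le _ _
          _ < θa := caseI
          _ ≤ θa * ‖ρ s'‖ := SLAux.real2 hθa0 h4
    · push Not at hcase
      obtain ⟨ρ', hρ'⟩ := hfac Q ρ (hcase.trans (by norm_num))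
      refine ⟨ρ' S₂, ?_, ?_⟩
      · rw [← hρ' α, ← map_mul, hαS2]
      · set s : Q := ρ' S₂ with hsdef
        have hρT2 : ρ T₂' = ρ' T₂ := by rw [← hρ', hT2']
        have hsT : ‖star (ρ T₂') * star (ρ d) * s‖ ≤ θ₁ := by
          have h5 : star (ρ T₂') * star (ρ d) * s = star (ρ' (star S₂ * π d * T₂)) := by
            rw [hρT2, ← hρ' d, hsdef]
            simp only [map_mul, map_star, star_mul, star_star, mul_assoc]
          rw [h5, norm_star]
          exact (norm_hom_le _ _).trans hθ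
        have hT0Q : ρ T₀ = ρ T₁ * ρ p + ρ T₂' * ρ q := by
          rw [hT₀, map_add, map_mul, map_mul]
        have hest := SLAux.caseII_est (ρ T₁) (ρ T₂') (ρ d) s (ρ p) (ρ q) (ρ ww)
          (hp.map ρ) (hq.map ρ) (by rw [← map_mul, hpw]) ((norm_hom_le _ _).trans hq1)
          (hwQ Q ρ hcase) (le_refl ‖s‖) ((norm_hom_le _ _).trans hd)
          ((norm_hom_le _ _).trans hT1le) hsT
        rw [← hT0Q] at hest
        have hs_ge : 1 - δ ≤ ‖s‖ := by
          have h6 : ‖star s * s - ρ v‖ ≤ δ := by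
            have : star s * s - ρ v = ρ' (star S₂ * S₂ - π v) := by
              rw [map_sub, hρ', hsdef, map_mul, map_star]
            rw [this]; exact (norm_hom_le _ _).trans hS2
          have h7 : ‖ρ v‖ ≤ ‖star s * s‖ + δ := by
            calc ‖ρ v‖ = ‖star s * s - (star s * s - ρ v)‖ := by rw [sub_sub_cancel]
              _ ≤ ‖star s * s‖ + ‖star s * s - ρ v‖ := norm_sub_le _ _
              _ ≤ _ := by linarith
          rw [CStarRing.norm_star_mul_self] at h7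
          exact SLAux.real3 (norm_nonneg s) hδ0 (hvv' Q ρ hρ) h7
        exact lt_of_le_of_lt hest (SLAux.real4 hδ0 hδ1 hθ₁ hs_ge g2)
  -- extraction
  obtain ⟨yS, hyS1, hyS2⟩ := extraction hI (α := α) (d := d) (T := T₀) (v := v') hα hαI hv'0 hv'1
    hθa0 hθab harm hε
  -- renormalisation
  have hκ : 0 < 1 - 10 * δ := by linarith
  have hthr : Thr (star T₀ * T₀) (1 - 10 * δ) w' := by
    intro Q _ ρ hle
    by_contra hne
    have h3 := hww' Q ρ hne
    have h4 : ‖ρ w‖ ≤ ‖ρ (star T₀ * T₀)‖ + 9 * δ := by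
      calc ‖ρ w‖ = ‖ρ (star T₀ * T₀) - ρ (star T₀ * T₀ - w)‖ := by
            rw [map_sub, sub_sub_cancel]
        _ ≤ ‖ρ (star T₀ * T₀)‖ + ‖ρ (star T₀ * T₀ - w)‖ := norm_sub_le _ _
        _ ≤ _ := by
            have := (norm_hom_le ρ (star T₀ * T₀ - w)).trans gram
            linarith
    linarith
  obtain ⟨yT, hyT1, hyT2⟩ := renorm hI hT0I hκ hw'0 hthr (ε := min ε δ) (lt_min hε hδ0)
  refine ⟨α * yS, T₀ * yT, ⟨yS, rfl⟩, ⟨(T₁ * p + t * y₀ * q) * yT, by rw [← mul_assoc, ← hT0β]⟩,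
    hyS1, hyT1.trans_le (min_le_left _ _), ?_⟩
  have hyTn : θb * ‖yT‖ ≤ θ' := by
    refine SLAux.real5 hδ1 hθ'pos (min_le_right ε δ) (hyT2.trans ?_) g3
    gcongr
  calc ‖star (α * yS) * d * (T₀ * yT)‖ = ‖(star (α * yS) * d * T₀) * yT‖ := by
        simp only [mul_assoc]
    _ ≤ ‖star (α * yS) * d * T₀‖ * ‖yT‖ := norm_mul_le _ _
    _ ≤ θb * ‖yT‖ := mul_le_mul_of_nonneg_right hyS2 (norm_nonneg _)
    _ ≤ θ' := hyTn

end Crest.Agent.R110
end

-- ▼ part R110/T1Core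
section

/-!
# R110.T1Core : the two abstract norm computations behind T1 (one projection side)
-/

set_option autoImplicit false

namespace Crest.Agent.R110

universe u v

variable {E : Type u} [CStarAlgebra E] [PartialOrder E] [StarOrderedRing E]

/-- Unital star homs are positive for the spectral order of the target. -/
theorem t1_map_le {Q : Type v} [CStarAlgebra Q] [PartialOrder Q] [StarOrderedRing Q]
    (ρ : E →⋆ₐ[ℂ] Q) {x y : E} (h : x ≤ y) : ρ x ≤ ρ y := by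
  rw [← sub_nonneg] at h ⊢
  obtain ⟨z, hz⟩ := CStarAlgebra.nonneg_iff_eq_star_mul_self.mp h
  rw [← map_sub, hz, map_mul, map_star]
  exact star_mul_self_nonneg _

/-- Norm version of `star`-conjugation. -/
theorem t1_norm_sq {Q : Type v} [CStarAlgebra Q] (x : Q) : ‖x‖ ^ 2 = ‖star x * x‖ := by
  rw [CStarRing.norm_star_mul_self, sq]

theorem t1_norm_sq' {Q : Type v} [CStarAlgebra Q] (x : Q) : ‖x‖ ^ 2 = ‖x * star x‖ := by
  rw [CStarRing.norm_self_mul_star, sq]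

/-- Coverage: if the row `(TA, TB)` is small under `ρ` then so is `e`. -/
theorem t1_cover {Q : Type v} [CStarAlgebra Q] (ρ : E →⋆ₐ[ℂ] Q)
    {e H r TA TB : E} {ε : ℝ} (hε : ε ≤ 1 / 8)
    (hTA : TA = e * (1 - H))
    (hr : ‖star r * H * r - H‖ ≤ ε) (hle : star r * H * r ≤ star TB * TB)
    (hH : 0 ≤ H)
    (hM : ‖ρ (TA * star TA + TB * star TB)‖ ≤ 1 / 4) : ‖ρ (e * e)‖ < 1 := by
  letI : PartialOrder Q := CStarAlgebra.spectralOrder Q
  haveI : StarOrderedRing Q := CStarAlgebra.spectralOrderedRing Q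
  have hA : ‖ρ TA‖ ^ 2 ≤ 1 / 4 := by
    rw [t1_norm_sq', ← map_star, ← map_mul]
    refine le_trans (CStarAlgebra.norm_le_norm_of_nonneg_of_le ?_ ?_) hM
    · rw [map_mul, map_star]; exact mul_star_self_nonneg _
    · apply t1_map_le
      exact le_add_of_nonneg_right (mul_star_self_nonneg _)
  have hB : ‖ρ TB‖ ^ 2 ≤ 1 / 4 := by
    rw [t1_norm_sq', ← map_star, ← map_mul]
    refine le_trans (CStarAlgebra.norm_le_norm_of_nonneg_of_le ?_ ?_) hM
    · rw [map_mul, map_star]; exact mul_star_self_nonneg _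
    · apply t1_map_le
      exact le_add_of_nonneg_left (mul_star_self_nonneg _)
  have hB' : ‖ρ (star r * H * r)‖ ≤ 1 / 4 := by
    have h0 : (0 : Q) ≤ ρ (star r * H * r) := by
      have h00 : (0 : E) ≤ star r * H * r := star_left_conjugate_nonneg hH r
      have := t1_map_le ρ h00
      rwa [map_zero] at this
    refine le_trans (CStarAlgebra.norm_le_norm_of_nonneg_of_le h0 (t1_map_le ρ hle)) ?_
    rw [map_mul, map_star, ← t1_norm_sq]
    exact hB
  have hHn : ‖ρ H‖ ≤ 3 / 8 := by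
    have h1 : ρ H = ρ (star r * H * r) - ρ (star r * H * r - H) := by rw [map_sub]; abel
    have h2 : ‖ρ (star r * H * r - H)‖ ≤ ε := le_trans (NonUnitalStarAlgHom.norm_apply_le ρ _) hr
    rw [h1]
    refine le_trans (norm_sub_le _ _) ?_
    linarith
  have hA' : ‖ρ TA‖ ≤ 1 / 2 := by
    have := abs_le_of_sq_le_sq (a := ‖ρ TA‖) (b := 1 / 2) (by linarith) (by norm_num)
    exact le_trans (le_abs_self _) this
  have he : ‖ρ e‖ ≤ 4 / 5 := by
    have h1 : ρ e = ρ TA + ρ e * ρ H := by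
      rw [hTA, map_mul, map_sub, map_one]; noncomm_ring
    have h2 : ‖ρ e‖ ≤ 1 / 2 + ‖ρ e‖ * (3 / 8) := by
      calc ‖ρ e‖ = ‖ρ TA + ρ e * ρ H‖ := by rw [← h1]
        _ ≤ ‖ρ TA‖ + ‖ρ e * ρ H‖ := norm_add_le _ _
        _ ≤ ‖ρ TA‖ + ‖ρ e‖ * ‖ρ H‖ := by gcongr; exact norm_mul_le _ _
        _ ≤ 1 / 2 + ‖ρ e‖ * (3 / 8) := by gcongr
    linarith
  rw [map_mul]
  calc ‖ρ e * ρ e‖ ≤ ‖ρ e‖ * ‖ρ e‖ := norm_mul_le _ _
    _ ≤ (4 / 5) * (4 / 5) := by gcongr
    _ < 1 := by norm_num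

/-- A projection of norm `< 1` is zero. -/
theorem t1_proj_zero {Q : Type v} [CStarAlgebra Q] {p : Q} (hsa : star p = p) (hp : p * p = p)
    (h : ‖p‖ < 1) : p = 0 := by
  have h1 : ‖p‖ = ‖p‖ * ‖p‖ := by
    conv_lhs => rw [← hp]
    conv_lhs => rw [← hsa]
    rw [hsa]
    have := CStarRing.norm_star_mul_self (x := p)
    rwa [hsa] at this
  have h2 : ‖p‖ = 0 := by
    by_contra h0
    have hpos : 0 < ‖p‖ := lt_of_le_of_ne (norm_nonneg _) (Ne.symm h0)
    nlinarith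
  exact norm_eq_zero.mp h2

/-- A row inequality `T T* ≤ 5 (TA TA* + TB TB*)` gives the vector inequality. -/
theorem t1_row {Q : Type v} [CStarAlgebra Q] (ρ : E →⋆ₐ[ℂ] Q) {T TA TB : E}
    (hT : T * star T ≤ (5 : ℝ) • (TA * star TA + TB * star TB)) (v : Q) :
    ‖star (ρ T) * v‖ ^ 2 ≤ 5 * (‖star (ρ TA) * v‖ ^ 2 + ‖star (ρ TB) * v‖ ^ 2) := by
  letI : PartialOrder Q := CStarAlgebra.spectralOrder Q
  haveI : StarOrderedRing Q := CStarAlgebra.spectralOrderedRing Q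
  have h1 := t1_map_le ρ hT
  have h2 := star_left_conjugate_le_conjugate h1 v
  have h3 : star v * ρ (T * star T) * v = star (star (ρ T) * v) * (star (ρ T) * v) := by
    rw [map_mul, map_star, star_mul, star_star]; noncomm_ring
  have h4 : star v * ρ ((5 : ℝ) • (TA * star TA + TB * star TB)) * v
      = (5 : ℝ) • (star (star (ρ TA) * v) * (star (ρ TA) * v)
        + star (star (ρ TB) * v) * (star (ρ TB) * v)) := by
    have : ρ ((5 : ℝ) • (TA * star TA + TB * star TB))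
        = (5 : ℝ) • (ρ TA * star (ρ TA) + ρ TB * star (ρ TB)) := by
      have h5 : ((5 : ℝ) • (TA * star TA + TB * star TB))
          = ((5 : ℂ) • (TA * star TA + TB * star TB)) := by
        rw [← Complex.coe_smul]; norm_num
      have h6 : ((5 : ℝ) • (ρ TA * star (ρ TA) + ρ TB * star (ρ TB)))
          = ((5 : ℂ) • (ρ TA * star (ρ TA) + ρ TB * star (ρ TB))) := by
        rw [← Complex.coe_smul]; norm_num
      rw [h5, h6, map_smul]
      simp only [map_add, map_mul, map_star]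
    rw [this, mul_smul_comm, smul_mul_assoc, star_mul, star_mul, star_star, star_star]
    congr 1
    noncomm_ring
  rw [h3, h4] at h2
  have h7 := CStarAlgebra.norm_le_norm_of_nonneg_of_le (star_mul_self_nonneg _) h2
  rw [← t1_norm_sq] at h7
  refine le_trans h7 ?_
  rw [norm_smul]
  have h8 : ‖(5 : ℝ)‖ = 5 := by norm_num
  rw [h8]
  gcongr
  refine le_trans (norm_add_le _ _) ?_
  rw [← t1_norm_sq, ← t1_norm_sq]

/-- Harmlessness: the norm test forces `ρ P = 0`. -/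
theorem t1_harmless {Q : Type v} [CStarAlgebra Q] (ρ : E →⋆ₐ[ℂ] Q)
    {P d T TA TB V V2 H : E} {C τ ε : ℝ}
    (hP : star P = P) (hPP : P * P = P)
    (hT : T * star T ≤ (5 : ℝ) • (TA * star TA + TB * star TB))
    (hC : 0 < C) (_hε : 0 ≤ ε) (hτ : 5 * C * τ ≤ 1 / 4)
    (hA : ‖P * d * TA‖ ^ 2 ≤ τ) (hV : V = P * d * TB)
    (hPV2 : P * V2 = V2) (hcross : ‖star V * V2‖ ≤ ε)
    (hVH : ‖star V * V - H‖ ≤ ε) (hV2H : ‖star V2 * V2 - H‖ ≤ ε)
    (hsmall : 20 * C * (20 * C * ε ^ 2 + 2 * ε) < 1)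
    (test : ∀ s : E, P * s = s →
      1 / 2 * ‖ρ s‖ ^ 2 ≤ C * ‖star (ρ T) * star (ρ d) * ρ s‖ ^ 2) : ρ P = 0 := by
  have key : ∀ s : E, P * s = s →
      1 / 4 * ‖ρ s‖ ^ 2 ≤ 5 * C * ‖ρ (star V * s)‖ ^ 2 := by
    intro s hs
    have h1 := test s hs
    have h2 := t1_row ρ hT (star (ρ d) * ρ s)
    have hτ0 : 0 ≤ τ := le_trans (by positivity) hA
    have h3 : star (ρ TA) * (star (ρ d) * ρ s) = ρ (star (P * d * TA) * s) := by
      have : star (P * d * TA) * s = star TA * (star d * (P * s)) := by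
        rw [star_mul, star_mul, hP]; noncomm_ring
      rw [this, hs]; simp only [map_mul, map_star]
    have h4 : star (ρ TB) * (star (ρ d) * ρ s) = ρ (star V * s) := by
      have : star V * s = star TB * (star d * (P * s)) := by
        rw [hV, star_mul, star_mul, hP]; noncomm_ring
      rw [this, hs]; simp only [map_mul, map_star]
    have h5 : ‖star (ρ TA) * (star (ρ d) * ρ s)‖ ^ 2 ≤ τ * ‖ρ s‖ ^ 2 := by
      rw [h3, map_mul]
      calc ‖ρ (star (P * d * TA)) * ρ s‖ ^ 2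
          ≤ (‖ρ (star (P * d * TA))‖ * ‖ρ s‖) ^ 2 := by
            gcongr; exact norm_mul_le _ _
        _ = ‖ρ (star (P * d * TA))‖ ^ 2 * ‖ρ s‖ ^ 2 := by ring
        _ ≤ ‖star (P * d * TA)‖ ^ 2 * ‖ρ s‖ ^ 2 := by
            gcongr; exact NonUnitalStarAlgHom.norm_apply_le ρ _
        _ ≤ τ * ‖ρ s‖ ^ 2 := by
            rw [norm_star]; gcongr
    rw [mul_assoc] at h1
    rw [h4] at h2
    have h6 : C * ‖star (ρ T) * (star (ρ d) * ρ s)‖ ^ 2
        ≤ C * (5 * (τ * ‖ρ s‖ ^ 2 + ‖ρ (star V * s)‖ ^ 2)) := by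
      gcongr
      linarith
    have h7 : C * (5 * (τ * ‖ρ s‖ ^ 2 + ‖ρ (star V * s)‖ ^ 2))
        = (5 * C * τ) * ‖ρ s‖ ^ 2 + 5 * C * ‖ρ (star V * s)‖ ^ 2 := by ring
    have h8 : (5 * C * τ) * ‖ρ s‖ ^ 2 ≤ 1 / 4 * ‖ρ s‖ ^ 2 := by gcongr
    linarith
  -- first test vector
  have k1 := key V2 hPV2
  have k2 : ‖ρ (star V * V2)‖ ≤ ε := le_trans (NonUnitalStarAlgHom.norm_apply_le ρ _) hcross
  have k3 : ‖ρ V2‖ ^ 2 ≤ 20 * C * ε ^ 2 := by
    have : 5 * C * ‖ρ (star V * V2)‖ ^ 2 ≤ 5 * C * ε ^ 2 := by gcongr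
    linarith
  have k4 : ‖ρ H‖ ≤ 20 * C * ε ^ 2 + ε := by
    have h1 : ρ H = ρ (star V2 * V2) - ρ (star V2 * V2 - H) := by rw [map_sub]; abel
    rw [h1]
    refine le_trans (norm_sub_le _ _) ?_
    have h2 : ‖ρ (star V2 * V2)‖ = ‖ρ V2‖ ^ 2 := by rw [map_mul, map_star, ← t1_norm_sq]
    have h3 : ‖ρ (star V2 * V2 - H)‖ ≤ ε := le_trans (NonUnitalStarAlgHom.norm_apply_le ρ _) hV2H
    linarith
  have k5 : ‖ρ V‖ ^ 2 ≤ 20 * C * ε ^ 2 + 2 * ε := by
    have h1 : ρ (star V * V) = ρ H + ρ (star V * V - H) := by rw [map_sub]; abel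
    have h2 : ‖ρ (star V * V)‖ = ‖ρ V‖ ^ 2 := by rw [map_mul, map_star, ← t1_norm_sq]
    rw [← h2, h1]
    refine le_trans (norm_add_le _ _) ?_
    have h3 : ‖ρ (star V * V - H)‖ ≤ ε := le_trans (NonUnitalStarAlgHom.norm_apply_le ρ _) hVH
    linarith
  -- second test vector
  have k6 := key P hPP
  have hPV : star V * P = star V := by
    rw [hV, star_mul, star_mul, hP, mul_assoc, mul_assoc, hPP]
  rw [hPV, map_star, norm_star] at k6
  have k7 : ‖ρ P‖ ^ 2 < 1 := by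
    have : 5 * C * ‖ρ V‖ ^ 2 ≤ 5 * C * (20 * C * ε ^ 2 + 2 * ε) := by gcongr
    nlinarith
  apply t1_proj_zero
  · rw [← map_star, hP]
  · rw [← map_mul, hPP]
  · by_contra h
    push Not at h
    have : 1 ≤ ‖ρ P‖ ^ 2 := one_le_pow₀ h
    linarith

end Crest.Agent.R110
end

-- ▼ part R110/T1Data
section

/-!
# R110.T1Data : functional calculus data for T1 (one projection side)
-/

set_option autoImplicit false

namespace Crest.Agent.R110

universe u v

variable {E : Type u} [CStarAlgebra E] [PartialOrder E] [StarOrderedRing E]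

/-- Functional calculus data of `q = star c * c`: with `h` vanishing on `[0, τ/2]` and `1` on
`[τ, ∞)`, `H = h(q)`, `W = q^{-1/2} h^{1/2}(q)`: `W* q W = H`, `‖c (1 - H)‖² ≤ τ`. -/
theorem t1_calc {c : E} {h : ℝ → ℝ} (hc : Continuous h) (h0 : ∀ x, 0 ≤ h x) (h1 : ∀ x, h x ≤ 1)
    {τ : ℝ} (hτ : 0 < τ) (hlow : ∀ x, x ≤ τ / 2 → h x = 0) (hhigh : ∀ x, τ ≤ x → h x = 1) :
    ∃ W : E, star W = W ∧ W * (star c * c) * W = cfc h (star c * c) ∧
      ‖c * (1 - cfc h (star c * c))‖ ^ 2 ≤ τ := by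
  set q : E := star c * c with hq
  have hq0 : 0 ≤ q := star_mul_self_nonneg c
  have hqsa : IsSelfAdjoint q := IsSelfAdjoint.of_nonneg hq0
  have hspec : ∀ x ∈ spectrum ℝ q, 0 ≤ x := fun x hx => spectrum_nonneg_of_nonneg hq0 hx
  let w : ℝ → ℝ := fun x => (√(max x (τ / 2)))⁻¹ * √(h x)
  have hmpos : ∀ x : ℝ, 0 < √(max x (τ / 2)) := fun x =>
    Real.sqrt_pos.mpr (lt_of_lt_of_le (by positivity) (le_max_right _ _))
  have hwc : Continuous w := by
    refine Continuous.mul ?_ (Real.continuous_sqrt.comp hc)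
    refine Continuous.inv₀ ?_ (fun x => (hmpos x).ne')
    exact Real.continuous_sqrt.comp (continuous_id.max continuous_const)
  refine ⟨cfc w q, ?_, ?_, ?_⟩
  · exact (cfc_predicate w q : IsSelfAdjoint (cfc w q)).star_eq
  · have e1 : cfc w q * q * cfc w q = cfc (fun x => w x * x * w x) q := by
      rw [cfc_mul (fun x => w x * x) w q (by fun_prop) (by fun_prop),
        cfc_mul w (fun x => x) q (by fun_prop) (by fun_prop), cfc_id' ℝ q]
    rw [e1]
    refine cfc_congr ?_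
    intro x hx
    show w x * x * w x = h x
    rcases le_or_gt x (τ / 2) with hx2 | hx2
    · simp [w, hlow x hx2]
    · have hx0 : 0 < x := lt_trans (by positivity) hx2
      have hm : max x (τ / 2) = x := max_eq_left hx2.le
      have hs : √x * √x = x := Real.mul_self_sqrt hx0.le
      have hs2 : √(h x) * √(h x) = h x := Real.mul_self_sqrt (h0 x)
      have hsx : √x ≠ 0 := (Real.sqrt_pos.mpr hx0).ne'
      simp only [w, hm]
      calc (√x)⁻¹ * √(h x) * x * ((√x)⁻¹ * √(h x))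
          = ((√x)⁻¹ * (√x)⁻¹ * x) * (√(h x) * √(h x)) := by ring
        _ = 1 * h x := by
            rw [hs2]; congr 1
            rw [← mul_inv, hs]; exact inv_mul_cancel₀ hx0.ne'
        _ = h x := one_mul _
  · have e0 : (1 : E) - cfc h q = cfc (fun x => 1 - h x) q := by
      rw [cfc_sub (fun _ : ℝ => (1 : ℝ)) h q (by fun_prop) (by fun_prop), cfc_const_one ℝ q]
    have hsa : star (1 - cfc h q) = 1 - cfc h q := by
      rw [e0]; exact (cfc_predicate _ q : IsSelfAdjoint _).star_eq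
    rw [sq, ← CStarRing.norm_star_mul_self, star_mul, hsa]
    have e2 : (1 - cfc h q) * star c * (c * (1 - cfc h q)) = (1 - cfc h q) * q * (1 - cfc h q) := by
      rw [hq]; noncomm_ring
    rw [e2, e0]
    have e3 : cfc (fun x => 1 - h x) q * q * cfc (fun x => 1 - h x) q
        = cfc (fun x => (1 - h x) * x * (1 - h x)) q := by
      rw [cfc_mul (fun x => (1 - h x) * x) (fun x => 1 - h x) q (by fun_prop) (by fun_prop),
        cfc_mul (fun x => 1 - h x) (fun x => x) q (by fun_prop) (by fun_prop), cfc_id' ℝ q]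
    rw [e3]
    refine norm_cfc_le hτ.le ?_
    intro x hx
    have hx0 := hspec x hx
    have a1 : 0 ≤ 1 - h x := by linarith [h1 x]
    have a2 : 1 - h x ≤ 1 := by linarith [h0 x]
    rw [Real.norm_eq_abs, abs_of_nonneg (by positivity)]
    rcases le_or_gt τ x with hx2 | hx2
    · rw [hhigh x hx2]; simp; exact hτ.le
    · calc (1 - h x) * x * (1 - h x) ≤ 1 * x * 1 := by gcongr
        _ ≤ τ := by linarith


end Crest.Agent.R110
end

-- ▼ part R110/T1Aux
section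

/-!
# R110.T1Aux : order lemmas for T1
-/

set_option autoImplicit false

namespace Crest.Agent.R110

universe u v

variable {E : Type u} [CStarAlgebra E] [PartialOrder E] [StarOrderedRing E]

/-- `c = P d e`, `‖d‖ ≤ 1`, `P` a projection: `c* c ≤ e* e`. -/
theorem t1_q_le {P d e : E} (hP : star P = P) (hPP : P * P = P) (hd : ‖d‖ ≤ 1) :
    star (P * d * e) * (P * d * e) ≤ star e * e := by
  have hP1 : P ≤ 1 := by
    have h0 : (0 : E) ≤ star (1 - P) * (1 - P) := star_mul_self_nonneg _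
    have h1 : star (1 - P) * (1 - P) = 1 - P := by
      rw [star_sub, star_one, hP]
      have : (1 - P) * (1 - P) = 1 - P - P + P * P := by noncomm_ring
      rw [this, hPP]; abel
    rw [h1] at h0
    exact sub_nonneg.mp h0
  have hdd : star d * d ≤ 1 := by
    rw [← CStarAlgebra.norm_le_one_iff_of_nonneg (star d * d) (star_mul_self_nonneg d),
      CStarRing.norm_star_mul_self]
    nlinarith [norm_nonneg d]
  have e1 : star (P * d * e) * (P * d * e) = star e * (star d * P * d) * e := by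
    have : star (P * d * e) * (P * d * e) = star e * (star d * (star P * P) * d) * e := by
      rw [star_mul, star_mul]; noncomm_ring
    rw [this, hP, hPP]
  rw [e1]
  have h2 : star d * P * d ≤ 1 := by
    have h3 : star d * P * d ≤ star d * 1 * d := star_left_conjugate_le_conjugate hP1 d
    rw [mul_one] at h3
    exact h3.trans hdd
  have h4 := star_left_conjugate_le_conjugate h2 e
  rwa [mul_one] at h4

/-- `TB = e W r`: `r* H r ≤ TB* TB`. -/
theorem t1_TB_ge {e W r q H : E} (hW : star W = W) (hWqW : W * q * W = H)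
    (hq : q ≤ star e * e) : star r * H * r ≤ star (e * W * r) * (e * W * r) := by
  have h1 : star (W * r) * q * (W * r) ≤ star (W * r) * (star e * e) * (W * r) :=
    star_left_conjugate_le_conjugate hq (W * r)
  have h2 : star (W * r) * q * (W * r) = star r * H * r := by
    rw [← hWqW, star_mul, hW]; noncomm_ring
  have h3 : star (W * r) * (star e * e) * (W * r) = star (e * W * r) * (e * W * r) := by
    rw [star_mul, star_mul, star_mul]; noncomm_ring
  rwa [h2, h3] at h1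

/-- If `T T* ≤ 5 M` and `β M = M` then `β T = T`. -/
theorem t1_absorb_of_le {β T M : E} (hT : T * star T ≤ (5 : ℝ) • M) (hβ : β * M = M) :
    β * T = T := by
  have h1 := star_right_conjugate_le_conjugate hT (1 - β)
  have h2 : (1 - β) * ((5 : ℝ) • M) * star (1 - β) = 0 := by
    rw [mul_smul_comm, sub_mul, one_mul, hβ, sub_self, smul_zero, zero_mul]
  rw [h2] at h1
  have h3 : (1 - β) * (T * star T) * star (1 - β) = ((1 - β) * T) * star ((1 - β) * T) := by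
    rw [star_mul]; noncomm_ring
  rw [h3] at h1
  have h4 : ((1 - β) * T) * star ((1 - β) * T) = 0 :=
    le_antisymm h1 (mul_star_self_nonneg _)
  have h5 : (1 - β) * T = 0 := by
    rwa [CStarRing.mul_star_self_eq_zero_iff] at h4
  rw [sub_mul, one_mul, sub_eq_zero] at h5
  exact h5.symm

end Crest.Agent.R110
end

-- ▼ part R110/T1Asm
section

/-!
# R110.T1Asm : T1 (one projection side), relative to row merging and extraction
-/

set_option autoImplicit false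

namespace Crest.Agent.R110

universe u

/-- internal cut-off: `0` on `(-∞, τ/2]`, `1` on `[τ, ∞)`. -/
theorem t1_bump {τ : ℝ} (hτ : 0 < τ) : ∃ h : ℝ → ℝ, Continuous h ∧ (∀ x, 0 ≤ h x) ∧
    (∀ x, h x ≤ 1) ∧ (∀ x, x ≤ τ / 2 → h x = 0) ∧ (∀ x, τ ≤ x → h x = 1) := by
  refine ⟨fun x => max 0 (min 1 ((x - τ / 2) / (τ / 2))), by fun_prop, ?_, ?_, ?_, ?_⟩
  · intro x; exact le_max_left _ _
  · intro x; exact max_le zero_le_one (min_le_left _ _)
  · intro x hx
    have : (x - τ / 2) / (τ / 2) ≤ 0 :=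
      div_nonpos_of_nonpos_of_nonneg (by linarith) (by linarith)
    exact max_eq_left ((min_le_right _ _).trans this)
  · intro x hx
    have h0 : 0 < τ / 2 := by linarith
    have : 1 ≤ (x - τ / 2) / (τ / 2) := by rw [le_div_iff₀ h0]; linarith
    show max 0 (min 1 ((x - τ / 2) / (τ / 2))) = 1
    rw [min_eq_left this]; exact max_eq_right zero_le_one

/-- If `f ≥ 1` on `[t, ∞)`, `g = 0` on `(-∞, t]` and `‖ρ (f b)‖ < 1` then `ρ (g b) = 0`. -/
theorem t1_kill {E : Type u} [CStarAlgebra E] [PartialOrder E] [StarOrderedRing E]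
    {Q : Type u} [CStarAlgebra Q] (ρ : E →⋆ₐ[ℂ] Q) {b : E} (hb : 0 ≤ b) {f g : ℝ → ℝ}
    (hf : Continuous f) (hg : Continuous g) {t : ℝ} (hft : ∀ x, t ≤ x → 1 ≤ f x)
    (hgt : ∀ x, x ≤ t → g x = 0) (hn : ‖ρ (cfc f b)‖ < 1) : ρ (cfc g b) = 0 := by
  have hbs : IsSelfAdjoint b := IsSelfAdjoint.of_nonneg hb
  have hρ : Continuous ρ := by
    refine AddMonoidHomClass.continuous_of_bound ρ 1 (fun x => ?_)
    rw [one_mul]; exact NonUnitalStarAlgHom.norm_apply_le ρ x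
  have m1 : ρ (cfc f b) = cfc f (ρ b) :=
    StarAlgHomClass.map_cfc ρ f b hf.continuousOn hρ hbs (hbs.map ρ)
  have m2 : ρ (cfc g b) = cfc g (ρ b) :=
    StarAlgHomClass.map_cfc ρ g b hg.continuousOn hρ hbs (hbs.map ρ)
  rw [m1] at hn
  rw [m2]
  have key : ∀ x ∈ spectrum ℝ (ρ b), g x = 0 := by
    intro x hx
    apply hgt
    by_contra hcon
    push Not at hcon
    have h1 := norm_apply_le_norm_cfc f (ρ b) hx hf.continuousOn (hbs.map ρ)
    have h2 := hft x hcon.le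
    rw [Real.norm_eq_abs] at h1
    have h3 := le_abs_self (f x)
    linarith
  have h0 : cfc g (ρ b) = cfc (fun _ : ℝ => (0 : ℝ)) (ρ b) := cfc_congr key
  rw [h0]
  exact cfc_const_zero ℝ (ρ b)

variable {E : Type u} [CStarAlgebra E] [PartialOrder E] [StarOrderedRing E]

/-- T1 relative to row merging `RM`, extraction `EX` and proper infiniteness `PI`.
`e` is any element with the killed-support hypothesis `hkill`. -/
theorem t1_assemble {P d e z : E} {η C ε₀ : ℝ}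
    (hP : star P = P) (hPP : P * P = P) (hd : ‖d‖ ≤ 1)
    (hC : 0 < C)
    (hkill : ∀ (Q : Type u) [CStarAlgebra Q] (ρ : E →⋆ₐ[ℂ] Q), ‖ρ (e * e)‖ < 1 → ρ z = 0)
    (PI : ∀ (x : E), ∀ ε : ℝ, 0 < ε → ∃ r s : E,
      ‖star r * (star (P * x) * (P * x)) * r - star (P * x) * (P * x)‖ ≤ ε ∧
      ‖star s * (star (P * x) * (P * x)) * s - star (P * x) * (P * x)‖ ≤ ε ∧
      ‖star r * (star (P * x) * (P * x)) * s‖ ≤ ε)
    (RM : ∀ (A B : E),
      (∀ (Q : Type u) [CStarAlgebra Q] (ρ : E →⋆ₐ[ℂ] Q),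
        ‖ρ ((e * A) * star (e * A) + (e * B) * star (e * B))‖ ≤ 1 / 4 → ρ z = 0) →
      ∃ T : E, ‖star T * T - z‖ ≤ ε₀ ∧
        T * star T ≤ (5 : ℝ) • ((e * A) * star (e * A) + (e * B) * star (e * B)))
    (EX : ∀ (T : E),
      (∀ (Q : Type u) [CStarAlgebra Q] (ρ : E →⋆ₐ[ℂ] Q),
        (∀ s : E, P * s = s → 1 / 2 * ‖ρ s‖ ^ 2 ≤ C * ‖star (ρ T) * star (ρ d) * ρ s‖ ^ 2) →
        ρ P = 0) →
      ∃ S : E, P * S = S ∧ ‖star S * S - P‖ ≤ ε₀ ∧ ‖star S * d * T‖ ≤ η) :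
    ∃ S T : E, P * S = S ∧ (∀ β : E, β * e = e → β * T = T) ∧ ‖star S * S - P‖ ≤ ε₀ ∧
      ‖star T * T - z‖ ≤ ε₀ ∧ ‖star S * d * T‖ ≤ η := by
  set τ : ℝ := 1 / (20 * C) with hτdef
  have hτ : 0 < τ := by positivity
  obtain ⟨h, hc, h0, h1, hlow, hhigh⟩ := t1_bump hτ
  obtain ⟨W, hW, hWqW, hTAτ⟩ := t1_calc (c := P * d * e) hc h0 h1 hτ hlow hhigh
  set q : E := star (P * d * e) * (P * d * e) with hq
  set H : E := cfc h q with hHdef
  have hH0 : 0 ≤ H := cfc_nonneg (fun x _ => h0 x)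
  set K : ℝ := 20 * C with hK
  have hK0 : 0 < K := by positivity
  set ε₁ : ℝ := 1 / (K ^ 2 + 2 * K + 8) with hε₁
  have hden : 0 < K ^ 2 + 2 * K + 8 := by positivity
  have hε₁0 : 0 < ε₁ := by positivity
  have hε₁8 : ε₁ ≤ 1 / 8 := by
    rw [hε₁]
    exact one_div_le_one_div_of_le (by norm_num) (by nlinarith)
  have hε₁m : ε₁ * (K ^ 2 + 2 * K + 8) = 1 := by
    rw [hε₁]; field_simp
  have hsmall : K * (K * ε₁ ^ 2 + 2 * ε₁) < 1 := by
    have h2 : ε₁ ^ 2 ≤ ε₁ := by nlinarith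
    have h3 : K * (K * ε₁ ^ 2 + 2 * ε₁) ≤ ε₁ * (K ^ 2 + 2 * K) := by
      have : K * K * ε₁ ^ 2 ≤ K * K * ε₁ := by gcongr
      nlinarith
    nlinarith
  -- the proper infiniteness pair
  have hHx : star (P * (d * e * W)) * (P * (d * e * W)) = H := by
    rw [← hWqW, hq]
    have : P * (d * e * W) = P * d * e * W := by noncomm_ring
    rw [this, star_mul _ W, hW]
    noncomm_ring
  obtain ⟨r₁, r₂, hr₁, hr₂, hr₁₂⟩ := PI (d * e * W) ε₁ hε₁0
  rw [hHx] at hr₁ hr₂ hr₁₂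
  -- order facts
  have hqle : q ≤ star e * e := t1_q_le hP hPP hd
  have hTB : star r₁ * H * r₁ ≤ star (e * (W * r₁)) * (e * (W * r₁)) := by
    have := t1_TB_ge (r := r₁) hW hWqW hqle
    rwa [mul_assoc e W r₁] at this
  -- row merging
  obtain ⟨T, hTz, hTT⟩ := RM (1 - H) (W * r₁) (by
    intro Q _ ρ hρ
    refine hkill Q ρ ?_
    exact t1_cover ρ hε₁8 rfl hr₁ hTB hH0 hρ)
  -- extraction
  obtain ⟨S, hPS, hSS, hST⟩ := EX T (by
    intro Q _ ρ test
    refine t1_harmless (V := P * d * (e * (W * r₁))) (V2 := P * d * (e * (W * r₂))) (H := H)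
      (τ := τ) (ε := ε₁) ρ hP hPP hTT hC hε₁0.le ?_ ?_ rfl ?_ ?_ ?_ ?_ ?_ test
    · rw [hτdef]
      have : 5 * C * (1 / (20 * C)) = 1 / 4 := by field_simp; norm_num
      exact this.le
    · have : P * d * (e * (1 - H)) = P * d * e * (1 - H) := by noncomm_ring
      rw [this]; exact hTAτ
    · have : P * (P * d * (e * (W * r₂))) = P * P * d * (e * (W * r₂)) := by noncomm_ring
      rw [this, hPP]
    · have : star (P * d * (e * (W * r₁))) * (P * d * (e * (W * r₂)))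
          = star r₁ * H * r₂ := by
        rw [← hWqW, hq]
        have e1 : P * d * (e * (W * r₁)) = P * d * e * W * r₁ := by noncomm_ring
        have e2 : P * d * (e * (W * r₂)) = P * d * e * W * r₂ := by noncomm_ring
        rw [e1, e2, star_mul _ r₁, star_mul _ W, hW]
        noncomm_ring
      rw [this]; exact hr₁₂
    · have : star (P * d * (e * (W * r₁))) * (P * d * (e * (W * r₁)))
          = star r₁ * H * r₁ := by
        rw [← hWqW, hq]
        have e1 : P * d * (e * (W * r₁)) = P * d * e * W * r₁ := by noncomm_ring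
        rw [e1, star_mul _ r₁, star_mul _ W, hW]
        noncomm_ring
      rw [this]; exact hr₁
    · have : star (P * d * (e * (W * r₂))) * (P * d * (e * (W * r₂)))
          = star r₂ * H * r₂ := by
        rw [← hWqW, hq]
        have e2 : P * d * (e * (W * r₂)) = P * d * e * W * r₂ := by noncomm_ring
        rw [e2, star_mul _ r₂, star_mul _ W, hW]
        noncomm_ring
      rw [this]; exact hr₂
    · exact hsmall)
  refine ⟨S, T, hPS, ?_, hSS, hTz, hST⟩
  intro β hβ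
  refine t1_absorb_of_le hTT ?_
  have e1 : β * (e * (1 - H) * star (e * (1 - H)) + e * (W * r₁) * star (e * (W * r₁)))
      = (β * e) * (1 - H) * star (e * (1 - H)) + (β * e) * (W * r₁) * star (e * (W * r₁)) := by
    noncomm_ring
  rw [e1, hβ]

end Crest.Agent.R110
end

-- ▼ part R110/OneProj

/-!
# R110.OneProj : T1 (one projection side)
-/

set_option autoImplicit false

universe u

namespace Crest.Agent.R110

variable {E : Type u} [CStarAlgebra E] [PartialOrder E] [StarOrderedRing E]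

/-- T1: one side is (below) a projection. -/
theorem one_proj {I : Set E} (hI : PIIdeal I) {P b d : E} (hP : P * P = P) (hPs : star P = P)
    (hPI : P ∈ I) (hb : 0 ≤ b) (hbI : b ∈ I) (hd : ‖d‖ ≤ 1) {s t t' : ℝ} (h0 : 0 < s)
    (h1 : s < t) (h2 : t < t') {η : ℝ} (hη : 0 < η) {ε : ℝ} (hε : 0 < ε) :
    ∃ S T : E, P * S = S ∧ ‖star S * S - P‖ < ε ∧ rp (s / 2) s b * T = T ∧
      ‖star T * T - rp t t' b‖ < ε ∧ ‖star S * d * T‖ ≤ η := by
  have hbs : IsSelfAdjoint b := IsSelfAdjoint.of_nonneg hb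
  obtain ⟨e, he0, he1, heI, hee, hes, -⟩ := exists_sqrt_rp hI hbs hbI h0 h1
  have hes' : rp (s / 2) s b * e = e := hes (s / 2) (by linarith)
  set ε' : ℝ := min (ε / 2) (1 / 4) with hε'
  have hε'0 : 0 < ε' := lt_min (by linarith) (by norm_num)
  have hε'1 : ε' ≤ ε / 2 := min_le_left _ _
  have hε'2 : ε' ≤ 1 / 4 := min_le_right _ _
  have hPsa : IsSelfAdjoint P := hPs
  have hP0 : 0 ≤ P := by
    have : P = star P * P := by rw [hPs, hP]
    rw [this]; exact star_mul_self_nonneg P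
  have hP1 : ‖P‖ ≤ 1 := by
    have h3 : ‖P‖ * ‖P‖ = ‖P‖ := by
      rw [← CStarRing.norm_star_mul_self, hPs, hP]
    nlinarith [norm_nonneg P]
  have hC : 0 < 2 / η ^ 2 := by positivity
  obtain ⟨S, T, hPS, hβ, hS, hT, hST⟩ := t1_assemble (P := P) (d := d) (e := e)
    (z := rp t t' b) (η := η) (C := 2 / η ^ 2) (ε₀ := ε') hPs hP hd hC
    (by
      intro Q _ ρ hρ
      rw [hee] at hρ
      exact t1_kill ρ hb (ramp_continuous s t) (ramp_continuous t t')
        (fun x hx => (ramp_eq_one h1 hx).ge) (fun x hx => ramp_eq_zero h2 hx) hρ)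
    (by
      intro x δ hδ
      obtain ⟨r, r', p1, p2, p3⟩ := hI.pi (P * x) (hI.mul_right x hPI) δ hδ
      exact ⟨r, r', p1.le, p2.le, p3.le⟩)
    (by
      intro A B hAB
      have hM0 : 0 ≤ (e * A) * star (e * A) + (e * B) * star (e * B) :=
        add_nonneg (mul_star_self_nonneg _) (mul_star_self_nonneg _)
      have hMI : (e * A) * star (e * A) + (e * B) * star (e * B) ∈ I :=
        hI.add_mem (hI.mul_right _ (hI.mul_right _ heI)) (hI.mul_right _ (hI.mul_right _ heI))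
      obtain ⟨T, t1, t2, -⟩ := merge hI hM0 hMI (κ := 1 / 4) (by norm_num)
        (rp_nonneg t t' b) hAB hε'0
      refine ⟨T, t1.le, t2.trans ?_⟩
      refine smul_le_smul_of_nonneg_right ?_ hM0
      have := norm_rp_le_one t t' b
      rw [div_le_iff₀ (by norm_num)]
      linarith)
    (by
      intro T hT
      obtain ⟨y, y1, y2⟩ := extraction hI (α := P) (d := d) (T := T) (v := P) hPsa hPI hP0 hP1
        (θ := η / 2) (θ' := η) (by linarith) (by linarith) (by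
          intro Q _ ρ hρ
          by_contra hcon
          push Not at hcon
          refine hρ (hT Q ρ ?_)
          intro s hs
          have h3 := hcon (ρ s) (by rw [← map_mul, hs])
          have h4 : (η / 2 * ‖ρ s‖) ^ 2 ≤ ‖star (ρ T) * star (ρ d) * ρ s‖ ^ 2 := by
            gcongr
          calc 1 / 2 * ‖ρ s‖ ^ 2 = 2 / η ^ 2 * (η / 2 * ‖ρ s‖) ^ 2 := by
                field_simp
            _ ≤ 2 / η ^ 2 * ‖star (ρ T) * star (ρ d) * ρ s‖ ^ 2 := by gcongr) hε'0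
      refine ⟨P * y, ?_, y1.le, y2⟩
      rw [← mul_assoc, hP])
  refine ⟨S, T, hPS, ?_, hβ _ hes', ?_, hST⟩
  · exact lt_of_le_of_lt hS (by linarith)
  · exact lt_of_le_of_lt hT (by linarith)

end Crest.Agent.R110
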