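import Mathlib
import Crest.Agent.R117.Quot

-- ▼ part R110/Absorb
section

/-!
# R110.Absorb

`absorb`: if `0 ≤ v ≤ H` in a unital C*-algebra and `δ > 0`, then `r = (H+δ)^{-1/2} v^{1/2}` is a
contraction with `‖r* H r - v‖ ≤ δ`.
-/

set_option autoImplicit false

open scoped ComplexOrder

namespace Crest.Agent.R110

universe u

variable {E : Type u} [CStarAlgebra E] [PartialOrder E] [StarOrderedRing E]

/-- Absorption lemma. -/
theorem absorb {v H : E} (hv : 0 ≤ v) (hvH : v ≤ H) {δ : ℝ} (hδ : 0 < δ) :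
    ∃ r : E, ‖r‖ ≤ 1 ∧ ‖star r * H * r - v‖ ≤ δ ∧ star r * H * r ≤ v := by
  set G : E := H + algebraMap ℝ E δ with hG
  have hH : 0 ≤ H := hv.trans hvH
  have hd : 0 ≤ algebraMap ℝ E δ := algebraMap_nonneg E hδ.le
  have hGs : IsStrictlyPositive G := by
    refine IsStrictlyPositive.nonneg_add hH ?_
    exact (isStrictlyPositive_algebraMap hδ)
  set k : E := G ^ (-(1 / 2) : ℝ) with hk
  have hk0 : 0 ≤ k := CFC.rpow_nonneg
  have hksa : star k = k := (IsSelfAdjoint.of_nonneg hk0).star_eq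
  have hkGk : k * G * k = 1 := CFC.conjugate_rpow_neg_one_half G
  set w : E := CFC.sqrt v with hw
  have hw0 : 0 ≤ w := CFC.sqrt_nonneg v
  have hwsa : star w = w := (IsSelfAdjoint.of_nonneg hw0).star_eq
  have hww : w * w = v := CFC.sqrt_mul_sqrt_self v hv
  -- `k` commutes with `G`, so `w k G k w = v`
  have hvG : v ≤ G := hvH.trans (by rw [hG]; exact le_add_of_nonneg_right hd)
  have hnorm : ‖k * w‖ ≤ 1 := by
    have h1 : ‖k * w‖ * ‖k * w‖ = ‖k * v * k‖ := by
      rw [← CStarRing.norm_self_mul_star, star_mul, hksa, hwsa]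
      congr 1
      calc k * w * (w * k) = k * (w * w) * k := by noncomm_ring
        _ = _ := by rw [hww]
    have h2 : k * v * k ≤ 1 := by
      rw [← hkGk]
      have := star_left_conjugate_le_conjugate hvG k
      rwa [hksa] at this
    have h3 : 0 ≤ k * v * k := by
      have := star_left_conjugate_nonneg hv k
      rwa [hksa] at this
    have h4 : ‖k * v * k‖ ≤ 1 := (CStarAlgebra.norm_le_one_iff_of_nonneg _ h3).mpr h2
    nlinarith [norm_nonneg (k * w)]
  have hkey : star (k * w) * H * (k * w) = v - algebraMap ℝ E δ * (star (k * w) * (k * w)) := by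
    have e1 : H = G - algebraMap ℝ E δ := by rw [hG]; abel
    have hc : ∀ x : E, x * algebraMap ℝ E δ = algebraMap ℝ E δ * x := fun x =>
      (Algebra.commutes δ x).symm
    rw [star_mul, hksa, hwsa, e1]
    have e2 : w * k * (G - algebraMap ℝ E δ) * (k * w)
        = w * (k * G * k) * w - w * k * algebraMap ℝ E δ * (k * w) := by noncomm_ring
    rw [e2, hkGk, mul_one, hww, hc (w * k)]
    noncomm_ring
  refine ⟨k * w, hnorm, ?_, ?_⟩
  · rw [hkey]
    have e : v - algebraMap ℝ E δ * (star (k * w) * (k * w)) - v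
        = - (δ • (star (k * w) * (k * w))) := by
      rw [Algebra.smul_def]; abel
    rw [e, norm_neg, norm_smul, Real.norm_of_nonneg hδ.le]
    have : ‖star (k * w) * (k * w)‖ ≤ 1 := by
      rw [CStarRing.norm_star_mul_self]; nlinarith [norm_nonneg (k * w)]
    nlinarith
  · rw [hkey, ← Algebra.smul_def]
    exact sub_le_self _ (smul_nonneg hδ.le (star_mul_self_nonneg _))

end Crest.Agent.R110
end

-- ▼ part R110/QuoPI

/-!
# R110.QuoPI : quotients, norm preserving lifts, orthogonal copies, approximation in ideals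
-/

set_option autoImplicit false

open scoped Topology

namespace Crest.Agent.R110

universe u

section copies

variable {E : Type u} [CStarAlgebra E]

/-- `n` orthogonal copies of a properly infinite selfadjoint element. -/
theorem exists_copies {h : E} (hsa : star h = h)
    (hh : ∀ ε : ℝ, 0 < ε → ∃ r s : E, ‖star r * h * r - h‖ < ε ∧ ‖star s * h * s - h‖ < ε ∧
      ‖star r * h * s‖ < ε) (n : ℕ) :
    ∀ ε : ℝ, 0 < ε → ∃ r : Fin n → E, ∀ i j,
      ‖star (r i) * h * r j - (if i = j then h else 0)‖ < ε := by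
  induction n with
  | zero => intro ε _; exact ⟨Fin.elim0, fun i => i.elim0⟩
  | succ n ih =>
    intro ε hε
    obtain ⟨r', hr'⟩ := ih (ε / 2) (half_pos hε)
    set C : ℝ := 1 + ∑ i, ‖r' i‖ with hCdef
    have hsum : ∀ i, ‖r' i‖ ≤ ∑ i, ‖r' i‖ := fun i =>
      Finset.single_le_sum (f := fun i => ‖r' i‖) (fun i _ => norm_nonneg _) (Finset.mem_univ i)
    have hS0 : 0 ≤ ∑ i, ‖r' i‖ := Finset.sum_nonneg fun i _ => norm_nonneg _
    have hC : ∀ i, ‖r' i‖ ≤ C := fun i => by have := hsum i; linarith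
    have hC1 : 1 ≤ C := by linarith
    have hC0 : 0 < C := by linarith
    obtain ⟨r, s, h1, h2, h3⟩ := hh (ε / (2 * C ^ 2)) (by positivity)
    have hCC : C ≤ C ^ 2 := by nlinarith
    have hCC1 : 1 ≤ C ^ 2 := by nlinarith
    have e1 : ε / (2 * C ^ 2) ≤ ε := by
      rw [div_le_iff₀ (by positivity)]
      exact le_mul_of_one_le_right hε.le (by linarith)
    have e2 : ε / (2 * C ^ 2) * C ≤ ε / 2 := by
      rw [div_mul_eq_mul_div, div_le_div_iff₀ (by positivity) (by positivity)]
      have := mul_le_mul_of_nonneg_left hCC hε.le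
      linarith
    have e3 : ε / (2 * C ^ 2) * C ^ 2 = ε / 2 := by
      field_simp
    refine ⟨Fin.cons r (fun i => s * r' i), ?_⟩
    intro i j
    refine Fin.cases ?_ (fun i => ?_) i <;> refine Fin.cases ?_ (fun j => ?_) j
    · simp only [Fin.cons_zero, if_true]
      exact h1.trans_le e1
    · simp only [Fin.cons_zero, Fin.cons_succ]
      rw [if_neg (by exact (Fin.succ_ne_zero j).symm), sub_zero]
      calc ‖star r * h * (s * r' j)‖ = ‖(star r * h * s) * r' j‖ := by rw [mul_assoc _ s]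
        _ ≤ ‖star r * h * s‖ * ‖r' j‖ := norm_mul_le _ _
        _ ≤ ε / (2 * C ^ 2) * C := by gcongr; exact hC j
        _ ≤ ε / 2 := e2
        _ < ε := half_lt_self hε
    · simp only [Fin.cons_zero, Fin.cons_succ]
      rw [if_neg (Fin.succ_ne_zero i), sub_zero]
      have e : star (s * r' i) * h * r = star ((star r * h * s) * r' i) := by
        simp only [star_mul, star_star, hsa, mul_assoc]
      rw [e, norm_star]
      calc ‖(star r * h * s) * r' i‖ ≤ ‖star r * h * s‖ * ‖r' i‖ := norm_mul_le _ _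
        _ ≤ ε / (2 * C ^ 2) * C := by gcongr; exact hC i
        _ ≤ ε / 2 := e2
        _ < ε := half_lt_self hε
    · simp only [Fin.cons_succ, Fin.succ_inj]
      have e : star (s * r' i) * h * (s * r' j) - (if i = j then h else 0) =
          star (r' i) * (star s * h * s - h) * r' j +
            (star (r' i) * h * r' j - (if i = j then h else 0)) := by
        rw [star_mul]; noncomm_ring
      rw [e]
      calc _ ≤ ‖star (r' i) * (star s * h * s - h) * r' j‖ +
            ‖star (r' i) * h * r' j - (if i = j then h else 0)‖ := norm_add_le _ _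
        _ ≤ ‖star (r' i)‖ * ‖star s * h * s - h‖ * ‖r' j‖ +
            ‖star (r' i) * h * r' j - (if i = j then h else 0)‖ := by
              gcongr
              exact (norm_mul_le _ _).trans (by gcongr; exact norm_mul_le _ _)
        _ ≤ C * (ε / (2 * C ^ 2)) * C +
            ‖star (r' i) * h * r' j - (if i = j then h else 0)‖ := by
              gcongr
              · rw [norm_star]; exact hC i
              · exact hC j
        _ = ε / 2 + ‖star (r' i) * h * r' j - (if i = j then h else 0)‖ := by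
              rw [← e3]; ring
        _ < ε / 2 + ε / 2 := by gcongr; exact hr' i j
        _ = ε := by ring

end copies

section lifts

variable {E : Type u} [CStarAlgebra E] {Q : Type*} [CStarAlgebra Q]

theorem hom_continuous (π : E →⋆ₐ[ℂ] Q) : Continuous π :=
  AddMonoidHomClass.continuous_of_bound π 1 fun x => by
    simpa using NonUnitalStarAlgHom.norm_apply_le π x

/-- Star homs of C*-algebras commute with the real functional calculus. -/
theorem map_cfc_real (π : E →⋆ₐ[ℂ] Q) {f : ℝ → ℝ} {a : E} (ha : IsSelfAdjoint a)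
    (hf : Continuous f) : π (cfc f a) = cfc f (π a) := by
  refine StarAlgHomClass.map_cfc π f a (hf.continuousOn) ?_ ha (ha.map π)
  exact hom_continuous π

/-- Norm preserving lifts, obtained by right multiplication. -/
theorem exists_mul_norm_le (π : E →⋆ₐ[ℂ] Q) (x : E) :
    ∃ y : E, IsSelfAdjoint y ∧ π (x * y) = π x ∧ ‖x * y‖ ≤ ‖π x‖ := by
  by_cases hc : ‖π x‖ = 0
  · refine ⟨0, IsSelfAdjoint.zero E, ?_, ?_⟩
    · rw [norm_eq_zero.mp hc, mul_zero, map_zero]
    · simp
  set c : ℝ := ‖π x‖ with hcdef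
  have hc0 : 0 < c := lt_of_le_of_ne (norm_nonneg _) (Ne.symm hc)
  rcases subsingleton_or_nontrivial E with hE | hE
  · exact ⟨0, IsSelfAdjoint.zero E, by rw [Subsingleton.elim (x * 0) x],
      by rw [Subsingleton.elim (x * 0) 0, norm_zero]; exact hc0.le⟩
  set a : E := star x * x with ha
  have hsa : IsSelfAdjoint a := IsSelfAdjoint.star_mul_self x
  have hspec : ∀ t ∈ spectrum ℝ a, 0 ≤ t := spectrum_star_mul_self_nonneg
  set f : ℝ → ℝ := fun t => c / √(max t (c ^ 2)) with hf
  have hpos : ∀ t, 0 < √(max t (c ^ 2)) := fun t =>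
    Real.sqrt_pos.mpr (lt_of_lt_of_le (by positivity) (le_max_right _ _))
  have hfc : Continuous f := by
    refine Continuous.div continuous_const ?_ (fun t => (hpos t).ne')
    fun_prop
  refine ⟨cfc f a, cfc_predicate _ _, ?_, ?_⟩
  · rw [map_mul, map_cfc_real π hsa hfc]
    have h1 : cfc f (π a) = 1 := by
      have e : cfc f (π a) = cfc (fun _ : ℝ => (1 : ℝ)) (π a) := by
        refine cfc_congr ?_
        intro t ht
        have hle : t ≤ c ^ 2 := by
          have h2 : ‖t‖ ≤ ‖π a‖ := by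
            rcases subsingleton_or_nontrivial Q with hQ | hQ
            · exact absurd (by rw [hcdef, Subsingleton.elim (π x) 0, norm_zero]) hc0.ne'
            · exact spectrum.norm_le_norm_of_mem ht
          have h3 : ‖π a‖ = c ^ 2 := by
            rw [ha, map_mul, map_star, CStarRing.norm_star_mul_self, sq]
          rw [h3, Real.norm_eq_abs] at h2
          exact (le_abs_self t).trans h2
        simp only [hf]
        rw [max_eq_right hle, Real.sqrt_sq hc0.le, div_self hc0.ne']
      rw [e, cfc_const_one ℝ (π a) (ha := hsa.map π)]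
    rw [h1, mul_one]
  · have hysa : IsSelfAdjoint (cfc f a) := cfc_predicate _ _
    have h3 : ‖x * cfc f a‖ ^ 2 = ‖cfc f a * a * cfc f a‖ := by
      rw [sq, ← CStarRing.norm_star_mul_self, star_mul, hysa.star_eq, ha]
      simp only [mul_assoc]
    have h4 : cfc f a * a * cfc f a = cfc (fun t : ℝ => f t * t * f t) a := by
      rw [cfc_mul (fun t : ℝ => f t * t) (fun t : ℝ => f t) a (by fun_prop) (by fun_prop),
        cfc_mul (fun t : ℝ => f t) (fun t : ℝ => t) a (by fun_prop) (by fun_prop), cfc_id' ℝ a]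
    have h5 : ‖x * cfc f a‖ ^ 2 ≤ c ^ 2 := by
      rw [h3, h4]
      refine norm_cfc_le (by positivity) ?_
      intro t ht
      have h0 := hspec t ht
      have hf0 : 0 ≤ f t := by simp only [hf]; exact div_nonneg hc0.le (hpos t).le
      rw [Real.norm_eq_abs, abs_of_nonneg (by positivity)]
      have e : f t * t * f t = c ^ 2 * (t / max t (c ^ 2)) := by
        simp only [hf]
        have hs : √(max t (c ^ 2)) * √(max t (c ^ 2)) = max t (c ^ 2) :=
          Real.mul_self_sqrt (le_trans (by positivity) (le_max_right _ _))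
        rw [div_mul_eq_mul_div, div_mul_div_comm, hs]
        ring
      rw [e]
      have hm : 0 < max t (c ^ 2) := lt_of_lt_of_le (by positivity) (le_max_right _ _)
      have : t / max t (c ^ 2) ≤ 1 := by rw [div_le_one hm]; exact le_max_left _ _
      nlinarith [sq_nonneg c]
    exact le_trans (le_abs_self _) (abs_le_of_sq_le_sq h5 hc0.le)

end lifts

section quot

open Crest.Agent.R117 (idealClosure mem_idealClosure exists_quotient)

variable {E : Type u} [CStarAlgebra E]

/-- The closed two-sided ideal generated by `g`. -/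
noncomputable def Idl (g : E) : TwoSidedIdeal E := idealClosure (TwoSidedIdeal.span {g})

theorem isClosed_Idl (g : E) : IsClosed (Idl g : Set E) := by
  have : (Idl g : Set E) = closure (TwoSidedIdeal.span {g} : Set E) := by
    ext x; exact mem_idealClosure _ x
  rw [this]; exact isClosed_closure

theorem mem_Idl_self (g : E) : g ∈ Idl g :=
  (mem_idealClosure _ g).mpr (subset_closure (TwoSidedIdeal.subset_span rfl))

/-- A star hom killing `g` kills the closed ideal generated by `g`. -/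
theorem map_eq_zero_of_mem_Idl {g x : E} (hx : x ∈ Idl g) {R : Type*} [CStarAlgebra R]
    (ρ : E →⋆ₐ[ℂ] R) (hρ : ρ g = 0) : ρ x = 0 := by
  have hker : (TwoSidedIdeal.span {g} : Set E) ⊆ {y | ρ y = 0} := by
    intro y hy
    have : TwoSidedIdeal.span {g} ≤ TwoSidedIdeal.ker (ρ : E →+* R) := by
      rw [TwoSidedIdeal.span_le]
      rintro z rfl
      exact (TwoSidedIdeal.mem_ker (ρ : E →+* R)).mpr hρ
    exact (TwoSidedIdeal.mem_ker (ρ : E →+* R)).mp (this hy)
  have hcl : IsClosed {y | ρ y = 0} := isClosed_eq (hom_continuous ρ) continuous_const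
  exact closure_minimal hker hcl ((mem_idealClosure _ x).mp hx)

/-- Factorisation of star homs through surjections. -/
theorem exists_factor {Q R : Type*} [CStarAlgebra Q] [CStarAlgebra R] (π : E →⋆ₐ[ℂ] Q)
    (hπ : Function.Surjective π) (ρ : E →⋆ₐ[ℂ] R) (h : ∀ x, π x = 0 → ρ x = 0) :
    ∃ σ : Q →⋆ₐ[ℂ] R, ∀ x, σ (π x) = ρ x := by
  have h' : ∀ x y, π x = π y → ρ x = ρ y := by
    intro x y hxy
    have := h (x - y) (by rw [map_sub, hxy, sub_self])
    rwa [map_sub, sub_eq_zero] at this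
  have key : ∀ x, ρ (Function.surjInv hπ (π x)) = ρ x := fun x =>
    h' _ _ (Function.surjInv_eq hπ _)
  refine ⟨{ toFun := fun q => ρ (Function.surjInv hπ q)
            map_one' := ?_
            map_mul' := ?_
            map_zero' := ?_
            map_add' := ?_
            commutes' := ?_
            map_star' := ?_ }, key⟩
  · rw [← map_one π, key, map_one]
  · intro p q
    obtain ⟨x, rfl⟩ := hπ p
    obtain ⟨y, rfl⟩ := hπ q
    rw [← map_mul π, key, key, key, map_mul]
  · change ρ (Function.surjInv hπ 0) = 0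
    rw [← map_zero π, key, map_zero]
  · intro p q
    obtain ⟨x, rfl⟩ := hπ p
    obtain ⟨y, rfl⟩ := hπ q
    change ρ (Function.surjInv hπ (π x + π y)) = ρ (Function.surjInv hπ (π x)) +
      ρ (Function.surjInv hπ (π y))
    rw [← map_add π, key, key, key, map_add]
  · intro r
    change ρ (Function.surjInv hπ (algebraMap ℂ Q r)) = algebraMap ℂ R r
    rw [← AlgHomClass.commutes π r, key, AlgHomClass.commutes]
  · intro p
    obtain ⟨x, rfl⟩ := hπ p
    change ρ (Function.surjInv hπ (star (π x))) = star (ρ (Function.surjInv hπ (π x)))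
    rw [← map_star π, key, key, map_star]

/-- The canonical quotient killing `g`. -/
theorem exists_quot_kill (g : E) :
    ∃ (Q : Type u) (_ : CStarAlgebra Q) (π : E →⋆ₐ[ℂ] Q), Function.Surjective π ∧
      π g = 0 ∧ (∀ x, π x = 0 ↔ x ∈ Idl g) ∧
      (∀ (R : Type u) [CStarAlgebra R] (ρ : E →⋆ₐ[ℂ] R), ρ g = 0 →
        ∃ σ : Q →⋆ₐ[ℂ] R, ∀ x, σ (π x) = ρ x) ∧
      (∀ q : Q, ∃ x, π x = q ∧ ‖x‖ ≤ ‖q‖) := by
  obtain ⟨Q, hQ, π, hsurj, hker, -⟩ := exists_quotient (Idl g) (isClosed_Idl g)
  refine ⟨Q, hQ, π, hsurj, (hker g).mpr (mem_Idl_self g), hker, ?_, ?_⟩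
  · intro R _ ρ hρ
    exact exists_factor π hsurj ρ fun x hx => map_eq_zero_of_mem_Idl ((hker x).mp hx) ρ hρ
  · intro q
    obtain ⟨x, rfl⟩ := hsurj q
    obtain ⟨y, -, h1, h2⟩ := exists_mul_norm_le π x
    exact ⟨x * y, h1, h2⟩

/-- `z` belongs to `Idl g` iff it is killed by all star homs killing `g`. -/
theorem mem_Idl_iff {g z : E} :
    z ∈ Idl g ↔ ∀ (R : Type u) [CStarAlgebra R] (ρ : E →⋆ₐ[ℂ] R), ρ g = 0 → ρ z = 0 := by
  constructor
  · intro hz R _ ρ hρ; exact map_eq_zero_of_mem_Idl hz ρ hρ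
  · intro h
    obtain ⟨Q, hQ, π, -, hg, hker, -, -⟩ := exists_quot_kill g
    exact (hker z).mp (h Q π hg)

end quot

section thr

variable {E : Type u} [CStarAlgebra E]

/-- The cut `x ↦ max 0 (x - k)`. -/
theorem continuous_max_sub (k : ℝ) : Continuous fun x : ℝ => max 0 (x - k) := by fun_prop

/-- For a positive element `y* y`: the norm is at most `k` iff the cut at `k` vanishes. -/
theorem norm_le_iff_cfc_cut_eq_zero {R : Type*} [CStarAlgebra R] (y : R) {k : ℝ} (hk : 0 ≤ k) :
    ‖star y * y‖ ≤ k ↔ cfc (fun x : ℝ => max 0 (x - k)) (star y * y) = 0 := by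
  have hsa : IsSelfAdjoint (star y * y) := IsSelfAdjoint.star_mul_self y
  rcases subsingleton_or_nontrivial R with hR | hR
  · exact ⟨fun _ => Subsingleton.elim _ _, fun _ => by
      rw [Subsingleton.elim (star y * y) 0, norm_zero]; exact hk⟩
  have hspec : ∀ t ∈ spectrum ℝ (star y * y), 0 ≤ t := spectrum_star_mul_self_nonneg
  constructor
  · intro h
    have e : cfc (fun x : ℝ => max 0 (x - k)) (star y * y) =
        cfc (fun _ : ℝ => (0 : ℝ)) (star y * y) := by
      refine cfc_congr ?_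
      intro t ht
      have h2 : ‖t‖ ≤ ‖star y * y‖ := spectrum.norm_le_norm_of_mem ht
      rw [Real.norm_eq_abs] at h2
      have h3 : t ≤ k := (le_abs_self t).trans (h2.trans h)
      simp only
      exact max_eq_left (by linarith)
    rw [e, cfc_const_zero]
  · intro h
    have e : star y * y = cfc (fun x : ℝ => min x k) (star y * y) := by
      have e1 : cfc (fun x : ℝ => min x k + max 0 (x - k)) (star y * y) =
          cfc (fun x : ℝ => min x k) (star y * y) +
            cfc (fun x : ℝ => max 0 (x - k)) (star y * y) := by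
        exact cfc_add (star y * y) (fun x : ℝ => min x k) (fun x : ℝ => max 0 (x - k))
          (by fun_prop) (by fun_prop)
      have e2 : (fun x : ℝ => min x k + max 0 (x - k)) = fun x : ℝ => x := by
        funext x
        rcases le_total x k with hx | hx
        · rw [min_eq_left hx, max_eq_left (by linarith)]; ring
        · rw [min_eq_right hx, max_eq_right (by linarith)]; ring
      rw [e2, cfc_id' ℝ (star y * y), h, add_zero] at e1
      exact e1
    rw [e]
    refine norm_cfc_le hk ?_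
    intro t ht
    have h0 := hspec t ht
    rw [Real.norm_eq_abs, abs_of_nonneg (le_min h0 hk)]
    exact min_le_right _ _

variable [PartialOrder E] [StarOrderedRing E]

theorem exists_star_mul_self {h : E} (hh : 0 ≤ h) : ∃ y : E, h = star y * y :=
  CStarAlgebra.nonneg_iff_eq_star_mul_self.mp hh

/-- `‖ρ h‖ ≤ k` iff `ρ` kills the cut `(h - k)_+`. -/
theorem norm_map_le_iff {h : E} (hh : 0 ≤ h) {k : ℝ} (hk : 0 ≤ k) {R : Type*} [CStarAlgebra R]
    (ρ : E →⋆ₐ[ℂ] R) :
    ‖ρ h‖ ≤ k ↔ ρ (cfc (fun x : ℝ => max 0 (x - k)) h) = 0 := by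
  rw [map_cfc_real ρ (IsSelfAdjoint.of_nonneg hh) (continuous_max_sub k)]
  obtain ⟨y, rfl⟩ := exists_star_mul_self hh
  rw [map_mul, map_star]
  exact norm_le_iff_cfc_cut_eq_zero (ρ y) hk

/-- The canonical quotient of `E` in which `‖h‖ ≤ k`. -/
theorem exists_quot {h : E} (hh : 0 ≤ h) {k : ℝ} (hk : 0 ≤ k) :
    ∃ (Q : Type u) (_ : CStarAlgebra Q) (π : E →⋆ₐ[ℂ] Q), Function.Surjective π ∧
      ‖π h‖ ≤ k ∧
      (∀ x, π x = 0 ↔ x ∈ Idl (cfc (fun x : ℝ => max 0 (x - k)) h)) ∧
      (∀ (R : Type u) [CStarAlgebra R] (ρ : E →⋆ₐ[ℂ] R), ‖ρ h‖ ≤ k →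
        ∃ σ : Q →⋆ₐ[ℂ] R, ∀ x, σ (π x) = ρ x) ∧
      (∀ q : Q, ∃ x, π x = q ∧ ‖x‖ ≤ ‖q‖) := by
  obtain ⟨Q, hQ, π, hsurj, hg, hker, hfac, hlift⟩ :=
    exists_quot_kill (cfc (fun x : ℝ => max 0 (x - k)) h)
  refine ⟨Q, hQ, π, hsurj, (norm_map_le_iff hh hk π).mpr hg, hker, ?_, hlift⟩
  intro R _ ρ hρ
  exact hfac R ρ ((norm_map_le_iff hh hk ρ).mp hρ)

/-- If `ρ` kills the positive element `z` it kills its square root. -/
theorem map_sqrt_eq_zero {z : E} (hz : 0 ≤ z) {R : Type*} [CStarAlgebra R] (ρ : E →⋆ₐ[ℂ] R)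
    (h : ρ z = 0) : ρ (CFC.sqrt z) = 0 := by
  have hsa : star (CFC.sqrt z) = CFC.sqrt z := (IsSelfAdjoint.of_nonneg (CFC.sqrt_nonneg z)).star_eq
  have h1 : star (ρ (CFC.sqrt z)) * ρ (CFC.sqrt z) = 0 := by
    rw [← map_star, ← map_mul, hsa, CFC.sqrt_mul_sqrt_self z hz, h]
  exact (CStarRing.star_mul_self_eq_zero_iff _).mp h1

/-- Elements of the algebraic ideal generated by `g ≥ 0` are dominated by `∑ x_i* g x_i`. -/
theorem dominated_of_mem_span {g : E} (hg : 0 ≤ g) {y : E} (hy : y ∈ TwoSidedIdeal.span {g}) :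
    ∃ (n : ℕ) (x : Fin n → E), star y * y ≤ ∑ i, star (x i) * g * x i := by
  rw [TwoSidedIdeal.mem_span_iff_mem_addSubgroup_closure] at hy
  induction hy using AddSubgroup.closure_induction with
  | mem z hz =>
    obtain ⟨w, ⟨a, -, c, hc, rfl⟩, b, -, rfl⟩ := hz
    rw [Set.mem_singleton_iff] at hc
    subst hc
    have hgsa : star c = c := (IsSelfAdjoint.of_nonneg hg).star_eq
    -- `star a * a ≤ ‖a‖^2`, `c * c ≤ ‖c‖ c`
    refine ⟨1, fun _ => ((‖a‖ * √‖c‖ : ℝ) : ℂ) • b, ?_⟩
    rw [Fin.sum_univ_one]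
    have h1 : star a * a ≤ algebraMap ℝ E (‖a‖ ^ 2) := CStarAlgebra.star_mul_le_algebraMap_norm_sq
    have h2 : star (c * b) * (star a * a) * (c * b) ≤
        star (c * b) * algebraMap ℝ E (‖a‖ ^ 2) * (c * b) := star_left_conjugate_le_conjugate h1 _
    have hcc : c * c ≤ (‖c‖ : ℝ) • c := by
      have h3 : c ≤ algebraMap ℝ E ‖c‖ := (IsSelfAdjoint.of_nonneg hg).le_algebraMap_norm_self
      have h4 := conjugate_le_conjugate_of_nonneg h3 (CFC.sqrt_nonneg c)
      have e1 : CFC.sqrt c * c * CFC.sqrt c = c * c := by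
        have hs := CFC.sqrt_mul_sqrt_self c hg
        have hcom : CFC.sqrt c * c = c * CFC.sqrt c := by
          nth_rewrite 2 [← hs]
          nth_rewrite 4 [← hs]
          rw [mul_assoc]
        rw [hcom, mul_assoc, hs]
      have e2 : CFC.sqrt c * algebraMap ℝ E ‖c‖ * CFC.sqrt c = (‖c‖ : ℝ) • c := by
        rw [← Algebra.commutes, mul_assoc, CFC.sqrt_mul_sqrt_self c hg, Algebra.smul_def]
      rwa [e1, e2] at h4
    have h5 : star b * (c * c) * b ≤ star b * ((‖c‖ : ℝ) • c) * b :=
      star_left_conjugate_le_conjugate hcc _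
    have e3 : star (c * b) * (star a * a) * (c * b) = star (a * c * b) * (a * c * b) := by
      simp only [star_mul, mul_assoc]
    have e4 : star (c * b) * algebraMap ℝ E (‖a‖ ^ 2) * (c * b) =
        (‖a‖ ^ 2 : ℝ) • (star b * (c * c) * b) := by
      rw [← Algebra.commutes, Algebra.smul_def, star_mul, hgsa]
      simp only [mul_assoc]
    rw [← e3]
    refine h2.trans ?_
    rw [e4]
    refine (smul_le_smul_of_nonneg_left h5 (by positivity)).trans (le_of_eq ?_)
    have hcs : (‖a‖ * √‖c‖) * (‖a‖ * √‖c‖) = ‖a‖ ^ 2 * ‖c‖ := by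
      have := Real.mul_self_sqrt (norm_nonneg c)
      calc (‖a‖ * √‖c‖) * (‖a‖ * √‖c‖) = ‖a‖ ^ 2 * (√‖c‖ * √‖c‖) := by ring
        _ = _ := by rw [this]
    rw [star_smul, mul_smul_comm, smul_mul_assoc, smul_mul_assoc, smul_smul, mul_smul_comm,
      smul_mul_assoc, smul_smul]
    have e5 : ((‖a‖ * √‖c‖ : ℝ) : ℂ) * star ((‖a‖ * √‖c‖ : ℝ) : ℂ) = ((‖a‖ ^ 2 * ‖c‖ : ℝ) : ℂ) := by
      rw [Complex.star_def, Complex.conj_ofReal, ← Complex.ofReal_mul, hcs]
    rw [e5, Complex.coe_smul]
  | zero => exact ⟨0, Fin.elim0, by simp⟩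
  | add y z _ _ hy hz =>
    obtain ⟨n, x, hx⟩ := hy
    obtain ⟨m, x', hx'⟩ := hz
    have h2 : star (y + z) * (y + z) ≤ (2 : ℝ) • (star y * y) + (2 : ℝ) • (star z * z) := by
      have h0 : 0 ≤ star (y - z) * (y - z) := star_mul_self_nonneg _
      have e : (2 : ℝ) • (star y * y) + (2 : ℝ) • (star z * z) - star (y + z) * (y + z) =
          star (y - z) * (y - z) := by
        rw [two_smul, two_smul, star_add, star_sub]; noncomm_ring
      rw [← e] at h0
      exact sub_nonneg.mp h0
    have h3 : (2 : ℝ) • (star y * y) + (2 : ℝ) • (star z * z) ≤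
        (2 : ℝ) • (∑ i, star (x i) * g * x i) + (2 : ℝ) • (∑ i, star (x' i) * g * x' i) :=
      add_le_add (smul_le_smul_of_nonneg_left hx (by norm_num))
        (smul_le_smul_of_nonneg_left hx' (by norm_num))
    refine ⟨n + m, Fin.append (fun i => ((√2 : ℝ) : ℂ) • x i) (fun i => ((√2 : ℝ) : ℂ) • x' i), ?_⟩
    refine (h2.trans h3).trans (le_of_eq ?_)
    rw [Fin.sum_univ_add]
    have e5 : ((√2 : ℝ) : ℂ) * star ((√2 : ℝ) : ℂ) = ((2 : ℝ) : ℂ) := by
      rw [Complex.star_def, Complex.conj_ofReal, ← Complex.ofReal_mul,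
        Real.mul_self_sqrt (by norm_num)]
    have e6 : ∀ w : E, star (((√2 : ℝ) : ℂ) • w) * g * (((√2 : ℝ) : ℂ) • w) =
        (2 : ℝ) • (star w * g * w) := by
      intro w
      rw [star_smul, mul_smul_comm, smul_mul_assoc, smul_mul_assoc, smul_smul, e5, Complex.coe_smul]
    simp only [Fin.append_left, Fin.append_right, e6, Finset.smul_sum]
  | neg z _ hz =>
    obtain ⟨n, x, hx⟩ := hz
    exact ⟨n, x, by simpa using hx⟩

/-- A positive element of the closed ideal generated by `g ≥ 0` is a limit of `∑ x_i* g x_i`. -/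
theorem exists_sum_approx {g z : E} (hg : 0 ≤ g) (hz : 0 ≤ z)
    (hgz : ∀ (R : Type u) [CStarAlgebra R] (ρ : E →⋆ₐ[ℂ] R), ρ g = 0 → ρ z = 0)
    {ε : ℝ} (hε : 0 < ε) :
    ∃ (n : ℕ) (x : Fin n → E), ‖(∑ i, star (x i) * g * x i) - z‖ ≤ ε := by
  have hmem : CFC.sqrt z ∈ Idl g := by
    rw [mem_Idl_iff]
    intro R _ ρ hρ
    exact map_sqrt_eq_zero hz ρ (hgz R ρ hρ)
  have hcl : CFC.sqrt z ∈ closure (TwoSidedIdeal.span {g} : Set E) :=
    (Crest.Agent.R117.mem_idealClosure _ _).mp hmem
  have hsa : star (CFC.sqrt z) = CFC.sqrt z := (IsSelfAdjoint.of_nonneg (CFC.sqrt_nonneg z)).star_eq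
  have hcont : ContinuousAt (fun y : E => star y * y) (CFC.sqrt z) := by fun_prop
  rw [Metric.continuousAt_iff] at hcont
  obtain ⟨δ, hδ, hcont⟩ := hcont (ε / 2) (half_pos hε)
  obtain ⟨y, hy, hyd⟩ := Metric.mem_closure_iff.mp hcl δ hδ
  have h1 := hcont (by rwa [dist_comm] at hyd : dist y (CFC.sqrt z) < δ)
  rw [hsa, CFC.sqrt_mul_sqrt_self z hz, dist_eq_norm] at h1
  obtain ⟨n, x, hx⟩ := dominated_of_mem_span hg hy
  obtain ⟨r, -, hr, -⟩ := absorb (star_mul_self_nonneg y) hx (half_pos hε)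
  refine ⟨n, fun i => x i * r, ?_⟩
  have e : (∑ i, star (x i * r) * g * (x i * r)) = star r * (∑ i, star (x i) * g * x i) * r := by
    rw [Finset.mul_sum, Finset.sum_mul]
    refine Finset.sum_congr rfl fun i _ => ?_
    simp only [star_mul, mul_assoc]
  rw [e]
  calc _ = ‖(star r * (∑ i, star (x i) * g * x i) * r - star y * y) + (star y * y - z)‖ := by
        congr 1; abel
    _ ≤ ‖star r * (∑ i, star (x i) * g * x i) * r - star y * y‖ + ‖star y * y - z‖ :=
        norm_add_le _ _
    _ ≤ ε / 2 + ε / 2 := add_le_add hr h1.le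
    _ = ε := by ring

end thr

end Crest.Agent.R110
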