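import Mathlib
import Crest.Agent.R110.Defs
import Crest.Agent.R110.QuoPI
import Crest.Agent.R110.CutRp
import Crest.Agent.R110.Compare
import Crest.Agent.R110.Split
import Crest.Agent.R110.OneProj_Mg
import Crest.Prelude.Def_PurelyInfinite

-- ▼ part R110/Dip
section

/-!
# R110.Dip (helper741)

`exists_dip` : for `j` in a unital C*-algebra and `ε > 0` there is a positive contraction `k` with
`‖k * j‖ ≤ ε` which becomes `1` in every quotient killing `j`.
-/

set_option autoImplicit false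

open scoped CStarAlgebra

namespace Crest.Agent.R110

universe u v

/-- `dip ε x = max 0 (1 - x / ε²)`. -/
noncomputable def dipFun (ε : ℝ) : ℝ → ℝ := fun x => max 0 (1 - x / ε ^ 2)

theorem dipFun_cont (ε : ℝ) : Continuous (dipFun ε) := by
  unfold dipFun
  fun_prop

theorem exists_dip {E : Type u} [CStarAlgebra E] [PartialOrder E] [StarOrderedRing E]
    (j : E) {ε : ℝ} (hε : 0 < ε) :
    ∃ k : E, 0 ≤ k ∧ k ≤ 1 ∧ IsSelfAdjoint k ∧ ‖k‖ ≤ 1 ∧ ‖k * j‖ ≤ ε ∧
      ∀ (Q : Type v) [CStarAlgebra Q] (ρ : E →⋆ₐ[ℂ] Q), ρ j = 0 → ρ k = 1 := by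
  have hsa : IsSelfAdjoint (j * star j) := IsSelfAdjoint.mul_star_self j
  have hnn : (0 : E) ≤ j * star j := mul_star_self_nonneg j
  have hspec : ∀ x ∈ spectrum ℝ (j * star j), 0 ≤ x := fun x hx => spectrum_nonneg_of_nonneg hnn hx
  have hc : ContinuousOn (dipFun ε) (spectrum ℝ (j * star j)) := (dipFun_cont ε).continuousOn
  have hb : ∀ x, 0 ≤ dipFun ε x := fun x => le_max_left _ _
  have hb1 : ∀ x, 0 ≤ x → dipFun ε x ≤ 1 := by
    intro x hx
    unfold dipFun
    refine max_le (by norm_num) ?_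
    have : 0 ≤ x / ε ^ 2 := by positivity
    linarith
  have hknn : 0 ≤ cfc (dipFun ε) (j * star j) := cfc_nonneg (fun x _ => hb x)
  have hksa : IsSelfAdjoint (cfc (dipFun ε) (j * star j)) := cfc_predicate _ _
  refine ⟨cfc (dipFun ε) (j * star j), hknn, ?_, hksa, ?_, ?_, ?_⟩
  · exact cfc_le_one _ _ (fun x hx => hb1 x (hspec x hx))
  · refine norm_cfc_le zero_le_one ?_
    intro x hx
    rw [Real.norm_eq_abs, abs_of_nonneg (hb x)]
    exact hb1 x (hspec x hx)
  · set k := cfc (dipFun ε) (j * star j) with hk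
    have h1 : ‖k * j‖ ^ 2 = ‖k * (j * star j) * k‖ := by
      rw [sq, ← CStarRing.norm_self_mul_star, star_mul, hksa.star_eq]
      congr 1
      simp only [mul_assoc]
    have h2 : k * (j * star j) * k
        = cfc (fun x => dipFun ε x * x * dipFun ε x) (j * star j) := by
      rw [cfc_mul (fun x => dipFun ε x * x) (dipFun ε) (j * star j)
        (((dipFun_cont ε).mul continuous_id).continuousOn) hc,
        cfc_mul (dipFun ε) (fun x => x) (j * star j) hc (by fun_prop), cfc_id' ℝ (j * star j)]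
    have h3 : ‖k * j‖ ^ 2 ≤ ε ^ 2 := by
      rw [h1, h2]
      refine norm_cfc_le (by positivity) ?_
      intro x hx
      have hx0 := hspec x hx
      rw [Real.norm_eq_abs, abs_of_nonneg (mul_nonneg (mul_nonneg (hb x) hx0) (hb x))]
      rcases le_or_gt (ε ^ 2) x with h | h
      · have : dipFun ε x = 0 := by
          unfold dipFun
          refine max_eq_left ?_
          have : 1 ≤ x / ε ^ 2 := by
            rw [le_div_iff₀ (by positivity)]; linarith
          linarith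
        rw [this]; simp; positivity
      · have h4 := hb1 x hx0
        have h5 := hb x
        calc dipFun ε x * x * dipFun ε x ≤ 1 * x * 1 := by gcongr
          _ ≤ ε ^ 2 := by linarith
    exact le_of_sq_le_sq h3 hε.le
  · intro Q _ ρ hρ
    have h1 : ρ (cfc (dipFun ε) (j * star j)) = cfc (dipFun ε) (ρ (j * star j)) := by
      refine StarAlgHomClass.map_cfc ρ (dipFun ε) (j * star j) hc ?_ hsa ?_
      · exact map_continuous ρ
      · exact hsa.map ρ
    rw [h1, map_mul, hρ, zero_mul, cfc_apply_zero]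
    simp [dipFun]

end Crest.Agent.R110
end

-- ▼ part R110/QuoPI2
section

/-! Row 110: wrappers of `QuoPI.lean` for the frozen predicates. -/

set_option autoImplicit false

universe u

namespace Crest.Agent.R110

variable {E : Type u} [CStarAlgebra E] [PartialOrder E] [StarOrderedRing E]


theorem kill_ct_iff_thr {h : E} (hh : 0 ≤ h) {κ : ℝ} (hκ : 0 ≤ κ) (z : E) :
    Kill (ct κ h) z ↔ Thr h κ z := by
  constructor
  · intro hk Q _ ρ hρ
    exact hk Q ρ ((norm_map_le_iff hh hκ ρ).mp hρ)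
  · intro hk Q _ ρ hρ
    exact hk Q ρ ((norm_map_le_iff hh hκ ρ).mpr hρ)




end Crest.Agent.R110
end

-- ▼ part R110/GapProj
section

/-!
# R110.GapProj : from a gap to a projection (Blackadar-Cuntz)

Abstract form of step `L6` of the blueprint.  In a unital C*-algebra `E` let `0 ≤ f ≤ 1`,
`star x1 * x1 ≈ f`, `star x2 * x2 ≈ f`, `star x1 * x2 ≈ 0`, `f * xi = xi` and let `e` be a
self-adjoint element with `e * f = f`, `x1 * e = x1`.  With `r = (1 - f)^{1/2}` the element
`v = x1 + r` is almost an isometry, and `P = 1 - v (v* v)⁻¹ v*` is a projection with `e P = P`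
and `x2* P x2 ≈ f`.
-/

set_option autoImplicit false

namespace Crest.Agent.R110

universe u

variable {E : Type u} [CStarAlgebra E]

/-- If `r` is self-adjoint, `r * r = 1 - f` and `f * x = x` then `r * x = 0`. -/
theorem gap_mul_eq_zero {f r x : E} (hr : star r = r) (hrr : r * r = 1 - f) (hx : f * x = x) :
    r * x = 0 := by
  rw [← norm_eq_zero]
  have h : ‖r * x‖ * ‖r * x‖ = 0 := by
    rw [← CStarRing.norm_star_mul_self, star_mul, hr]
    have : star x * r * (r * x) = star x * ((r * r) * x) := by simp only [mul_assoc]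
    rw [this, hrr, sub_mul, one_mul, hx, sub_self, mul_zero, norm_zero]
  exact mul_self_eq_zero.mp h

/-- If `1 + r` is a unit, `r * r = 1 - f` and `f * y = 0`, then `r * y = y`. -/
theorem gap_mul_eq_self {f r y : E} (hu : IsUnit (1 + r)) (hrr : r * r = 1 - f)
    (hy : f * y = 0) : r * y = y := by
  have h : (1 + r) * (r * y - y) = 0 := by
    have : (1 + r) * (r * y - y) = (r * r) * y - y := by noncomm_ring
    rw [this, hrr, sub_mul, one_mul, hy]; simp
  have := hu.mul_right_eq_zero.mp h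
  exact sub_eq_zero.mp this

/-- The abstract gap-to-projection lemma. -/
theorem gap_projection (f r e x1 x2 : E) {ε : ℝ}
    (hε : ε ≤ 1 / 2)
    (hfs : star f = f) (hr : star r = r) (hrr : r * r = 1 - f) (hru : IsUnit (1 + r))
    (he : star e = e) (hef : e * f = f) (hfe : f * e = f)
    (hf1 : f * x1 = x1) (hf2 : f * x2 = x2) (hx1e : x1 * e = x1)
    (h11 : ‖star x1 * x1 - f‖ ≤ ε) (h12 : ‖star x1 * x2‖ ≤ ε) (h22 : ‖star x2 * x2 - f‖ ≤ ε) :
    ∃ P : E, star P = P ∧ P * P = P ∧ e * P = P ∧ P * e = P ∧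
      ‖star x2 * P * x2 - f‖ ≤ ε + 2 * ε ^ 2 := by
  have hε0 : 0 ≤ ε := (norm_nonneg _).trans h11
  rcases subsingleton_or_nontrivial E with hE | hE
  · exact ⟨0, Subsingleton.elim _ _, Subsingleton.elim _ _, Subsingleton.elim _ _,
      Subsingleton.elim _ _, by
        rw [Subsingleton.elim (star x2 * 0 * x2 - f) 0, norm_zero]; positivity⟩
  set v : E := x1 + r with hv
  have hrx1 : r * x1 = 0 := gap_mul_eq_zero hr hrr hf1
  have hrx2 : r * x2 = 0 := gap_mul_eq_zero hr hrr hf2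
  have hx1r : star x1 * r = 0 := by
    have := congrArg star hrx1
    rwa [star_mul, hr, star_zero] at this
  -- `w = v* v = 1 + (x1* x1 - f)`
  set w : E := star v * v with hw
  have hwe : w = 1 + (star x1 * x1 - f) := by
    have : w = star x1 * x1 + star x1 * r + (r * x1 + r * r) := by
      rw [hw, hv, star_add, hr]; noncomm_ring
    rw [this, hx1r, hrx1, hrr]; abel
  have hws : star w = w := by rw [hw]; simp
  have hnorm : ‖-(star x1 * x1 - f)‖ < 1 := by
    rw [norm_neg]; linarith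
  have hunit : IsUnit w := by
    have := (Units.oneSub (-(star x1 * x1 - f)) hnorm).isUnit
    rw [Units.val_oneSub, sub_neg_eq_add, ← hwe] at this
    exact this
  obtain ⟨U, hU⟩ := hunit
  set wi : E := ((U⁻¹ : Eˣ) : E) with hwi
  have hw1 : w * wi = 1 := by rw [← hU]; exact U.mul_inv
  have hw2 : wi * w = 1 := by rw [← hU]; exact U.inv_mul
  have hwis : star wi = wi := by
    have h1 : star wi * w = 1 := by
      have := congrArg star hw1
      rwa [star_mul, hws, star_one] at this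
    calc star wi = star wi * (w * wi) := by rw [hw1, mul_one]
      _ = wi := by rw [← mul_assoc, h1, one_mul]
  have hwin : ‖wi‖ ≤ 2 := by
    have h1 : wi = 1 - (star x1 * x1 - f) * wi := by
      have := hw1
      rw [hwe, add_mul, one_mul] at this
      exact eq_sub_of_add_eq this
    have h2 : ‖wi‖ ≤ 1 + ε * ‖wi‖ := by
      calc ‖wi‖ = ‖1 - (star x1 * x1 - f) * wi‖ := by rw [← h1]
        _ ≤ ‖(1 : E)‖ + ‖(star x1 * x1 - f) * wi‖ := norm_sub_le _ _
        _ ≤ 1 + ε * ‖wi‖ := by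
          rw [norm_one]
          gcongr
          exact (norm_mul_le _ _).trans (mul_le_mul_of_nonneg_right h11 (norm_nonneg _))
    nlinarith [norm_nonneg wi]
  -- behaviour on `1 - e`
  set y : E := 1 - e with hy
  have hys : star y = y := by rw [hy, star_sub, star_one, he]
  have hfy : f * y = 0 := by rw [hy, mul_sub, mul_one, hfe, sub_self]
  have hyf : y * f = 0 := by rw [hy, sub_mul, one_mul, hef, sub_self]
  have hry : r * y = y := gap_mul_eq_self hru hrr hfy
  have hyr : y * r = y := by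
    have := congrArg star hry
    rwa [star_mul, hr, hys] at this
  have hx1y : x1 * y = 0 := by rw [hy, mul_sub, mul_one, hx1e, sub_self]
  have hyx1 : y * x1 = 0 := by
    rw [← hf1, ← mul_assoc, hyf, zero_mul]
  have hvy : v * y = y := by rw [hv, add_mul, hx1y, hry, zero_add]
  have hyv : y * v = y := by rw [hv, mul_add, hyx1, hyr, zero_add]
  have hsvy : star v * y = y := by
    have := congrArg star hyv
    rwa [star_mul, hys] at this
  have hwy : w * y = y := by rw [hw, mul_assoc, hvy, hsvy]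
  have hwiy : wi * y = y := by
    calc wi * y = wi * (w * y) := by rw [hwy]
      _ = y := by rw [← mul_assoc, hw2, one_mul]
  set P : E := 1 - v * wi * star v with hP
  have hPs : star P = P := by
    rw [hP]
    simp only [star_sub, star_one, star_mul, star_star, hwis, mul_assoc]
  have hvv : (v * wi * star v) * (v * wi * star v) = v * wi * star v := by
    have : (v * wi * star v) * (v * wi * star v) = v * (wi * w) * (wi * star v) := by
      rw [hw]; simp only [mul_assoc]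
    rw [this, hw2, mul_one, ← mul_assoc]
  have hPP : P * P = P := by
    have : P * P = 1 - v * wi * star v - v * wi * star v
        + (v * wi * star v) * (v * wi * star v) := by rw [hP]; noncomm_ring
    rw [this, hvv]
    rw [hP]; abel
  have hPy : P * y = 0 := by
    rw [hP, sub_mul, one_mul, mul_assoc, hsvy, mul_assoc, hwiy, hvy, sub_self]
  have hPe : P * e = P := by
    have : P * e = P - P * y := by rw [hy]; noncomm_ring
    rw [this, hPy, sub_zero]
  have hePP : e * P = P := by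
    have := congrArg star hPe
    rwa [star_mul, hPs, he] at this
  refine ⟨P, hPs, hPP, hePP, hPe, ?_⟩
  have hsv2 : star v * x2 = star x1 * x2 := by
    rw [hv, star_add, hr, add_mul, hrx2, add_zero]
  have hkey : star x2 * P * x2 - f = (star x2 * x2 - f)
      - star (star x1 * x2) * wi * (star x1 * x2) := by
    have h1 : star x2 * P * x2 = star x2 * x2 - (star x2 * v) * wi * (star v * x2) := by
      rw [hP]; noncomm_ring
    have h2 : star x2 * v = star (star v * x2) := by rw [star_mul, star_star]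
    rw [h1, h2, hsv2]; abel
  rw [hkey]
  calc ‖(star x2 * x2 - f) - star (star x1 * x2) * wi * (star x1 * x2)‖
      ≤ ‖star x2 * x2 - f‖ + ‖star (star x1 * x2) * wi * (star x1 * x2)‖ := norm_sub_le _ _
    _ ≤ ε + (ε * 2) * ε := by
        gcongr
        refine (norm_mul_le _ _).trans ?_
        refine mul_le_mul ?_ h12 (norm_nonneg _) (by positivity)
        refine (norm_mul_le _ _).trans ?_
        rw [norm_star]
        exact mul_le_mul h12 hwin (norm_nonneg _) hε0
    _ = ε + 2 * ε ^ 2 := by ring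

end Crest.Agent.R110
end

-- ▼ part R110/GapProj2
section

/-!
# R110.GapProj2 : L6, gap implies projection (helper628; core `gap_projection` by helper556)
-/

set_option autoImplicit false

universe u

namespace Crest.Agent.R110

variable {E : Type u} [CStarAlgebra E] [PartialOrder E] [StarOrderedRing E]

theorem gap_proj {I : Set E} (hI : PIIdeal I) {x : E} (hx : 0 ≤ x) (hxI : x ∈ I)
    {κ : ℝ} (hκ : 0 < κ) (gap : Thr x κ x) :
    ∃ P : E, P * P = P ∧ star P = P ∧ P ∈ I ∧ rp (κ / 16) (κ / 8) x * P = P ∧ Kill P x := by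
  have hsa : IsSelfAdjoint x := hx.isSelfAdjoint
  set f : E := rp (κ / 2) κ x with hf
  set g : E := rp (κ / 4) (κ / 2) x with hg
  set e : E := rp (κ / 8) (κ / 4) x with he
  have hfsa : IsSelfAdjoint f := rp_isSelfAdjoint _ _ _
  have hgsa : IsSelfAdjoint g := rp_isSelfAdjoint _ _ _
  have hesa : IsSelfAdjoint e := rp_isSelfAdjoint _ _ _
  have hgf : g * f = f := rp_mul_rp hsa (by linarith) le_rfl (by linarith)
  have hef : e * f = f := rp_mul_rp hsa (by linarith) (by linarith) (by linarith)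
  have heg : e * g = g := rp_mul_rp hsa (by linarith) le_rfl (by linarith)
  have hfg : f * g = f := by
    have := congrArg star hgf
    rwa [star_mul, hfsa.star_eq, hgsa.star_eq] at this
  have hfe : f * e = f := by
    have := congrArg star hef
    rwa [star_mul, hfsa.star_eq, hesa.star_eq] at this
  have hge : g * e = g := by
    have := congrArg star heg
    rwa [star_mul, hgsa.star_eq, hesa.star_eq] at this
  -- the square root of `1 - f`
  have hc1 : Continuous fun y : ℝ => 1 - ramp (κ / 2) κ y := by fun_prop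
  set r : E := cfc (fun y : ℝ => √(1 - ramp (κ / 2) κ y)) x with hr
  have hrsa : IsSelfAdjoint r := cfc_predicate _ _
  have hr0 : 0 ≤ r := cfc_nonneg fun y _ => Real.sqrt_nonneg _
  have hrr : r * r = 1 - f := by
    have h1 : 1 - f = cfc (fun y : ℝ => 1 - ramp (κ / 2) κ y) x := one_sub_cfc hsa (by fun_prop)
    rw [h1, hr]
    exact cfc_sqrt_mul_sqrt hsa hc1 (fun y => by have := ramp_le_one (κ / 2) κ y; linarith)
  have hru : IsUnit (1 + r) := by
    have h1 : (1 : E) ≤ 1 + r := le_add_of_nonneg_right hr0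
    exact CStarAlgebra.isUnit_of_le (1 : E) h1
  -- comparison
  have hfx : Kill (ct κ x) f := by
    rw [kill_ct_iff_thr hx hκ.le]
    intro Q _ ρ hρ
    have h0 := gap Q ρ hρ
    have h1 : ‖ρ x‖ ≤ κ / 2 := by rw [h0, norm_zero]; linarith
    exact (map_rp_eq_zero_iff ρ hx (by linarith) (by linarith)).mpr h1
  obtain ⟨y₁, y₂, c11, c22, c12, -, -, -, -, hys⟩ :=
    comparison hI hsa hxI hκ (rp_nonneg (κ / 2) κ x) hfx (ε := 1 / 8) (by norm_num)
  obtain ⟨hy1, hy2⟩ := hys (κ / 2) (by linarith)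
  rw [← hf] at hy1 hy2 c11 c22
  -- square root of `x`
  obtain ⟨q, hq0, hqq, hqf⟩ : ∃ q : E, IsSelfAdjoint q ∧ q * q = x ∧ f * q = q * f := by
    refine ⟨cfc (fun y : ℝ => √y) x, cfc_predicate _ _, ?_, ?_⟩
    · have h1 : cfc (fun y : ℝ => √y) x * cfc (fun y : ℝ => √y) x = cfc (fun y : ℝ => y) x :=
        cfc_mul_of hsa (by fun_prop) (by fun_prop)
          (fun y hy => Real.mul_self_sqrt (spectrum_nonneg_of_nonneg hx hy))
      rw [h1, cfc_id' ℝ x]
    · rw [hf]
      unfold rp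
      exact cfc_commute_cfc _ _ _
  have hng : ‖g‖ ≤ 1 := norm_rp_le_one _ _ _
  have key : ∀ y z w : E, ‖star y * x * z - w‖ ≤ 1 / 8 → g * w * g = w →
      ‖star (q * y * g) * (q * z * g) - w‖ ≤ 1 / 8 := by
    intro y z w h1 h2
    have e1 : star (q * y * g) * (q * z * g) - w = g * (star y * x * z - w) * g := by
      rw [star_mul, star_mul, hgsa.star_eq, hq0.star_eq, mul_sub, sub_mul, h2, ← hqq]
      simp only [mul_assoc]
    rw [e1]
    calc ‖g * (star y * x * z - w) * g‖ ≤ ‖g‖ * ‖star y * x * z - w‖ * ‖g‖ := by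
          refine (norm_mul_le _ _).trans ?_
          gcongr
          exact norm_mul_le _ _
      _ ≤ 1 * (1 / 8) * 1 := by gcongr
      _ = 1 / 8 := by norm_num
  have hgfg : g * f * g = f := by rw [hgf, hfg]
  have d11 := key y₁ y₁ f c11.le hgfg
  have d22 := key y₂ y₂ f c22.le hgfg
  have d12 := key y₁ y₂ 0 (by rw [sub_zero]; exact c12.le) (by simp)
  rw [sub_zero] at d12
  have hf1 : ∀ y : E, f * y = y → f * (q * y * g) = q * y * g := by
    intro y hy
    calc f * (q * y * g) = (f * q) * y * g := by simp only [mul_assoc]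
      _ = q * (f * y) * g := by rw [hqf]; simp only [mul_assoc]
      _ = q * y * g := by rw [hy]
  obtain ⟨P, hPs, hPP, heP, hPe, hPf⟩ := gap_projection f r e (q * y₁ * g) (q * y₂ * g)
    (ε := 1 / 8) (by norm_num) hfsa.star_eq hrsa.star_eq hrr hru hesa.star_eq hef hfe
    (hf1 y₁ hy1) (hf1 y₂ hy2) (by rw [mul_assoc, hge]) d11 d12 d22
  refine ⟨P, hPP, hPs, ?_, ?_, ?_⟩
  · rw [← heP]
    exact hI.mul_right _ (rp_mem hI hsa hxI (by linarith) (by linarith))
  · have h1 : rp (κ / 16) (κ / 8) x * e = e := rp_mul_rp hsa (by linarith) le_rfl (by linarith)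
    rw [← heP, ← mul_assoc, h1]
  · intro Q _ ρ hρ
    apply gap Q ρ
    have h1 : ‖ρ f‖ < 1 := by
      have h2 : ρ f = -ρ (star (q * y₂ * g) * P * (q * y₂ * g) - f) := by
        rw [map_sub, map_mul, map_mul, hρ]; simp
      rw [h2, norm_neg]
      refine (norm_hom_le ρ _).trans_lt (hPf.trans_lt ?_)
      norm_num
    exact (norm_lt_of_norm_map_rp_lt_one ρ hx (by linarith) (by linarith) h1).le

end Crest.Agent.R110
end

-- ▼ part R110/Step2
section

/-!
# R110.Step2 (helper793)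

`step2` : the second step of the main estimate of row 110 (S0145).  Under the gap
`‖ρ b‖ ≤ 3/4 ⟹ ‖ρ a‖ ≤ r` a pair `(S, T)` with `S⋆S ≈ f_{r₂,r₃}(a)`, `T⋆T ≈ w` and
`‖S⋆ d T‖ ≤ 4/5`.
-/

set_option autoImplicit false

universe u

namespace Crest.Agent.R110

/-- a projection whose image has norm `≤ 1/2` is killed. -/
theorem map_proj_eq_zero {B Q : Type u} [CStarAlgebra B] [CStarAlgebra Q] (ρ : B →⋆ₐ[ℂ] Q)
    {P : B} (hP : P * P = P) (hPs : star P = P) (h : ‖ρ P‖ ≤ 1 / 2) : ρ P = 0 := by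
  have h1 : ‖ρ P‖ = ‖ρ P‖ * ‖ρ P‖ := by
    calc ‖ρ P‖ = ‖star (ρ P) * ρ P‖ := by rw [← map_star, hPs, ← map_mul, hP]
      _ = ‖ρ P‖ * ‖ρ P‖ := CStarRing.norm_star_mul_self
  have h2 := norm_nonneg (ρ P)
  have h3 : ‖ρ P‖ = 0 := by nlinarith
  exact norm_eq_zero.mp h3

section Step2

variable {E : Type u} [CStarAlgebra E] [PartialOrder E] [StarOrderedRing E]

/-- the pair `(S₂, T₂)` in a quotient in which the element `c` of the splitting has a gap. -/
theorem quot_pair {I : Set E} (hI : PIIdeal I) {a b d T₁ c : E} (ha : 0 ≤ a)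
    (hb : 0 ≤ b) (hbI : b ∈ I) (hd : ‖d‖ ≤ 1) {r r₁ r₂ δ : ℝ} (h0 : 0 < r)
    (h1 : r < r₁) (h2 : r₁ < r₂) (hδ : 0 < δ) (hδ1 : δ ≤ 1) (hc : 0 ≤ c) (hcI : c ∈ I)
    (hcT : ‖c * T₁‖ ≤ δ / 64) (hac : rp (r / 2) r a * c = c) (hdom : Dom c (1 / 2) a r₁)
    (gap : Thr c (1 / 2) c) :
    ∃ S₂ T₂ : E, rp (1 / 8) (1 / 4) b * S₂ = S₂ ∧ rp (r / 2) r a * T₂ = T₂ ∧
      ‖star S₂ * S₂ - rp (1 / 2) (3 / 4) b‖ ≤ δ ∧ ‖star T₂ * T₂ - rp r₁ r₂ a‖ ≤ δ ∧
      ‖star T₁ * T₂‖ ≤ δ ∧ ‖star S₂ * star d * T₂‖ ≤ 1 / 100 := by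
  obtain ⟨P, hPP, hPs, hPI, hgP, hkP⟩ := gap_proj hI hc hcI (by norm_num : (0 : ℝ) < 1 / 2) gap
  obtain ⟨SP, Top, hPS, hSS, hbT, hTT, hST⟩ := one_proj hI hPP hPs hPI hb hbI hd
    (by norm_num : (0 : ℝ) < 1 / 4) (by norm_num : (1 / 4 : ℝ) < 1 / 2)
    (by norm_num : (1 / 2 : ℝ) < 3 / 4) (by norm_num : (0 : ℝ) < 1 / 200)
    (by positivity : (0 : ℝ) < δ / 8)
  have hz0 : 0 ≤ rp r₁ r₂ a := rp_nonneg _ _ _
  have hz1 : ‖rp r₁ r₂ a‖ ≤ 1 := norm_rp_le_one _ _ _
  have hP0 : 0 ≤ P := by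
    have h : 0 ≤ star P * P := star_mul_self_nonneg P
    rwa [hPs, hPP] at h
  have hthr : Thr P (1 / 2) (rp r₁ r₂ a) := by
    intro Q _ ρ hρ
    have h3 : ρ P = 0 := map_proj_eq_zero ρ hPP hPs hρ
    have h4 : ρ c = 0 := hkP Q ρ h3
    have h5 : ‖ρ a‖ ≤ r₁ := hdom Q ρ (by rw [h4, norm_zero]; norm_num)
    exact (map_rp_eq_zero_iff ρ ha (by linarith) h2).mpr h5
  have hkill : Kill (ct (1 / 2) P) (rp r₁ r₂ a) :=
    (Cmp.kill_ct_iff_thr_aux hP0 (by norm_num) _).mpr hthr
  obtain ⟨y, -, hy1, -, -, -, -, hy2, -, -⟩ := comparison hI (show IsSelfAdjoint P from hPs) hPI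
    (by norm_num : (0 : ℝ) < 1 / 2) hz0 hkill (by positivity : (0 : ℝ) < δ / 2)
  have hy3 : ‖y‖ ^ 2 ≤ 4 := by
    refine hy2.trans ?_
    rw [div_le_iff₀ (by norm_num)]
    linarith
  have hy4 : ‖y‖ ≤ 2 := by
    nlinarith [norm_nonneg y]
  have hexp : star (SP * y) * (SP * y) - rp r₁ r₂ a
      = star y * (star SP * SP - P) * y + (star y * P * y - rp r₁ r₂ a) := by
    rw [star_mul]; noncomm_ring
  have hT2 : ‖star (SP * y) * (SP * y) - rp r₁ r₂ a‖ ≤ δ := by
    rw [hexp]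
    refine (norm_add_le _ _).trans ?_
    have h3 : ‖star y * (star SP * SP - P) * y‖ ≤ ‖y‖ * (δ / 8) * ‖y‖ := by
      refine (norm_mul_le _ _).trans ?_
      refine mul_le_mul_of_nonneg_right ?_ (norm_nonneg _)
      refine (norm_mul_le _ _).trans ?_
      rw [norm_star]
      exact mul_le_mul_of_nonneg_left hSS.le (norm_nonneg _)
    have h4 : ‖y‖ * (δ / 8) * ‖y‖ = (δ / 8) * ‖y‖ ^ 2 := by ring
    have h5 : (δ / 8) * ‖y‖ ^ 2 ≤ (δ / 8) * 4 := by gcongr
    linarith
  have hT2n : ‖SP * y‖ ≤ 2 := by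
    have h3 : ‖SP * y‖ * ‖SP * y‖ = ‖star (SP * y) * (SP * y)‖ :=
      CStarRing.norm_star_mul_self.symm
    have h4 : ‖star (SP * y) * (SP * y)‖ ≤ δ + 1 := by
      calc ‖star (SP * y) * (SP * y)‖
          = ‖(star (SP * y) * (SP * y) - rp r₁ r₂ a) + rp r₁ r₂ a‖ := by rw [sub_add_cancel]
        _ ≤ _ := (norm_add_le _ _).trans (add_le_add hT2 hz1)
    nlinarith [norm_nonneg (SP * y)]
  -- the cut-off of `c` absorbs `SP * y`
  have hgSP : rp (1 / 2 / 16) (1 / 2 / 8) c * SP = SP := absorb_trans hgP hPS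
  have hag : rp (r / 2) r a * rp (1 / 2 / 16) (1 / 2 / 8) c = rp (1 / 2 / 16) (1 / 2 / 8) c :=
    mul_rp_of_mul hc hac (by norm_num) (by norm_num)
  have haSP : rp (r / 2) r a * SP = SP := absorb_trans hag hgSP
  refine ⟨Top, SP * y, ?_, ?_, hTT.le.trans (by linarith), hT2, ?_, ?_⟩
  · have h3 : (1 / 4 : ℝ) / 2 = 1 / 8 := by norm_num
    rw [h3] at hbT
    exact hbT
  · rw [← mul_assoc, haSP]
  · have h3 : star T₁ * (SP * y) = star (rp (1 / 2 / 16) (1 / 2 / 8) c * T₁) * (SP * y) := by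
      rw [star_mul, star_rp, mul_assoc, ← mul_assoc (rp _ _ c), hgSP]
    rw [h3]
    refine (norm_mul_le _ _).trans ?_
    rw [norm_star]
    have h4 : ‖rp (1 / 2 / 16) (1 / 2 / 8) c * T₁‖ ≤ (1 / 2 / 16 : ℝ)⁻¹ * ‖c * T₁‖ :=
      norm_rp_mul_le hc (by norm_num) (by norm_num) T₁
    have h5 : (1 / 2 / 16 : ℝ)⁻¹ = 32 := by norm_num
    rw [h5] at h4
    have h6 : ‖rp (1 / 2 / 16) (1 / 2 / 8) c * T₁‖ ≤ δ / 2 := by linarith
    calc ‖rp (1 / 2 / 16) (1 / 2 / 8) c * T₁‖ * ‖SP * y‖ ≤ (δ / 2) * 2 := by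
          gcongr
      _ = δ := by ring
  · have h3 : star Top * star d * (SP * y) = star (star SP * d * Top) * y := by
      simp only [star_mul, star_star, mul_assoc]
    rw [h3]
    refine (norm_mul_le _ _).trans ?_
    rw [norm_star]
    calc ‖star SP * d * Top‖ * ‖y‖ ≤ (1 / 200) * 2 := by gcongr
      _ = 1 / 100 := by norm_num

theorem step2 {I : Set E} (hI : PIIdeal I) {a b d w : E} (ha : 0 ≤ a) (haI : a ∈ I) (hb : 0 ≤ b)
    (hbI : b ∈ I) (hd : ‖d‖ ≤ 1) (hw : 0 ≤ w) (hw1 : ‖w‖ ≤ 1) {r r₁ r₂ r₃ : ℝ} (h0 : 0 < r)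
    (h1 : r < r₁) (h2 : r₁ < r₂) (h3 : r₂ < r₃) (gap : Dom b (3 / 4) a r)
    (hwb : Thr b (3 / 4) w) {ε : ℝ} (hε : 0 < ε) :
    ∃ S T : E, rp (r / 4) (r / 2) a * S = S ∧ rp (1 / 16) (1 / 8) b * T = T ∧
      ‖star S * S - rp r₂ r₃ a‖ < ε ∧ ‖star T * T - w‖ < ε ∧ ‖star S * d * T‖ ≤ 4 / 5 := by
  have has : IsSelfAdjoint a := ha.isSelfAdjoint
  have hbs : IsSelfAdjoint b := hb.isSelfAdjoint
  -- the constants of the superposition lemma
  have hA : Real.sqrt (1 / 2) + 1 / 100 < 4 / 5 := by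
    have h4 : Real.sqrt (1 / 2) < 3 / 4 := by
      rw [Real.sqrt_lt' (by norm_num)]
      norm_num
    linarith
  obtain ⟨δ, hδ, hsp⟩ := superposition.{u} (lam := 1 / 2) (θ₁ := 1 / 100) (θ' := 4 / 5)
    (by norm_num) (by norm_num) (by norm_num) hA (by norm_num)
  obtain ⟨δ₀, hδ₀, hδ₀δ, hδ₀1⟩ : ∃ δ₀ : ℝ, 0 < δ₀ ∧ δ₀ ≤ δ ∧ δ₀ ≤ 1 :=
    ⟨min δ 1, lt_min hδ one_pos, min_le_left _ _, min_le_right _ _⟩
  -- the splitting of `a`
  obtain ⟨T₁, c, hc, hcI, hT₁I, hcT, hTT, haT, hac, hTa, hdom, hca⟩ :=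
    splitting hI ha haI h0 h1 h2 (by norm_num : (0 : ℝ) ≤ 1 / 2) (by norm_num)
      (by positivity : (0 : ℝ) < δ₀ / 64)
  -- the square root of the cut-off of `b`
  obtain ⟨q, hq0, hq1, hqI, hqq, hbq, -⟩ := exists_sqrt_rp hI hbs hbI
    (by norm_num : (0 : ℝ) < 1 / 4) (by norm_num : (1 / 4 : ℝ) < 1 / 2)
  have hqs : star q = q := hq0.isSelfAdjoint.star_eq
  obtain ⟨k, hk0, -, hks, hk1, hkj, hkQ⟩ := exists_dip.{u, u} (q * star d * T₁) hδ₀
  have hks' : star k = k := hks.star_eq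
  have hβT : rp (r / 2) r a * T₁ = T₁ :=
    absorb_trans (rp_mul_rp has (by linarith) le_rfl h1) haT
  have hSS : star (q * k) * (q * k) = k * rp (1 / 4) (1 / 2) b * k := by
    rw [star_mul, hqs, hks', mul_assoc, ← mul_assoc q q k, hqq, mul_assoc]
  obtain ⟨S, T, ⟨yS, hyS⟩, ⟨yT, hyT⟩, hSw, hTw, hfin⟩ := hsp E I hI
    (rp (1 / 8) (1 / 4) b) (rp (r / 2) r a) (star d) (rp (1 / 2) (3 / 4) b) w
    (rp r₁ r₂ a) (rp r₂ r₃ a) (q * k) T₁
    (rp_isSelfAdjoint _ _ _) (rp_mem hI hbs hbI (by norm_num) (by norm_num))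
    (rp_isSelfAdjoint _ _ _) (rp_mem hI has haI (by linarith) (by linarith))
    (by rw [norm_star]; exact hd) (norm_rp_le_one _ _ _) hw hw1
    (by
      intro Q _ ρ hρ
      by_contra hcon
      apply hρ
      refine hwb Q ρ ?_
      by_contra h4
      push Not at h4
      exact hcon (norm_map_rp_eq_one ρ hb (by norm_num) (by norm_num) h4.le).ge)
    (norm_rp_le_one _ _ _) (rp_nonneg _ _ _) (norm_rp_le_one _ _ _)
    (by
      intro Q _ ρ hρ
      by_contra hcon
      apply hρ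
      refine (map_rp_eq_zero_iff ρ ha (by linarith) h3).mpr ?_
      by_contra h4
      push Not at h4
      exact hcon (norm_map_rp_eq_one ρ ha (by linarith) h2 h4.le).ge)
    (by
      refine (norm_mul_le _ _).trans ?_
      calc ‖q‖ * ‖k‖ ≤ 1 * 1 := by gcongr
        _ = 1 := one_mul 1)
    (by rw [← mul_assoc, hbq (1 / 8) (by norm_num)])
    hβT
    (by
      have h4 : star (q * k) * star d * T₁ = k * (q * star d * T₁) := by
        rw [star_mul, hqs, hks']
        simp only [mul_assoc]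
      rw [h4]
      exact hkj.trans hδ₀δ)
    (hTT.le.trans (by linarith))
    (by
      intro B _ _ _ π hπ hπS
      have hgapB : Thr (π c) (1 / 2) (π c) := by
        intro Q _ ρ hρ
        have e : ∀ x, (ρ.comp π) x = ρ (π x) := fun x => rfl
        have g1 : ‖(ρ.comp π) a‖ ≤ r₁ := hdom Q (ρ.comp π) (by rw [e]; exact hρ)
        have g2 : (ρ.comp π) T₁ = 0 := hTa Q (ρ.comp π) g1
        have g3 : (ρ.comp π) k = 1 := hkQ Q (ρ.comp π) (by rw [map_mul, g2, mul_zero])
        have g4 : (ρ.comp π) (star (q * k) * (q * k)) = (ρ.comp π) (rp (1 / 4) (1 / 2) b) := by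
          rw [hSS, map_mul, map_mul, g3, one_mul, mul_one]
        have g5 : ‖(ρ.comp π) (rp (1 / 4) (1 / 2) b)‖ ≤ 1 / 2 := by
          rw [← g4, e]
          exact (norm_hom_le ρ _).trans hπS
        have g6 : ‖(ρ.comp π) b‖ < 1 / 2 :=
          norm_lt_of_norm_map_rp_lt_one (ρ.comp π) hb (by norm_num)
            (by norm_num : (1 / 4 : ℝ) < 1 / 2) (by linarith)
        have g7 : ‖(ρ.comp π) a‖ ≤ r := gap Q (ρ.comp π) (by linarith)
        have g8 : (ρ.comp π) c = 0 := hca Q (ρ.comp π) g7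
        rw [e] at g8
        exact g8
      have hdomB : Dom (π c) (1 / 2) (π a) r₁ := by
        intro Q _ ρ hρ
        exact hdom Q (ρ.comp π) hρ
      obtain ⟨S₂, T₂, e1, e2, e3, e4, e5, e6⟩ := quot_pair (hI.map π hπ)
        (a := π a) (b := π b) (d := π d) (T₁ := π T₁) (c := π c) (δ := δ₀)
        (map_nonneg' π ha) (map_nonneg' π hb) ⟨b, hbI, rfl⟩ ((norm_hom_le π d).trans hd)
        h0 h1 h2 hδ₀ hδ₀1 (map_nonneg' π hc) ⟨c, hcI, rfl⟩
        (by rw [← map_mul]; exact (norm_hom_le π _).trans hcT.le)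
        (by rw [← map_rp π has, ← map_mul, hac]) hdomB hgapB
      refine ⟨S₂, T₂, ?_, ?_, ?_, ?_, e5.trans hδ₀δ, ?_⟩
      · rw [map_rp π hbs]; exact e1
      · rw [map_rp π has]; exact e2
      · rw [map_rp π hbs]; exact e3.trans hδ₀δ
      · rw [map_rp π has]; exact e4.trans hδ₀δ
      · rw [map_star]; exact e6)
    ε hε
  refine ⟨T, S, ?_, ?_, hTw, hSw, ?_⟩
  · rw [hyT, ← mul_assoc, rp_mul_rp has (by linarith) le_rfl (by linarith)]
  · rw [hyS, ← mul_assoc, rp_mul_rp hbs (by norm_num) le_rfl (by norm_num)]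
  · have h4 : star T * d * S = star (star S * star d * T) := by
      simp only [star_mul, star_star, mul_assoc]
    rw [h4, norm_star]
    exact hfin

end Step2

end Crest.Agent.R110
end

-- ▼ part R110/Step1
section

/-!
# R110.Step1 (helper741) : Step 1 of the blueprint (note 6347).
-/

set_option autoImplicit false

universe u

namespace Crest.Agent.R110

open scoped CStarAlgebra

section Step1

variable {E : Type u} [CStarAlgebra E] [PartialOrder E] [StarOrderedRing E]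

/-- `ρ (f_{s,t}(a)) ≠ 0` forces `‖ρ (f_{s',s}(a))‖ = 1`. -/
theorem one_le_norm_of_rp_ne {a : E} (ha : 0 ≤ a) {s' s t : ℝ} (h0 : 0 ≤ s') (h1 : s' < s)
    (h2 : s < t) (Q : Type u) [CStarAlgebra Q] (ρ : E →⋆ₐ[ℂ] Q) (h : ρ (rp s t a) ≠ 0) :
    1 ≤ ‖ρ (rp s' s a)‖ := by
  have h3 : ¬ ‖ρ a‖ ≤ s := fun hle => h ((map_rp_eq_zero_iff ρ ha (h0.trans h1.le) h2).mpr hle)
  exact (norm_map_rp_eq_one ρ ha h0 h1 (not_le.mp h3).le).ge

theorem step1 {I : Set E} (hI : PIIdeal I) {a b d : E} (ha : 0 ≤ a) (haI : a ∈ I) (hb : 0 ≤ b)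
    (hbI : b ∈ I) (hd : ‖d‖ ≤ 1) {r r' t t' : ℝ} (hr : 0 < r) (hr' : r < r') (ht : 0 < t)
    (ht' : t < t') {ε : ℝ} (hε : 0 < ε) :
    ∃ S T : E, rp (r / 64) (r / 32) a * S = S ∧ rp (t / 64) (t / 32) b * T = T ∧
      ‖star S * S - rp r r' a‖ < ε ∧ ‖star T * T - rp t t' b‖ < ε ∧
      ‖star S * d * T‖ ≤ 999 / 1000 := by
  have hsa : IsSelfAdjoint a := IsSelfAdjoint.of_nonneg ha
  have hsb : IsSelfAdjoint b := IsSelfAdjoint.of_nonneg hb
  obtain ⟨δ, hδ, key⟩ := superposition.{u} (lam := 1 / 100) (θ₁ := 4 / 5) (θ' := 999 / 1000)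
    (by norm_num) (by norm_num) (by norm_num)
    (by
      have : Real.sqrt (1 / 100) = 1 / 10 := by
        rw [show (1 / 100 : ℝ) = (1 / 10) ^ 2 by norm_num]
        exact Real.sqrt_sq (by norm_num)
      rw [this]; norm_num)
    (by norm_num)
  -- L4 on the b-side
  set δ' : ℝ := min δ 1 / 32 with hδ'
  have hδ'pos : 0 < δ' := by positivity
  have hδ'le : δ' ≤ δ := by
    have : min δ 1 ≤ δ := min_le_left _ _
    have h2 : 0 < min δ 1 := by positivity
    rw [hδ']; linarith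
  obtain ⟨T₁, c, hc, hcI, hT₁I, hcT, hT₁, hrT₁, hrc, hThrT, hDomc, -⟩ :=
    splitting hI hb hbI (t₀ := t / 4) (t := t / 2) (t' := t) (by linarith) (by linarith)
      (by linarith) (κ := 3 / 4) (by norm_num) (by norm_num) hδ'pos
  have hsc : IsSelfAdjoint c := IsSelfAdjoint.of_nonneg hc
  -- the element S₁
  obtain ⟨q, hq0, hq1, hqI, hqq, hqabs, -⟩ :=
    exists_sqrt_rp hI hsa haI (s := r / 8) (t := r / 4) (by linarith) (by linarith)
  have hqsa : IsSelfAdjoint q := IsSelfAdjoint.of_nonneg hq0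
  obtain ⟨k, hk0, hk1, hksa, hkn, hkj, hkρ⟩ := exists_dip.{u, u} (q * d * T₁) hδ
  set S₁ : E := q * k with hS₁
  have hS₁star : star S₁ = k * q := by rw [hS₁, star_mul, hksa.star_eq, hqsa.star_eq]
  have hα1 : rp (r / 16) (r / 8) a * q = q := hqabs _ (by linarith)
  have hα2 : rp (r / 32) (r / 16) a * q = q := by
    conv_lhs => rw [← hα1, ← mul_assoc, rp_mul_rp hsa (by linarith) le_rfl (by linarith)]
    exact hα1
  have hβ1 : rp (t / 8) (t / 4) b * T₁ = T₁ := by
    conv_lhs => rw [← hrT₁, ← mul_assoc, rp_mul_rp hsb (by linarith) le_rfl (by linarith)]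
    exact hrT₁
  have key2 := key E I hI (rp (r / 32) (r / 16) a) (rp (t / 8) (t / 4) b) d
    (rp (3 * r / 4) r a) (rp r r' a) (rp (t / 2) t b) (rp t t' b) S₁ T₁
    (rp_isSelfAdjoint _ _ _) (rp_mem hI hsa haI (by linarith) (by linarith))
    (rp_isSelfAdjoint _ _ _) (rp_mem hI hsb hbI (by linarith) (by linarith)) hd
    (norm_rp_le_one _ _ _) (rp_nonneg _ _ _) (norm_rp_le_one _ _ _)
    (fun Q _ ρ h => one_le_norm_of_rp_ne ha (by linarith) (by linarith) hr' Q ρ h)
    (norm_rp_le_one _ _ _) (rp_nonneg _ _ _) (norm_rp_le_one _ _ _)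
    (fun Q _ ρ h => one_le_norm_of_rp_ne hb (by linarith) (by linarith) ht' Q ρ h)
    ?_ ?_ hβ1 ?_ (hT₁.le.trans hδ'le) ?_ ε hε
  · obtain ⟨S, T, ⟨y, rfl⟩, ⟨y', rfl⟩, h1, h2, h3⟩ := key2
    refine ⟨_, _, ?_, ?_, h1, h2, h3⟩
    · rw [← mul_assoc, rp_mul_rp hsa (by linarith) (by linarith) (by linarith)]
    · rw [← mul_assoc, rp_mul_rp hsb (by linarith) (by linarith) (by linarith)]
  · -- ‖S₁‖ ≤ 1
    calc ‖q * k‖ ≤ ‖q‖ * ‖k‖ := norm_mul_le _ _
      _ ≤ 1 * 1 := by gcongr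
      _ = 1 := one_mul 1
  · -- α S₁ = S₁
    rw [hS₁, ← mul_assoc, hα2]
  · -- ‖S₁⋆ d T₁‖ ≤ δ
    rw [hS₁star]
    have : k * q * d * T₁ = k * (q * d * T₁) := by simp only [mul_assoc]
    rw [this]; exact hkj
  · -- the pair in the quotient
    intro B _ _ _ π hπ hπS
    have hπsa : IsSelfAdjoint (π a) := hsa.map π
    have hπsb : IsSelfAdjoint (π b) := hsb.map π
    have hπa : 0 ≤ π a := map_nonneg' π ha
    have hπb : 0 ≤ π b := map_nonneg' π hb
    have hπc : 0 ≤ π c := map_nonneg' π hc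
    have hgapaux : ∀ (Q : Type u) [CStarAlgebra Q] (ρ : B →⋆ₐ[ℂ] Q), ‖ρ (π c)‖ ≤ 3 / 4 →
        ‖ρ (π b)‖ ≤ t / 2 := by
      intro Q _ ρ h
      exact hDomc Q (ρ.comp π) h
    have hgap : Dom (π c) (3 / 4) (π a) (r / 4) := by
      intro Q _ ρ h
      have hb2 := hgapaux Q ρ h
      have hT0 : ρ (π T₁) = 0 := hThrT Q (ρ.comp π) hb2
      have hj0 : (ρ.comp π) (q * d * T₁) = 0 := by
        rw [map_mul]
        change (ρ.comp π) (q * d) * ρ (π T₁) = 0
        rw [hT0, mul_zero]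
      have hk1' : ρ (π k) = 1 := hkρ Q (ρ.comp π) hj0
      have hS : ρ (π (star S₁ * S₁)) = ρ (rp (r / 8) (r / 4) (π a)) := by
        have e1 : star S₁ * S₁ = k * rp (r / 8) (r / 4) a * k := by
          rw [hS₁star, hS₁, ← hqq]; simp only [mul_assoc]
        rw [e1, map_mul, map_mul, map_mul, map_mul, hk1', one_mul, mul_one, map_rp π hsa]
      have hn : ‖ρ (rp (r / 8) (r / 4) (π a))‖ < 1 := by
        rw [← hS]
        calc ‖ρ (π (star S₁ * S₁))‖ ≤ ‖π (star S₁ * S₁)‖ := norm_hom_le ρ _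
          _ ≤ 1 / 2 := hπS
          _ < 1 := by norm_num
      exact (norm_lt_of_norm_map_rp_lt_one ρ hπa (by linarith) (by linarith) hn).le
    have hwb : Thr (π c) (3 / 4) (rp (t / 2) t (π b)) := by
      intro Q _ ρ h
      exact (map_rp_eq_zero_iff ρ hπb (by linarith) (by linarith)).mpr (hgapaux Q ρ h)
    obtain ⟨S₂, T₂, h1, h2, h3, h4, h5⟩ := step2 (hI.map π hπ) (a := π a) (b := π c) (d := π d)
      (w := rp (t / 2) t (π b)) hπa ⟨a, haI, rfl⟩ hπc ⟨c, hcI, rfl⟩
      ((norm_hom_le π d).trans hd) (rp_nonneg _ _ _) (norm_rp_le_one _ _ _)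
      (r := r / 4) (r₁ := r / 2) (r₂ := 3 * r / 4) (r₃ := r) (by linarith) (by linarith)
      (by linarith) (by linarith) hgap hwb hδ'pos
    refine ⟨S₂, T₂, ?_, ?_, ?_, ?_, ?_, h5⟩
    · -- π α S₂ = S₂
      rw [map_rp π hsa]
      have h1' : rp (r / 4 / 4) (r / 4 / 2) (π a) * S₂ = S₂ := h1
      conv_lhs => rw [← h1', ← mul_assoc, rp_mul_rp hπsa (by linarith) (by linarith) (by linarith)]
      exact h1'
    · -- π β T₂ = T₂
      rw [map_rp π hsb]
      have e1 : rp (t / 8) (t / 4) (π b) * π c = π c := by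
        rw [← map_rp π hsb, ← map_mul]
        have : rp (t / 8) (t / 4) b * c = c := by
          have : t / 8 = t / 4 / 2 := by ring
          rw [this]; exact hrc
        rw [this]
      have e2 := mul_rp_of_mul hπc e1 (s := 1 / 16) (t := 1 / 8) (by norm_num) (by norm_num)
      conv_lhs => rw [← h2, ← mul_assoc, e2]
      exact h2
    · exact (by
        rw [map_rp π hsa]
        exact h3.le.trans hδ'le)
    · exact (by
        rw [map_rp π hsb]
        exact h4.le.trans hδ'le)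
    · -- ‖(π T₁)⋆ T₂‖ ≤ δ
      have e1 : star (π T₁) * T₂ = star (rp (1 / 16) (1 / 8) (π c) * π T₁) * T₂ := by
        conv_lhs => rw [← h2]
        rw [star_mul, (rp_isSelfAdjoint _ _ _).star_eq, mul_assoc]
      have e2 : ‖rp (1 / 16) (1 / 8) (π c) * π T₁‖ ≤ 16 * δ' := by
        calc ‖rp (1 / 16) (1 / 8) (π c) * π T₁‖
            ≤ (1 / 16 : ℝ)⁻¹ * ‖π c * π T₁‖ := norm_rp_mul_le hπc (by norm_num) (by norm_num) _
          _ = 16 * ‖π (c * T₁)‖ := by rw [map_mul]; norm_num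
          _ ≤ 16 * ‖c * T₁‖ := by gcongr; exact norm_hom_le π _
          _ ≤ 16 * δ' := by gcongr
      have e3 : ‖T₂‖ ^ 2 ≤ 2 ^ 2 := by
        have : ‖T₂‖ ^ 2 = ‖star T₂ * T₂‖ := by rw [CStarRing.norm_star_mul_self, sq]
        rw [this]
        calc ‖star T₂ * T₂‖ = ‖(star T₂ * T₂ - rp (t / 2) t (π b)) + rp (t / 2) t (π b)‖ := by
              rw [sub_add_cancel]
          _ ≤ ‖star T₂ * T₂ - rp (t / 2) t (π b)‖ + ‖rp (t / 2) t (π b)‖ := norm_add_le _ _
          _ ≤ δ' + 1 := by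
              gcongr
              exact norm_rp_le_one _ _ _
          _ ≤ 2 ^ 2 := by
              have : min δ 1 ≤ 1 := min_le_right _ _
              rw [hδ']; linarith
      have e4 : ‖T₂‖ ≤ 2 := le_of_sq_le_sq e3 (by norm_num)
      rw [e1]
      calc ‖star (rp (1 / 16) (1 / 8) (π c) * π T₁) * T₂‖
          ≤ ‖star (rp (1 / 16) (1 / 8) (π c) * π T₁)‖ * ‖T₂‖ := norm_mul_le _ _
        _ = ‖rp (1 / 16) (1 / 8) (π c) * π T₁‖ * ‖T₂‖ := by rw [norm_star]
        _ ≤ (16 * δ') * 2 := by gcongr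
        _ ≤ δ := by
            have : min δ 1 ≤ δ := min_le_left _ _
            rw [hδ']; linarith

end Step1

end Crest.Agent.R110
end

-- ▼ part R110/FinalCore

/-! Row 110: iteration of Step 1 and S0145 (helper476). Complete; Step 1 enters
only as the hypothesis `Step1Prop` (verbatim the statement `step1` of the frozen interface). -/

set_option autoImplicit false

universe u

namespace Crest.Agent.R110.Fin476

/-! ### elementary facts on `ramp` -/

theorem rampc (s t : ℝ) : Continuous (ramp s t) := by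
  unfold ramp; fun_prop

theorem ramp0 (s t x : ℝ) : 0 ≤ ramp s t x := le_max_left _ _

theorem ramp1 (s t x : ℝ) : ramp s t x ≤ 1 := max_le zero_le_one (min_le_left _ _)

theorem rampz {s t x : ℝ} (hst : s < t) (hx : x ≤ s) : ramp s t x = 0 := by
  unfold ramp
  apply max_eq_left
  refine (min_le_right _ _).trans ?_
  exact div_nonpos_of_nonpos_of_nonneg (by linarith) (by linarith)

theorem rampo {s t x : ℝ} (hst : s < t) (hx : t ≤ x) : ramp s t x = 1 := by
  unfold ramp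
  rw [min_eq_left, max_eq_right zero_le_one]
  rw [le_div_iff₀ (by linarith)]; linarith

theorem ramp_mul {s t p q : ℝ} (hst : s < t) (htp : t ≤ p) (hpq : p < q) (x : ℝ) :
    ramp s t x * ramp p q x = ramp p q x := by
  rcases le_total x p with h | h
  · rw [rampz hpq h, mul_zero]
  · rw [rampo hst (htp.trans h), one_mul]

section iter

variable {E : Type u} [CStarAlgebra E]

theorem cfc_ramp_mul {s t p q : ℝ} (hst : s < t) (htp : t ≤ p) (hpq : p < q) (a : E) :
    cfc (ramp s t) a * cfc (ramp p q) a = cfc (ramp p q) a := by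
  rw [← cfc_mul (ramp s t) (ramp p q) a (rampc _ _).continuousOn (rampc _ _).continuousOn]
  exact cfc_congr fun x _ => ramp_mul hst htp hpq x

theorem norm_cfc_ramp_le (s t : ℝ) (a : E) : ‖cfc (ramp s t) a‖ ≤ 1 := by
  refine norm_cfc_le zero_le_one fun x _ => ?_
  rw [Real.norm_eq_abs, abs_of_nonneg (ramp0 _ _ _)]
  exact ramp1 _ _ _

/-- The conclusion of Step 1 (with constant `θ`) for a fixed pair `a, b`, at arbitrary levels. -/
def OneStep (θ : ℝ) (a b : E) : Prop :=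
  ∀ d : E, ‖d‖ ≤ 1 → ∀ p q s t p' q' s' t' : ℝ, 0 < p → p < q → q < s → s < t →
    0 < p' → p' < q' → q' < s' → s' < t' → ∀ ε : ℝ, 0 < ε →
    ∃ S T : E, cfc (ramp p q) a * S = S ∧ cfc (ramp p' q') b * T = T ∧
      ‖star S * S - cfc (ramp s t) a‖ ≤ ε ∧ ‖star T * T - cfc (ramp s' t') b‖ ≤ ε ∧
      ‖star S * d * T‖ ≤ θ

theorem side_comp {x U U' : E} {p q s' t' p' q' s t ε ε' : ℝ}
    (h1 : s' < t') (h2 : t' < p') (h3 : p' < q')
    (hε'1 : ε' ≤ 1) (hε'3 : 3 * ε' ≤ ε)
    (hU : cfc (ramp p q) x * U = U)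
    (hU' : cfc (ramp p' q') x * U' = U') (hUU : ‖star U * U - cfc (ramp s' t') x‖ ≤ ε')
    (hUU' : ‖star U' * U' - cfc (ramp s t) x‖ ≤ ε') :
    cfc (ramp p q) x * (U * U') = U * U' ∧
      ‖star (U * U') * (U * U') - cfc (ramp s t) x‖ ≤ ε := by
  refine ⟨by rw [← mul_assoc, hU], ?_⟩
  have h1 : cfc (ramp s' t') x * U' = U' := by
    rw [← hU', ← mul_assoc, cfc_ramp_mul (by linarith) (by linarith) (by linarith) x]
  have e : star (U * U') * (U * U') - cfc (ramp s t) x
      = star U' * (star U * U - cfc (ramp s' t') x) * U'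
        + (star U' * U' - cfc (ramp s t) x) := by
    have h2 : star U' * cfc (ramp s' t') x * U' = star U' * U' := by
      rw [mul_assoc, h1]
    rw [mul_sub, sub_mul, h2, star_mul]
    noncomm_ring
  have hε0 : 0 ≤ ε' := (norm_nonneg _).trans hUU
  have hn : ‖U'‖ * ‖U'‖ ≤ 2 := by
    rw [← CStarRing.norm_star_mul_self]
    calc ‖star U' * U'‖ = ‖(star U' * U' - cfc (ramp s t) x) + cfc (ramp s t) x‖ := by
          rw [sub_add_cancel]
      _ ≤ ‖star U' * U' - cfc (ramp s t) x‖ + ‖cfc (ramp s t) x‖ := norm_add_le _ _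
      _ ≤ ε' + 1 := add_le_add hUU' (norm_cfc_ramp_le _ _ _)
      _ ≤ 2 := by linarith
  rw [e]
  calc ‖star U' * (star U * U - cfc (ramp s' t') x) * U'
        + (star U' * U' - cfc (ramp s t) x)‖
      ≤ ‖star U' * (star U * U - cfc (ramp s' t') x) * U'‖
        + ‖star U' * U' - cfc (ramp s t) x‖ := norm_add_le _ _
    _ ≤ ‖star U'‖ * ‖star U * U - cfc (ramp s' t') x‖ * ‖U'‖ + ε' := by
        refine add_le_add ?_ hUU'
        exact (norm_mul_le _ _).trans (by gcongr; exact norm_mul_le _ _)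
    _ = (‖U'‖ * ‖U'‖) * ‖star U * U - cfc (ramp s' t') x‖ + ε' := by
        rw [norm_star]; ring
    _ ≤ 2 * ε' + ε' := by gcongr
    _ ≤ ε := by linarith

theorem OneStep.comp {θ θ' : ℝ} (h0 : 0 < θ) {a b : E} (h : OneStep θ a b)
    (h' : OneStep θ' a b) : OneStep (θ * θ') a b := by
  intro d hd p q s t p' q' s' t' hp hpq hqs hst hp' hpq' hqs' hst' ε hε
  obtain ⟨ε', hε'⟩ : ∃ x, x = min (ε / 3) 1 := ⟨_, rfl⟩
  have hε'0 : 0 < ε' := by rw [hε']; exact lt_min (by positivity) one_pos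
  have hε'1 : ε' ≤ 1 := by rw [hε']; exact min_le_right _ _
  have hε'3 : 3 * ε' ≤ ε := by
    have : ε' ≤ ε / 3 := by rw [hε']; exact min_le_left _ _
    linarith
  obtain ⟨S, T, hS, hT, hSS, hTT, hd1⟩ := h d hd p q (q + (s - q) / 5) (q + 2 * (s - q) / 5)
    p' q' (q' + (s' - q') / 5) (q' + 2 * (s' - q') / 5) hp hpq (by linarith) (by linarith)
    hp' hpq' (by linarith) (by linarith) ε' hε'0
  set d' : E := (θ⁻¹ : ℝ) • (star S * d * T) with hd'
  have hd'n : ‖d'‖ ≤ 1 := by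
    rw [hd', norm_smul, Real.norm_eq_abs, abs_of_pos (inv_pos.mpr h0)]
    calc θ⁻¹ * ‖star S * d * T‖ ≤ θ⁻¹ * θ := by gcongr
      _ = 1 := inv_mul_cancel₀ h0.ne'
  obtain ⟨S', T', hS', hT', hSS', hTT', hd2⟩ := h' d' hd'n (q + 3 * (s - q) / 5)
    (q + 4 * (s - q) / 5) s t (q' + 3 * (s' - q') / 5) (q' + 4 * (s' - q') / 5) s' t'
    (by linarith) (by linarith) (by linarith) hst (by linarith) (by linarith) (by linarith) hst'
    ε' hε'0
  obtain ⟨k1, k2⟩ := side_comp (by linarith) (by linarith) (by linarith) hε'1 hε'3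
    hS hS' hSS hSS'
  obtain ⟨k3, k4⟩ := side_comp (by linarith) (by linarith) (by linarith) hε'1 hε'3
    hT hT' hTT hTT'
  refine ⟨S * S', T * T', k1, k3, k2, k4, ?_⟩
  have e : star (S * S') * d * (T * T') = (θ : ℝ) • (star S' * d' * T') := by
    rw [hd', mul_smul_comm, smul_mul_assoc, smul_smul, mul_inv_cancel₀ h0.ne', one_smul, star_mul]
    noncomm_ring
  rw [e, norm_smul, Real.norm_eq_abs, abs_of_pos h0]
  gcongr

theorem OneStep.pow {θ : ℝ} (h0 : 0 < θ) {a b : E} (h : OneStep θ a b) (n : ℕ) :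
    OneStep (θ ^ (n + 1)) a b := by
  induction n with
  | zero => simpa using h
  | succ n ih => rw [pow_succ]; exact OneStep.comp (by positivity) ih h

/-- Arbitrarily small pairing. -/
theorem OneStep.arb {θ : ℝ} (h0 : 0 < θ) (h1 : θ < 1) {a b : E} (h : OneStep θ a b) {η : ℝ}
    (hη : 0 < η) : OneStep η a b := by
  obtain ⟨n, hn⟩ := exists_pow_lt_of_lt_one hη h1
  intro d hd p q s t p' q' s' t' hp hpq hqs hst hp' hpq' hqs' hst' ε hε
  obtain ⟨S, T, a1, a2, a3, a4, a5⟩ := h.pow h0 n d hd p q s t p' q' s' t' hp hpq hqs hst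
    hp' hpq' hqs' hst' ε hε
  refine ⟨S, T, a1, a2, a3, a4, a5.trans ?_⟩
  refine le_trans ?_ hn.le
  exact pow_le_pow_of_le_one h0.le h1.le (Nat.le_succ n)

end iter

/-! ### from Step 1 to `OneStep` -/

section ofStep1

variable {E : Type u} [CStarAlgebra E]

/-- one-sided change of levels: `a₁ = f_{q,m}(a)`, `m = (q+s)/2`. -/
theorem side_level {a S : E} (ha : IsSelfAdjoint a) {p q s t ε : ℝ} (hpq : p < q) (hqs : q < s)
    (hst : s < t)
    (hS : cfc (ramp (1 / 128) (1 / 64)) (cfc (ramp q ((q + s) / 2)) a) * S = S)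
    (hSS : ‖star S * S - cfc (ramp (1 / 2) 1) (cfc (ramp q ((q + s) / 2)) a)‖ ≤ ε) :
    cfc (ramp p q) a * (S * cfc (fun x => Real.sqrt (ramp s t x)) a)
        = S * cfc (fun x => Real.sqrt (ramp s t x)) a ∧
      ‖star (S * cfc (fun x => Real.sqrt (ramp s t x)) a) *
        (S * cfc (fun x => Real.sqrt (ramp s t x)) a) - cfc (ramp s t) a‖ ≤ ε ∧
      ‖cfc (fun x => Real.sqrt (ramp s t x)) a‖ ≤ 1 := by
  have hsc : Continuous (fun x => Real.sqrt (ramp s t x)) := (rampc s t).sqrt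
  set g : E := cfc (fun x => Real.sqrt (ramp s t x)) a with hg
  have hgsa : IsSelfAdjoint g := cfc_predicate _ _
  have hgn : ‖g‖ ≤ 1 := by
    refine norm_cfc_le zero_le_one fun x _ => ?_
    rw [Real.norm_eq_abs, abs_of_nonneg (Real.sqrt_nonneg _)]
    rw [Real.sqrt_le_one]
    exact ramp1 _ _ _
  have hcomp : ∀ u v : ℝ, cfc (ramp u v) (cfc (ramp q ((q + s) / 2)) a)
      = cfc (fun x => ramp u v (ramp q ((q + s) / 2) x)) a := by
    intro u v
    rw [← cfc_comp' (ramp u v) (ramp q ((q + s) / 2)) a (rampc _ _).continuousOn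
      (rampc _ _).continuousOn]
  have hφ : ∀ u v : ℝ, Continuous (fun x => ramp u v (ramp q ((q + s) / 2) x)) :=
    fun u v => (rampc u v).comp (rampc _ _)
  have hgg : g * cfc (ramp (1 / 2) 1) (cfc (ramp q ((q + s) / 2)) a) * g = cfc (ramp s t) a := by
    rw [hcomp, hg, ← cfc_mul (fun x => Real.sqrt (ramp s t x))
      (fun x => ramp (1 / 2) 1 (ramp q ((q + s) / 2) x)) a hsc.continuousOn (hφ _ _).continuousOn,
      ← cfc_mul (fun x => Real.sqrt (ramp s t x) * ramp (1 / 2) 1 (ramp q ((q + s) / 2) x))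
        (fun x => Real.sqrt (ramp s t x)) a (hsc.mul (hφ _ _)).continuousOn hsc.continuousOn]
    refine cfc_congr fun x _ => ?_
    have e0 : Real.sqrt (ramp s t x) * Real.sqrt (ramp s t x) = ramp s t x :=
      Real.mul_self_sqrt (ramp0 _ _ _)
    rcases le_total x s with h | h
    · rw [rampz hst h]; simp
    · rw [rampo (show q < (q + s) / 2 by linarith) (show (q + s) / 2 ≤ x by linarith),
        rampo (by norm_num) le_rfl, mul_one, e0]
  have hpS : cfc (ramp p q) a * S = S := by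
    have h1 : cfc (ramp p q) a * cfc (ramp (1 / 128) (1 / 64)) (cfc (ramp q ((q + s) / 2)) a)
        = cfc (ramp (1 / 128) (1 / 64)) (cfc (ramp q ((q + s) / 2)) a) := by
      rw [hcomp, ← cfc_mul (ramp p q)
        (fun x => ramp (1 / 128) (1 / 64) (ramp q ((q + s) / 2) x)) a (rampc _ _).continuousOn
        (hφ _ _).continuousOn]
      refine cfc_congr fun x _ => ?_
      rcases le_total x q with h | h
      · rw [rampz (show q < (q + s) / 2 by linarith) h, rampz (x := 0) (by norm_num) (by norm_num),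
          mul_zero]
      · rw [rampo hpq h, one_mul]
    calc cfc (ramp p q) a * S
        = cfc (ramp p q) a * (cfc (ramp (1 / 128) (1 / 64)) (cfc (ramp q ((q + s) / 2)) a) * S) := by
          rw [hS]
      _ = S := by rw [← mul_assoc, h1, hS]
  refine ⟨by rw [← mul_assoc, hpS], ?_, hgn⟩
  have e : star (S * g) * (S * g) - cfc (ramp s t) a
      = g * (star S * S - cfc (ramp (1 / 2) 1) (cfc (ramp q ((q + s) / 2)) a)) * g := by
    rw [mul_sub, sub_mul, hgg, star_mul, hgsa.star_eq]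
    noncomm_ring
  have hε0 : 0 ≤ ε := (norm_nonneg _).trans hSS
  rw [e]
  calc ‖g * (star S * S - cfc (ramp (1 / 2) 1) (cfc (ramp q ((q + s) / 2)) a)) * g‖
      ≤ ‖g‖ * ‖star S * S - cfc (ramp (1 / 2) 1) (cfc (ramp q ((q + s) / 2)) a)‖ * ‖g‖ :=
        (norm_mul_le _ _).trans (by gcongr; exact norm_mul_le _ _)
    _ ≤ 1 * ε * 1 := by gcongr
    _ = ε := by ring

/-- the frozen statement `step1`. -/
def Step1Prop : Prop :=
  ∀ (E : Type u) [CStarAlgebra E] [PartialOrder E] [StarOrderedRing E] (I : Set E),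
    PIIdeal I → ∀ (a b d : E), 0 ≤ a → a ∈ I → 0 ≤ b → b ∈ I → ‖d‖ ≤ 1 →
    ∀ (r r' t t' : ℝ), 0 < r → r < r' → 0 < t → t < t' → ∀ ε : ℝ, 0 < ε →
    ∃ S T : E, rp (r / 64) (r / 32) a * S = S ∧ rp (t / 64) (t / 32) b * T = T ∧
      ‖star S * S - rp r r' a‖ < ε ∧ ‖star T * T - rp t t' b‖ < ε ∧
      ‖star S * d * T‖ ≤ 999 / 1000

theorem ramp_mem {I : Set E} (hI : PIIdeal I) {a : E} (ha : IsSelfAdjoint a) (haI : a ∈ I)
    {s t : ℝ} (hs : 0 < s) (h : s < t) : cfc (ramp s t) a ∈ I := by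
  have hpos : ∀ x : ℝ, max x s ≠ 0 := fun x => (lt_of_lt_of_le hs (le_max_right _ _)).ne'
  have hg : Continuous (fun x => ramp s t x / max x s) :=
    (rampc s t).div (by fun_prop) hpos
  have e : cfc (ramp s t) a = a * cfc (fun x => ramp s t x / max x s) a := by
    conv_rhs => rw [← cfc_id' ℝ a]
    have e1 : cfc (fun x => ramp s t x / max x s) (cfc (fun x : ℝ => x) a)
        = cfc (fun x => ramp s t x / max x s) a := by rw [cfc_id' ℝ a]
    rw [e1, ← cfc_mul (fun x : ℝ => x) (fun x => ramp s t x / max x s) a (by fun_prop)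
      hg.continuousOn]
    refine cfc_congr fun x _ => ?_
    rcases le_total x s with hx | hx
    · rw [rampz h hx]; simp
    · rw [max_eq_left hx]
      have : x ≠ 0 := (hs.trans_le hx).ne'
      field_simp
  rw [e]
  exact hI.mul_right _ haI

theorem oneStep_of_step1 (H : Step1Prop.{u}) [PartialOrder E] [StarOrderedRing E] {I : Set E}
    (hI : PIIdeal I)
    {a b : E} (ha : 0 ≤ a) (haI : a ∈ I) (hb : 0 ≤ b) (hbI : b ∈ I) :
    OneStep (999 / 1000) a b := by
  intro d hd p q s t p' q' s' t' hp hpq hqs hst hp' hpq' hqs' hst' ε hε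
  have hasa : IsSelfAdjoint a := IsSelfAdjoint.of_nonneg ha
  have hbsa : IsSelfAdjoint b := IsSelfAdjoint.of_nonneg hb
  have ha1 : 0 ≤ cfc (ramp q ((q + s) / 2)) a := cfc_nonneg fun x _ => ramp0 _ _ _
  have hb1 : 0 ≤ cfc (ramp q' ((q' + s') / 2)) b := cfc_nonneg fun x _ => ramp0 _ _ _
  have hma : cfc (ramp q ((q + s) / 2)) a ∈ I :=
    ramp_mem hI hasa haI (show 0 < q by linarith) (by linarith)
  have hmb : cfc (ramp q' ((q' + s') / 2)) b ∈ I :=
    ramp_mem hI hbsa hbI (show 0 < q' by linarith) (by linarith)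
  obtain ⟨S, T, hS, hT, hSS, hTT, hST⟩ := H E I hI _ _ d ha1 hma hb1 hmb hd (1 / 2) 1 (1 / 2) 1
    (by norm_num) (by norm_num) (by norm_num) (by norm_num) ε hε
  unfold rp at hS hT hSS hTT
  have e1 : (1 / 2 / 64 : ℝ) = 1 / 128 := by norm_num
  have e2 : (1 / 2 / 32 : ℝ) = 1 / 64 := by norm_num
  rw [e1, e2] at hS hT
  obtain ⟨x1, x2, x3⟩ := side_level hasa hpq hqs hst hS hSS.le
  obtain ⟨y1, y2, y3⟩ := side_level hbsa hpq' hqs' hst' hT hTT.le
  refine ⟨_, _, x1, y1, x2, y2, ?_⟩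
  set g := cfc (fun x => Real.sqrt (ramp s t x)) a
  set g' := cfc (fun x => Real.sqrt (ramp s' t' x)) b
  have e : star (S * g) * d * (T * g') = star g * (star S * d * T) * g' := by
    rw [star_mul]; noncomm_ring
  rw [e]
  calc ‖star g * (star S * d * T) * g'‖ ≤ ‖star g‖ * ‖star S * d * T‖ * ‖g'‖ :=
        (norm_mul_le _ _).trans (by gcongr; exact norm_mul_le _ _)
    _ ≤ 1 * (999 / 1000) * 1 := by
        rw [norm_star]; gcongr
    _ = 999 / 1000 := by ring

end ofStep1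
section bridge

variable {E : Type u} [CStarAlgebra E] [PartialOrder E] [StarOrderedRing E]

/-- inverse square root above level `p`. -/
noncomputable def qf (p x : ℝ) : ℝ := (Real.sqrt (max x p))⁻¹

theorem qf_cont {p : ℝ} (hp : 0 < p) : Continuous (qf p) := by
  unfold qf
  refine Continuous.inv₀ (by fun_prop) fun x => ?_
  have : 0 < max x p := lt_of_lt_of_le hp (le_max_right _ _)
  exact (Real.sqrt_pos.mpr this).ne'

theorem qf_mul {p q x : ℝ} (hp : 0 < p) (hpq : p < q) :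
    qf p x * x * qf p x * ramp p q x = ramp p q x := by
  rcases le_total x p with h | h
  · rw [rampz hpq h, mul_zero]
  · unfold qf
    rw [max_eq_left h]
    have hx : 0 < x := hp.trans_le h
    have : (Real.sqrt x)⁻¹ * x * (Real.sqrt x)⁻¹ = 1 := by
      have h1 : Real.sqrt x * Real.sqrt x = x := Real.mul_self_sqrt hx.le
      have h2 : Real.sqrt x ≠ 0 := (Real.sqrt_pos.mpr hx).ne'
      calc (Real.sqrt x)⁻¹ * x * (Real.sqrt x)⁻¹
          = (Real.sqrt x)⁻¹ * (Real.sqrt x * Real.sqrt x) * (Real.sqrt x)⁻¹ := by rw [h1]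
        _ = 1 := by field_simp
    rw [this, one_mul]

/-- One side of the diagonalisation. -/
theorem side_estimate {a S : E} (ha : 0 ≤ a) {p q s t ε : ℝ} (hp : 0 < p) (hpq : p < q)
    (hs : 0 < s) (hst : s < t) (hS : cfc (ramp p q) a * S = S)
    (hSS : ‖star S * S - cfc (ramp s t) a‖ ≤ ε) :
    ‖star (cfc (qf p) a * S * cfc Real.sqrt a) * a * (cfc (qf p) a * S * cfc Real.sqrt a) - a‖
      ≤ ‖a‖ * ε + t := by
  have hsa : IsSelfAdjoint a := IsSelfAdjoint.of_nonneg ha
  have hspec : ∀ x ∈ spectrum ℝ a, 0 ≤ x := fun x hx => spectrum_nonneg_of_nonneg ha hx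
  set r : E := cfc Real.sqrt a with hr
  set Qa : E := cfc (qf p) a with hQ
  have hrsa : IsSelfAdjoint r := cfc_predicate _ _
  have hQsa : IsSelfAdjoint Qa := cfc_predicate _ _
  have hrr : r * r = a := by
    rw [hr, ← cfc_mul Real.sqrt Real.sqrt a Real.continuous_sqrt.continuousOn
      Real.continuous_sqrt.continuousOn]
    conv_rhs => rw [← cfc_id' ℝ a]
    exact cfc_congr fun x hx => Real.mul_self_sqrt (hspec x hx)
  have hQaQ : Qa * a * Qa * cfc (ramp p q) a = cfc (ramp p q) a := by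
    have hq : Continuous (qf p) := qf_cont hp
    conv_lhs => rw [hQ, ← cfc_id' ℝ a]
    have e1 : cfc (qf p) (cfc (fun x : ℝ => x) a) = cfc (qf p) a := by rw [cfc_id' ℝ a]
    have e2 : cfc (ramp p q) (cfc (fun x : ℝ => x) a) = cfc (ramp p q) a := by rw [cfc_id' ℝ a]
    rw [e1, e2, ← cfc_mul (qf p) (fun x : ℝ => x) a hq.continuousOn (by fun_prop),
      ← cfc_mul (fun x => qf p x * x) (qf p) a (by fun_prop) hq.continuousOn,
      ← cfc_mul (fun x => qf p x * x * qf p x) (ramp p q) a (by fun_prop)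
        (rampc _ _).continuousOn]
    exact cfc_congr fun x _ => qf_mul hp hpq
  have h1 : Qa * a * Qa * S = S := by
    calc Qa * a * Qa * S = Qa * a * Qa * (cfc (ramp p q) a * S) := by rw [hS]
      _ = (Qa * a * Qa * cfc (ramp p q) a) * S := by noncomm_ring
      _ = S := by rw [hQaQ, hS]
  have h2 : star (Qa * S * r) * a * (Qa * S * r) = r * (star S * S) * r := by
    rw [star_mul, star_mul, hrsa.star_eq, hQsa.star_eq]
    calc r * (star S * Qa) * a * (Qa * S * r) = r * (star S * (Qa * a * Qa * S)) * r := by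
          noncomm_ring
      _ = r * (star S * S) * r := by rw [h1]
  have h3 : ‖r * cfc (ramp s t) a * r - a‖ ≤ t := by
    have hrc : ContinuousOn (ramp s t) (spectrum ℝ a) := (rampc _ _).continuousOn
    have hsc : ContinuousOn Real.sqrt (spectrum ℝ a) := Real.continuous_sqrt.continuousOn
    have hm : r * cfc (ramp s t) a * r
        = cfc (fun x => Real.sqrt x * ramp s t x * Real.sqrt x) a := by
      rw [hr, ← cfc_mul Real.sqrt (ramp s t) a hsc hrc,
        ← cfc_mul (fun x => Real.sqrt x * ramp s t x) Real.sqrt a (hsc.mul hrc) hsc]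
    have ha' : r * cfc (ramp s t) a * r - a
        = cfc (fun x => Real.sqrt x * ramp s t x * Real.sqrt x - x) a := by
      rw [hm, cfc_sub (fun x => Real.sqrt x * ramp s t x * Real.sqrt x) (fun x => x) a
        ((hsc.mul hrc).mul hsc) (by fun_prop), cfc_id' ℝ a]
    rw [ha']
    refine norm_cfc_le (by linarith) fun x hx => ?_
    have hx0 := hspec x hx
    have e : Real.sqrt x * ramp s t x * Real.sqrt x - x = x * ramp s t x - x := by
      have : Real.sqrt x * ramp s t x * Real.sqrt x = (Real.sqrt x * Real.sqrt x) * ramp s t x := by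
        ring
      rw [this, Real.mul_self_sqrt hx0]
    rw [e, Real.norm_eq_abs]
    rcases le_total t x with h | h
    · rw [rampo hst h, mul_one, sub_self, abs_zero]; linarith
    · have h0 := ramp0 s t x
      have h1 := ramp1 s t x
      rw [abs_le]
      constructor <;> nlinarith
  have h4 : ‖r‖ * ‖r‖ = ‖a‖ := by
    rw [← CStarRing.norm_star_mul_self, hrsa.star_eq, hrr]
  rw [h2]
  have e : r * (star S * S) * r - a
      = r * (star S * S - cfc (ramp s t) a) * r + (r * cfc (ramp s t) a * r - a) := by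
    noncomm_ring
  rw [e]
  calc ‖r * (star S * S - cfc (ramp s t) a) * r + (r * cfc (ramp s t) a * r - a)‖
      ≤ ‖r * (star S * S - cfc (ramp s t) a) * r‖ + ‖r * cfc (ramp s t) a * r - a‖ :=
        norm_add_le _ _
    _ ≤ ‖r‖ * ‖star S * S - cfc (ramp s t) a‖ * ‖r‖ + t := by
        refine add_le_add ?_ h3
        exact (norm_mul_le _ _).trans (by gcongr; exact norm_mul_le _ _)
    _ = (‖r‖ * ‖r‖) * ‖star S * S - cfc (ramp s t) a‖ + t := by ring
    _ ≤ ‖a‖ * ε + t := by rw [h4]; gcongr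

/-- Simultaneous approximate diagonalisation from the main theorem. -/
theorem diag_of_oneStep {I : Set E} (hI : PIIdeal I) {a b : E} (ha : 0 ≤ a) (haI : a ∈ I)
    (hb : 0 ≤ b) (hbI : b ∈ I)
    (h : ∀ η : ℝ, 0 < η → OneStep η a b) (c : E) {ε : ℝ} (hε : 0 < ε) :
    ∃ s t : E, s ∈ I ∧ t ∈ I ∧ ‖star s * a * s - a‖ < ε ∧ ‖star t * b * t - b‖ < ε ∧
      ‖star s * c * t‖ < ε := by
  obtain ⟨t, ht⟩ : ∃ x : ℝ, x = ε / 3 := ⟨_, rfl⟩
  have ht0 : 0 < t := by rw [ht]; positivity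
  obtain ⟨K, hK⟩ : ∃ x : ℝ, x = ‖cfc (qf (t / 4)) a * c * cfc (qf (t / 4)) b‖ + 1 := ⟨_, rfl⟩
  have hK0 : 0 < K := by rw [hK]; positivity
  obtain ⟨η, hη⟩ : ∃ x : ℝ, x = ε / (2 * K * (‖cfc Real.sqrt a‖ + 1) * (‖cfc Real.sqrt b‖ + 1)) :=
    ⟨_, rfl⟩
  have hη0 : 0 < η := by rw [hη]; positivity
  obtain ⟨δ, hδ⟩ : ∃ x : ℝ, x = ε / (3 * (‖a‖ + ‖b‖ + 1)) := ⟨_, rfl⟩
  have hδ0 : 0 < δ := by rw [hδ]; positivity
  obtain ⟨S, T, hS, hT, hSS, hTT, hdd⟩ := h η hη0
    ((K⁻¹ : ℝ) • (cfc (qf (t / 4)) a * c * cfc (qf (t / 4)) b)) (by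
      rw [norm_smul, Real.norm_eq_abs, abs_of_pos (inv_pos.mpr hK0)]
      calc K⁻¹ * ‖cfc (qf (t / 4)) a * c * cfc (qf (t / 4)) b‖ ≤ K⁻¹ * K := by
            gcongr; rw [hK]; linarith
        _ = 1 := inv_mul_cancel₀ hK0.ne')
    (t / 4) (t / 3) (t / 2) t (t / 4) (t / 3) (t / 2) t (by linarith) (by linarith)
    (by linarith) (by linarith) (by linarith) (by linarith) (by linarith) (by linarith) δ hδ0
  have hbd : ∀ x : E, ‖x‖ ≤ ‖a‖ + ‖b‖ → ‖x‖ * δ + t < ε := by
    intro x hx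
    have h1 : ‖x‖ * δ ≤ ε / 3 := by
      rw [hδ]
      have h2 : ‖x‖ ≤ ‖a‖ + ‖b‖ + 1 := by linarith
      calc ‖x‖ * (ε / (3 * (‖a‖ + ‖b‖ + 1)))
          ≤ (‖a‖ + ‖b‖ + 1) * (ε / (3 * (‖a‖ + ‖b‖ + 1))) := by gcongr
        _ = ε / 3 := by field_simp
    linarith
  have hmem : ∀ {x U : E} (_ : 0 ≤ x) (_ : x ∈ I) (_ : cfc (ramp (t / 4) (t / 3)) x * U = U),
      cfc (qf (t / 4)) x * U * cfc Real.sqrt x ∈ I := by
    intro x U hx hxI hU
    have h1 : cfc (ramp (t / 4) (t / 3)) x ∈ I :=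
      ramp_mem hI (IsSelfAdjoint.of_nonneg hx) hxI (by linarith) (by linarith)
    have h2 : U ∈ I := by rw [← hU]; exact hI.mul_right _ h1
    exact hI.mul_right _ (hI.mul_left _ h2)
  refine ⟨cfc (qf (t / 4)) a * S * cfc Real.sqrt a, cfc (qf (t / 4)) b * T * cfc Real.sqrt b,
    hmem ha haI hS, hmem hb hbI hT, ?_, ?_, ?_⟩
  · exact lt_of_le_of_lt (side_estimate ha (by linarith) (by linarith) (by linarith)
      (by linarith) hS hSS) (hbd a (by linarith [norm_nonneg b]))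
  · exact lt_of_le_of_lt (side_estimate hb (by linarith) (by linarith) (by linarith)
      (by linarith) hT hTT) (hbd b (by linarith [norm_nonneg a]))
  · set r := cfc Real.sqrt a with hr
    set r' := cfc Real.sqrt b with hr'
    have hrsa : IsSelfAdjoint r := cfc_predicate _ _
    have hQsa : IsSelfAdjoint (cfc (qf (t / 4)) a) := cfc_predicate _ _
    have e : star (cfc (qf (t / 4)) a * S * r) * c * (cfc (qf (t / 4)) b * T * r')
        = K • (r * (star S * ((K⁻¹ : ℝ) • (cfc (qf (t / 4)) a * c * cfc (qf (t / 4)) b)) * T)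
          * r') := by
      rw [star_mul, star_mul, hrsa.star_eq, hQsa.star_eq]
      simp only [mul_smul_comm, smul_mul_assoc, smul_smul, mul_inv_cancel₀ hK0.ne', one_smul]
      noncomm_ring
    rw [e, norm_smul, Real.norm_eq_abs, abs_of_pos hK0]
    calc K * ‖r * (star S * ((K⁻¹ : ℝ) • (cfc (qf (t / 4)) a * c * cfc (qf (t / 4)) b)) * T)
          * r'‖
        ≤ K * (‖r‖ * ‖star S * ((K⁻¹ : ℝ) • (cfc (qf (t / 4)) a * c * cfc (qf (t / 4)) b)) * T‖
          * ‖r'‖) := by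
          gcongr
          exact (norm_mul_le _ _).trans (by gcongr; exact norm_mul_le _ _)
      _ ≤ K * ((‖r‖ + 1) * η * (‖r'‖ + 1)) := by
          gcongr
          · linarith
          · linarith
      _ = ε / 2 := by rw [hη]; field_simp
      _ < ε := by linarith

theorem final_unital_of (H : Step1Prop.{u}) {I : Set E} (hI : PIIdeal I) {a b c : E} (ha : 0 ≤ a) (haI : a ∈ I)
    (hb : 0 ≤ b) (hbI : b ∈ I) {ε : ℝ} (hε : 0 < ε) :
    ∃ s t : E, s ∈ I ∧ t ∈ I ∧ ‖star s * a * s - a‖ < ε ∧ ‖star t * b * t - b‖ < ε ∧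
      ‖star s * c * t‖ < ε :=
  diag_of_oneStep hI ha haI hb hbI
    (fun _ hη => (oneStep_of_step1 H hI ha haI hb hbI).arb (by norm_num) (by norm_num) hη) c hε

end bridge

/-- the ideal `C` of `Unitization ℂ C`. -/
theorem piIdeal_range (C : Type u) [NonUnitalCStarAlgebra C]
    (hC : ∀ x : C, Crest.OpAlg.IsProperlyInfinite (star x * x)) :
    PIIdeal (Set.range (fun x : C => (x : Unitization ℂ C))) := by
  have hl : ∀ (x : Unitization ℂ C) (w : C), ∃ v : C, (v : Unitization ℂ C) = x * w := by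
    intro x w
    induction x using Unitization.ind with
    | inl_add_inr k m =>
      refine ⟨k • w + m * w, ?_⟩
      rw [add_mul, ← Unitization.inr_mul, Unitization.inr_add, Unitization.inl_mul_inr]
  have hr : ∀ (x : Unitization ℂ C) (w : C), ∃ v : C, (v : Unitization ℂ C) = w * x := by
    intro x w
    induction x using Unitization.ind with
    | inl_add_inr k m =>
      refine ⟨k • w + w * m, ?_⟩
      rw [mul_add, ← Unitization.inr_mul, Unitization.inr_add, Unitization.inr_mul_inl]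
  refine ⟨⟨0, Unitization.inr_zero ℂ⟩, ?_, ?_, ?_, ?_, ?_⟩
  · rintro _ _ ⟨x, rfl⟩ ⟨y, rfl⟩
    exact ⟨x + y, Unitization.inr_add ℂ x y⟩
  · rintro w _ ⟨x, rfl⟩
    exact hl w x
  · rintro w _ ⟨x, rfl⟩
    exact hr w x
  · rintro _ ⟨x, rfl⟩
    exact ⟨star x, Unitization.inr_star x⟩
  · rintro _ ⟨x, rfl⟩ ε hε
    obtain ⟨r, s, h1, h2, h3⟩ := hC x ε hε
    refine ⟨(r : Unitization ℂ C), (s : Unitization ℂ C), ?_, ?_, ?_⟩
    · rw [← Unitization.norm_inr (𝕜 := ℂ)] at h1
      simpa only [Unitization.inr_sub, Unitization.inr_mul, Unitization.inr_star] using h1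
    · rw [← Unitization.norm_inr (𝕜 := ℂ)] at h2
      simpa only [Unitization.inr_sub, Unitization.inr_mul, Unitization.inr_star] using h2
    · rw [← Unitization.norm_inr (𝕜 := ℂ)] at h3
      simpa only [Unitization.inr_sub, Unitization.inr_mul, Unitization.inr_star] using h3

/-- S0145. -/
theorem final_of (H : Step1Prop.{u}) (C : Type u) [NonUnitalCStarAlgebra C]
    (hC : ∀ x : C, Crest.OpAlg.IsProperlyInfinite (star x * x))
    (a b c : C) (ha : ∃ x : C, a = star x * x) (hb : ∃ y : C, b = star y * y)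
    (ε : ℝ) (hε : 0 < ε) :
    ∃ s t : C, ‖star s * a * s - a‖ < ε ∧ ‖star t * b * t - b‖ < ε ∧ ‖star s * c * t‖ < ε := by
  let _ : PartialOrder (Unitization ℂ C) := CStarAlgebra.spectralOrder _
  have _ : StarOrderedRing (Unitization ℂ C) := CStarAlgebra.spectralOrderedRing _
  have key : ∀ z : C, (∃ x : C, z = star x * x) → 0 ≤ (z : Unitization ℂ C) := by
    rintro z ⟨x, rfl⟩
    rw [Unitization.inr_mul, Unitization.inr_star]
    exact star_mul_self_nonneg _
  obtain ⟨_, _, ⟨s, rfl⟩, ⟨t, rfl⟩, h1, h2, h3⟩ := final_unital_of H (piIdeal_range C hC)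
    (c := (c : Unitization ℂ C)) (key a ha) ⟨a, rfl⟩ (key b hb) ⟨b, rfl⟩ hε
  refine ⟨s, t, ?_, ?_, ?_⟩
  · rw [← Unitization.norm_inr (𝕜 := ℂ)]
    simpa only [Unitization.inr_sub, Unitization.inr_mul, Unitization.inr_star] using h1
  · rw [← Unitization.norm_inr (𝕜 := ℂ)]
    simpa only [Unitization.inr_sub, Unitization.inr_mul, Unitization.inr_star] using h2
  · rw [← Unitization.norm_inr (𝕜 := ℂ)]
    simpa only [Unitization.inr_sub, Unitization.inr_mul, Unitization.inr_star] using h3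

end Crest.Agent.R110.Fin476
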