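import Mathlib

/-!
# R110.QuasiCentral (helper177): local approximate units and quasi-central elements

No Hahn-Banach: averages of successively larger local units.
-/

set_option autoImplicit false

open scoped Topology

namespace Crest.Agent.R110

universe u

section LocalUnit

variable {E : Type u} [CStarAlgebra E] [PartialOrder E] [StarOrderedRing E]

/-- The basic estimate: if `0 ≤ b ≤ a`, then `r b r` is small for `r = δ/(δ+a)`. -/
theorem norm_resolvent_conj_le {a : E} (ha : 0 ≤ a) {δ : ℝ} (hδ : 0 < δ) :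
    ‖cfc (fun t : ℝ => δ / (δ + t)) a * a * cfc (fun t : ℝ => δ / (δ + t)) a‖ ≤ δ := by
  have hspec : ∀ t ∈ spectrum ℝ a, 0 ≤ t := fun t ht => spectrum_nonneg_of_nonneg ha ht
  have hcr : ContinuousOn (fun t : ℝ => δ / (δ + t)) (spectrum ℝ a) := by
    refine ContinuousOn.div continuousOn_const (by fun_prop) ?_
    intro t ht; have := hspec t ht; positivity
  have hsa : IsSelfAdjoint a := .of_nonneg ha
  have h4 : cfc (fun t : ℝ => δ / (δ + t)) a * a * cfc (fun t : ℝ => δ / (δ + t)) a
      = cfc (fun t : ℝ => (δ / (δ + t)) * t * (δ / (δ + t))) a := by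
    rw [cfc_mul (fun t : ℝ => (δ / (δ + t)) * t) (fun t : ℝ => δ / (δ + t)) a (by fun_prop) hcr,
      cfc_mul (fun t : ℝ => δ / (δ + t)) (fun t : ℝ => t) a hcr (by fun_prop), cfc_id' ℝ a]
  rw [h4]
  refine norm_cfc_le hδ.le ?_
  intro t ht
  have h0 := hspec t ht
  rw [Real.norm_eq_abs, abs_of_nonneg (by positivity)]
  have hp : 0 < δ + t := by positivity
  have e : (δ / (δ + t)) * t * (δ / (δ + t)) = δ * ((δ / (δ + t)) * (t / (δ + t))) := by
    field_simp
  rw [e]
  have b1 : δ / (δ + t) ≤ 1 := by rw [div_le_one hp]; linarith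
  have b2 : t / (δ + t) ≤ 1 := by rw [div_le_one hp]; linarith
  have b3 : 0 ≤ t / (δ + t) := by positivity
  have b4 : 0 ≤ δ / (δ + t) := by positivity
  calc δ * ((δ / (δ + t)) * (t / (δ + t))) ≤ δ * (1 * 1) := by gcongr
    _ = δ := by ring

/-- For `0 ≤ a` the element `e = a/(δ+a)` is a positive contraction of the form `a * g`, and
`(1 - e)` almost kills every `j` with `j * star j ≤ a` (from the left) resp. `star j * j ≤ a`
(from the right). -/
theorem exists_unit_of_le (a : E) (ha : 0 ≤ a) {δ : ℝ} (hδ : 0 < δ) :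
    ∃ g : E, 0 ≤ a * g ∧ a * g ≤ 1 ∧
      (∀ j : E, star j * j ≤ a → ‖j * (a * g) - j‖ ^ 2 ≤ δ) ∧
      (∀ j : E, j * star j ≤ a → ‖(a * g) * j - j‖ ^ 2 ≤ δ) := by
  have hspec : ∀ t ∈ spectrum ℝ a, 0 ≤ t := fun t ht => spectrum_nonneg_of_nonneg ha ht
  have hsa : IsSelfAdjoint a := .of_nonneg ha
  have hc1 : ContinuousOn (fun t : ℝ => 1 / (δ + t)) (spectrum ℝ a) := by
    refine ContinuousOn.div continuousOn_const (by fun_prop) ?_
    intro t ht; have := hspec t ht; positivity
  have hct : ContinuousOn (fun t : ℝ => t / (δ + t)) (spectrum ℝ a) := by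
    refine ContinuousOn.div (by fun_prop) (by fun_prop) ?_
    intro t ht; have := hspec t ht; positivity
  have hcr : ContinuousOn (fun t : ℝ => δ / (δ + t)) (spectrum ℝ a) := by
    refine ContinuousOn.div continuousOn_const (by fun_prop) ?_
    intro t ht; have := hspec t ht; positivity
  have hag : a * cfc (fun t : ℝ => 1 / (δ + t)) a = cfc (fun t : ℝ => t / (δ + t)) a := by
    have h1 : a * cfc (fun t : ℝ => 1 / (δ + t)) a = cfc (fun t : ℝ => t * (1 / (δ + t))) a := by
      rw [cfc_mul (fun t : ℝ => t) (fun t : ℝ => 1 / (δ + t)) a (by fun_prop) hc1, cfc_id' ℝ a]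
    rw [h1]
    refine cfc_congr ?_
    intro t ht; simp only []; ring
  have hr : 1 - a * cfc (fun t : ℝ => 1 / (δ + t)) a = cfc (fun t : ℝ => δ / (δ + t)) a := by
    rw [hag]
    have h2 : (1 : E) = cfc (fun _ : ℝ => (1 : ℝ)) a := by rw [cfc_const_one ℝ a]
    rw [h2, ← cfc_sub (fun _ : ℝ => (1 : ℝ)) (fun t : ℝ => t / (δ + t)) a (by fun_prop) hct]
    refine cfc_congr ?_
    intro t ht
    have h0 := hspec t ht
    have : δ + t ≠ 0 := by positivity
    field_simp
    ring
  set r : E := cfc (fun t : ℝ => δ / (δ + t)) a with hrdef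
  have hrsa : IsSelfAdjoint r := cfc_predicate _ _
  have hmain := norm_resolvent_conj_le ha hδ
  rw [← hrdef] at hmain
  refine ⟨cfc (fun t : ℝ => 1 / (δ + t)) a, ?_, ?_, ?_, ?_⟩
  · rw [hag]
    refine cfc_nonneg ?_
    intro t ht; have := hspec t ht; positivity
  · rw [hag]
    refine cfc_le_one _ _ ?_
    intro t ht
    have h0 := hspec t ht
    have : 0 < δ + t := by positivity
    rw [div_le_one this]; linarith
  · intro j hj
    have e1 : j * (a * cfc (fun t : ℝ => 1 / (δ + t)) a) - j = -(j * r) := by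
      rw [← hr]; noncomm_ring
    rw [e1, norm_neg, sq, ← CStarRing.norm_star_mul_self, star_mul, hrsa.star_eq]
    have e2 : r * star j * (j * r) = r * (star j * j) * r := by noncomm_ring
    rw [e2]
    have h5 : r * (star j * j) * r ≤ r * a * r := by
      have := star_left_conjugate_le_conjugate hj r
      rwa [hrsa.star_eq] at this
    have h6 : 0 ≤ r * (star j * j) * r := by
      have := star_left_conjugate_nonneg (star_mul_self_nonneg j) r
      rwa [hrsa.star_eq] at this
    exact (CStarAlgebra.norm_le_norm_of_nonneg_of_le h6 h5).trans hmain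
  · intro j hj
    have e1 : (a * cfc (fun t : ℝ => 1 / (δ + t)) a) * j - j = -(r * j) := by
      rw [← hr]; noncomm_ring
    rw [e1, norm_neg, sq, ← CStarRing.norm_self_mul_star, star_mul, hrsa.star_eq]
    have e2 : r * j * (star j * r) = r * (j * star j) * r := by noncomm_ring
    rw [e2]
    have h5 : r * (j * star j) * r ≤ r * a * r := by
      have := star_left_conjugate_le_conjugate hj r
      rwa [hrsa.star_eq] at this
    have h6 : 0 ≤ r * (j * star j) * r := by
      have := star_left_conjugate_nonneg (mul_star_self_nonneg j) r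
      rwa [hrsa.star_eq] at this
    exact (CStarAlgebra.norm_le_norm_of_nonneg_of_le h6 h5).trans hmain


/-- Local units for finitely many elements of a closed two-sided ideal. -/
theorem exists_unit (J : TwoSidedIdeal E) (_hJ : IsClosed (J : Set E)) (G : Finset E)
    (hG : ∀ j ∈ G, j ∈ J) {ε : ℝ} (hε : 0 < ε) :
    ∃ e ∈ J, 0 ≤ e ∧ e ≤ 1 ∧ ∀ j ∈ G, ‖e * j - j‖ ≤ ε ∧ ‖j * e - j‖ ≤ ε := by
  set a : E := ∑ j ∈ G, (star j * j + j * star j) with ha
  have hterm : ∀ j ∈ G, 0 ≤ star j * j + j * star j := fun j _ =>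
    add_nonneg (star_mul_self_nonneg j) (mul_star_self_nonneg j)
  have ha0 : 0 ≤ a := Finset.sum_nonneg hterm
  have haJ : a ∈ J := by
    rw [ha]
    refine Finset.sum_induction _ (fun x => x ∈ J) (fun _ _ => J.add_mem) J.zero_mem ?_
    intro j hj
    exact J.add_mem (J.mul_mem_left _ _ (hG j hj)) (J.mul_mem_right _ _ (hG j hj))
  have hle : ∀ j ∈ G, star j * j + j * star j ≤ a := fun j hj =>
    Finset.single_le_sum hterm hj
  obtain ⟨g, h0, h1, h2, h3⟩ := exists_unit_of_le a ha0 (δ := ε ^ 2) (by positivity)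
  refine ⟨a * g, J.mul_mem_right _ _ haJ, h0, h1, fun j hj => ⟨?_, ?_⟩⟩
  · have := h3 j ((le_add_of_nonneg_left (star_mul_self_nonneg j)).trans (hle j hj))
    have := abs_le_of_sq_le_sq this hε.le
    exact le_trans (le_abs_self _) this
  · have := h2 j ((le_add_of_nonneg_right (mul_star_self_nonneg j)).trans (hle j hj))
    have := abs_le_of_sq_le_sq this hε.le
    exact le_trans (le_abs_self _) this

end LocalUnit

section QuasiCentral

variable {E : Type u} [CStarAlgebra E] [PartialOrder E] [StarOrderedRing E]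

theorem norm_le_one_of_nonneg_of_le_one {e : E} (h0 : 0 ≤ e) (h1 : e ≤ 1) : ‖e‖ ≤ 1 :=
  (CStarAlgebra.norm_le_one_iff_of_nonneg e h0).mpr h1

private theorem exists_seq (J : TwoSidedIdeal E) (hJ : IsClosed (J : Set E)) (X G : Finset E)
    (hG : ∀ j ∈ G, j ∈ J) {d : ℝ} (hd : 0 < d) (N : ℕ) :
    ∃ e : ℕ → E, (∀ k < N, e k ∈ J ∧ 0 ≤ e k ∧ e k ≤ 1 ∧
        ∀ j ∈ G, ‖e k * j - j‖ ≤ d ∧ ‖j * e k - j‖ ≤ d) ∧
      (∀ k < N, ∀ j < k, ∀ x ∈ X,
        ‖e k * (e j * x - x * e j) - (e j * x - x * e j)‖ ≤ d ∧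
        ‖e k * (star x * (e j * x - x * e j)) - star x * (e j * x - x * e j)‖ ≤ d) := by
  classical
  induction N with
  | zero => exact ⟨fun _ => 0, fun k hk => absurd hk (Nat.not_lt_zero k),
      fun k hk => absurd hk (Nat.not_lt_zero k)⟩
  | succ N ih =>
    obtain ⟨e, h1, h2⟩ := ih
    set S : Finset E := G ∪
      ((Finset.range N ×ˢ X).image (fun p => e p.1 * p.2 - p.2 * e p.1) ∪
       (Finset.range N ×ˢ X).image (fun p => star p.2 * (e p.1 * p.2 - p.2 * e p.1))) with hS
    have hSJ : ∀ j ∈ S, j ∈ J := by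
      intro j hj
      rw [hS, Finset.mem_union, Finset.mem_union] at hj
      rcases hj with hj | hj | hj
      · exact hG j hj
      · rw [Finset.mem_image] at hj
        obtain ⟨⟨i, x⟩, hi, rfl⟩ := hj
        rw [Finset.mem_product, Finset.mem_range] at hi
        have := (h1 i hi.1).1
        exact J.sub_mem (J.mul_mem_right _ _ this) (J.mul_mem_left _ _ this)
      · rw [Finset.mem_image] at hj
        obtain ⟨⟨i, x⟩, hi, rfl⟩ := hj
        rw [Finset.mem_product, Finset.mem_range] at hi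
        have := (h1 i hi.1).1
        exact J.mul_mem_left _ _ (J.sub_mem (J.mul_mem_right _ _ this) (J.mul_mem_left _ _ this))
    obtain ⟨u, huJ, hu0, hu1, hu⟩ := exists_unit J hJ S hSJ hd
    refine ⟨fun i => if i = N then u else e i, ?_, ?_⟩
    · intro k hk
      by_cases hkN : k = N
      · simp only [hkN, if_true]
        exact ⟨huJ, hu0, hu1, fun j hj => hu j (by rw [hS]; exact Finset.mem_union_left _ hj)⟩
      · simp only [hkN, if_false]
        exact h1 k (by omega)
    · intro k hk j hj x hx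
      have hjN : j ≠ N := by omega
      by_cases hkN : k = N
      · simp only [hkN, if_true, hjN, if_false]
        have hmem : (j, x) ∈ Finset.range N ×ˢ X := by
          rw [Finset.mem_product, Finset.mem_range]; exact ⟨by omega, hx⟩
        refine ⟨(hu _ ?_).1, (hu _ ?_).1⟩
        · rw [hS]
          exact Finset.mem_union_right _ (Finset.mem_union_left _
            (Finset.mem_image.mpr ⟨(j, x), hmem, rfl⟩))
        · rw [hS]
          exact Finset.mem_union_right _ (Finset.mem_union_right _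
            (Finset.mem_image.mpr ⟨(j, x), hmem, rfl⟩))
      · simp only [hkN, if_false, hjN]
        exact h2 k (by omega) j hj x hx

/-- **Quasi-central local units**: a positive contraction in the closed ideal `J` which almost
commutes with finitely many elements of the algebra, and is almost a unit for finitely many
elements of `J`. -/
theorem exists_quasiCentral (J : TwoSidedIdeal E) (hJ : IsClosed (J : Set E)) (X G : Finset E)
    (hG : ∀ j ∈ G, j ∈ J) {ε : ℝ} (hε : 0 < ε) :
    ∃ e ∈ J, 0 ≤ e ∧ e ≤ 1 ∧ (∀ x ∈ X, ‖e * x - x * e‖ ≤ ε) ∧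
      ∀ j ∈ G, ‖e * j - j‖ ≤ ε ∧ ‖j * e - j‖ ≤ ε := by
  classical
  -- a common bound
  obtain ⟨R, hR1, hR⟩ : ∃ R : ℝ, 1 ≤ R ∧ ∀ x ∈ X, ‖x‖ ≤ R := by
    refine ⟨1 + ∑ x ∈ X, ‖x‖, ?_, ?_⟩
    · have : 0 ≤ ∑ x ∈ X, ‖x‖ := Finset.sum_nonneg fun _ _ => norm_nonneg _
      linarith
    · intro x hx
      have := Finset.single_le_sum (f := fun x => ‖x‖) (fun _ _ => norm_nonneg _) hx
      linarith
  obtain ⟨N, hN⟩ : ∃ N : ℕ, 8 * R ^ 2 / ε ^ 2 < N := exists_nat_gt _
  have hNpos : (0 : ℝ) < N := lt_of_le_of_lt (by positivity) hN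
  have hN' : 4 * R ^ 2 / N ≤ ε ^ 2 / 2 := by
    rw [div_le_iff₀ hNpos]
    rw [div_lt_iff₀ (by positivity)] at hN
    nlinarith
  set d : ℝ := min ε (ε ^ 2 / (4 * (R + 1))) with hd
  have hdpos : 0 < d := lt_min hε (by positivity)
  have hdε : d ≤ ε := min_le_left _ _
  have hd2 : (R + 1) * d ≤ ε ^ 2 / 4 := by
    have : d ≤ ε ^ 2 / (4 * (R + 1)) := min_le_right _ _
    have hp : 0 < R + 1 := by linarith
    calc (R + 1) * d ≤ (R + 1) * (ε ^ 2 / (4 * (R + 1))) := by gcongr
      _ = ε ^ 2 / 4 := by field_simp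
  obtain ⟨e, h1, h2⟩ := exists_seq J hJ X G hG hdpos N
  have hn : ∀ k < N, ‖e k‖ ≤ 1 := fun k hk =>
    norm_le_one_of_nonneg_of_le_one (h1 k hk).2.1 (h1 k hk).2.2.1
  set s : E := ∑ k ∈ Finset.range N, e k with hs
  have hNinv : (0 : ℝ) ≤ (N : ℝ)⁻¹ := by positivity
  have hNN : (N : ℝ)⁻¹ * N = 1 := inv_mul_cancel₀ hNpos.ne'
  refine ⟨((N : ℝ)⁻¹) • s, ?_, ?_, ?_, ?_, ?_⟩
  · have hsJ : s ∈ J := by
      rw [hs]
      refine Finset.sum_induction _ (fun x => x ∈ J) (fun _ _ => J.add_mem) J.zero_mem ?_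
      intro k hk
      exact (h1 k (Finset.mem_range.mp hk)).1
    have : ((N : ℝ)⁻¹) • s = (((N : ℝ)⁻¹) • (1 : E)) * s := by rw [smul_mul_assoc, one_mul]
    rw [this]
    exact J.mul_mem_left _ _ hsJ
  · exact smul_nonneg hNinv (Finset.sum_nonneg fun k hk => (h1 k (Finset.mem_range.mp hk)).2.1)
  · have hle : s ≤ (N : ℝ) • (1 : E) := by
      calc s ≤ ∑ k ∈ Finset.range N, (1 : E) :=
            Finset.sum_le_sum fun k hk => (h1 k (Finset.mem_range.mp hk)).2.2.1
        _ = (N : ℝ) • (1 : E) := by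
            rw [Finset.sum_const, Finset.card_range]
            rw [← Nat.cast_smul_eq_nsmul ℝ]
    calc ((N : ℝ)⁻¹) • s ≤ ((N : ℝ)⁻¹) • ((N : ℝ) • (1 : E)) := smul_le_smul_of_nonneg_left hle hNinv
      _ = 1 := by rw [smul_smul, hNN, one_smul]
  · intro x hx
    have hRx := hR x hx
    set c : ℕ → E := fun k => e k * x - x * e k with hc
    have hcn : ∀ k < N, ‖c k‖ ≤ 2 * R := by
      intro k hk
      have hk1 := hn k hk
      calc ‖c k‖ ≤ ‖e k * x‖ + ‖x * e k‖ := norm_sub_le _ _
        _ ≤ ‖e k‖ * ‖x‖ + ‖x‖ * ‖e k‖ := by gcongr <;> exact norm_mul_le _ _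
        _ ≤ 1 * R + R * 1 := by gcongr
        _ = 2 * R := by ring
    have horth : ∀ k < N, ∀ j < k, ‖star (c k) * c j‖ ≤ (R + 1) * d := by
      intro k hk j hj
      obtain ⟨ha, hb⟩ := h2 k hk j hj x hx
      have hesa : star (e k) = e k := (IsSelfAdjoint.of_nonneg (h1 k hk).2.1).star_eq
      have e1 : star (c k) * c j = star x * (e k * c j - c j) - (e k * (star x * c j) - star x * c j) := by
        simp only [hc, star_sub, star_mul, hesa]
        noncomm_ring
      rw [e1]
      calc ‖star x * (e k * c j - c j) - (e k * (star x * c j) - star x * c j)‖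
          ≤ ‖star x * (e k * c j - c j)‖ + ‖e k * (star x * c j) - star x * c j‖ := norm_sub_le _ _
        _ ≤ ‖star x‖ * ‖e k * c j - c j‖ + ‖e k * (star x * c j) - star x * c j‖ := by
            gcongr; exact norm_mul_le _ _
        _ ≤ R * d + d := by
            rw [norm_star]
            gcongr
        _ = (R + 1) * d := by ring
    have hpair : ∀ k < N, ∀ j < N, ‖star (c k) * c j‖ ≤ (if k = j then (2 * R) ^ 2 else 0) + (R + 1) * d := by
      intro k hk j hj
      have hRd : 0 ≤ (R + 1) * d := by positivity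
      rcases lt_trichotomy j k with h | h | h
      · rw [if_neg (by omega), zero_add]; exact horth k hk j h
      · subst h
        rw [if_pos rfl]
        have : ‖star (c j) * c j‖ ≤ (2 * R) ^ 2 := by
          rw [CStarRing.norm_star_mul_self, sq]
          have := hcn j hj
          gcongr
        linarith
      · rw [if_neg (by omega), zero_add]
        have e2 : star (c k) * c j = star (star (c j) * c k) := by rw [star_mul, star_star]
        rw [e2, norm_star]; exact horth j hj k h
    have hsum : ‖∑ k ∈ Finset.range N, c k‖ ^ 2 ≤ N * (2 * R) ^ 2 + N ^ 2 * ((R + 1) * d) := by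
      rw [sq, ← CStarRing.norm_star_mul_self, star_sum, Finset.sum_mul_sum]
      calc ‖∑ i ∈ Finset.range N, ∑ j ∈ Finset.range N, star (c i) * c j‖
          ≤ ∑ i ∈ Finset.range N, ∑ j ∈ Finset.range N, ‖star (c i) * c j‖ := by
            refine (norm_sum_le _ _).trans ?_
            exact Finset.sum_le_sum fun i _ => norm_sum_le _ _
        _ ≤ ∑ i ∈ Finset.range N, ∑ j ∈ Finset.range N,
              ((if i = j then (2 * R) ^ 2 else 0) + (R + 1) * d) := by
            refine Finset.sum_le_sum fun i hi => Finset.sum_le_sum fun j hj => ?_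
            exact hpair i (Finset.mem_range.mp hi) j (Finset.mem_range.mp hj)
        _ = N * (2 * R) ^ 2 + N ^ 2 * ((R + 1) * d) := by
            simp only [Finset.sum_add_distrib, Finset.sum_const, Finset.card_range,
              Finset.sum_ite_eq, nsmul_eq_mul]
            rw [Finset.sum_congr rfl (g := fun _ => (2 * R) ^ 2) (fun i hi => by
              rw [if_pos hi])]
            simp only [Finset.sum_const, Finset.card_range, nsmul_eq_mul]
            ring
    have e3 : (((N : ℝ)⁻¹) • s) * x - x * (((N : ℝ)⁻¹) • s)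
        = ((N : ℝ)⁻¹) • ∑ k ∈ Finset.range N, c k := by
      rw [smul_mul_assoc, mul_smul_comm, ← smul_sub, hs, Finset.sum_mul, Finset.mul_sum,
        ← Finset.sum_sub_distrib]
    rw [e3, norm_smul, Real.norm_eq_abs, abs_of_nonneg hNinv]
    refine le_of_sq_le_sq ?_ hε.le
    rw [mul_pow]
    calc ((N : ℝ)⁻¹) ^ 2 * ‖∑ k ∈ Finset.range N, c k‖ ^ 2
        ≤ ((N : ℝ)⁻¹) ^ 2 * (N * (2 * R) ^ 2 + N ^ 2 * ((R + 1) * d)) := by gcongr
      _ = 4 * R ^ 2 / N + (R + 1) * d := by field_simp; ring
      _ ≤ ε ^ 2 / 2 + ε ^ 2 / 4 := by gcongr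
      _ ≤ ε ^ 2 := by nlinarith [sq_nonneg ε]
  · intro j hj
    constructor
    · have e4 : (((N : ℝ)⁻¹) • s) * j - j = ((N : ℝ)⁻¹) • ∑ k ∈ Finset.range N, (e k * j - j) := by
        rw [Finset.sum_sub_distrib, Finset.sum_const, Finset.card_range, smul_sub,
          ← Nat.cast_smul_eq_nsmul ℝ, smul_smul, hNN, one_smul, ← Finset.sum_mul, smul_mul_assoc]
      rw [e4, norm_smul, Real.norm_eq_abs, abs_of_nonneg hNinv]
      calc (N : ℝ)⁻¹ * ‖∑ k ∈ Finset.range N, (e k * j - j)‖
          ≤ (N : ℝ)⁻¹ * ∑ k ∈ Finset.range N, ε := by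
            gcongr
            refine norm_sum_le_of_le _ ?_
            intro k hk
            exact ((h1 k (Finset.mem_range.mp hk)).2.2.2 j hj).1.trans hdε
        _ = ε := by
            rw [Finset.sum_const, Finset.card_range, nsmul_eq_mul, ← mul_assoc, hNN, one_mul]
    · have e4 : j * (((N : ℝ)⁻¹) • s) - j = ((N : ℝ)⁻¹) • ∑ k ∈ Finset.range N, (j * e k - j) := by
        rw [Finset.sum_sub_distrib, Finset.sum_const, Finset.card_range, smul_sub,
          ← Nat.cast_smul_eq_nsmul ℝ, smul_smul, hNN, one_smul, ← Finset.mul_sum, mul_smul_comm]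
      rw [e4, norm_smul, Real.norm_eq_abs, abs_of_nonneg hNinv]
      calc (N : ℝ)⁻¹ * ‖∑ k ∈ Finset.range N, (j * e k - j)‖
          ≤ (N : ℝ)⁻¹ * ∑ k ∈ Finset.range N, ε := by
            gcongr
            refine norm_sum_le_of_le _ ?_
            intro k hk
            exact ((h1 k (Finset.mem_range.mp hk)).2.2.2 j hj).2.trans hdε
        _ = ε := by
            rw [Finset.sum_const, Finset.card_range, nsmul_eq_mul, ← mul_assoc, hNN, one_mul]

end QuasiCentral

section CommCfc

open Polynomial in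
theorem comm_aeval (p : ℝ[X]) : ∃ C : ℝ, 0 ≤ C ∧
    ∀ (E : Type u) [CStarAlgebra E] (w x : E), ‖w‖ ≤ 1 →
      ‖aeval w p * x - x * aeval w p‖ ≤ C * ‖w * x - x * w‖ := by
  induction p using Polynomial.induction_on' with
  | add p q hp hq =>
    obtain ⟨C, hC, h⟩ := hp
    obtain ⟨D, hD, h'⟩ := hq
    refine ⟨C + D, by positivity, fun E _ w x hw => ?_⟩
    have e : aeval w (p + q) * x - x * aeval w (p + q)
        = (aeval w p * x - x * aeval w p) + (aeval w q * x - x * aeval w q) := by
      rw [map_add]; noncomm_ring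
    rw [e, add_mul]
    exact (norm_add_le _ _).trans (add_le_add (h E w x hw) (h' E w x hw))
  | monomial n a =>
    refine ⟨|a| * n, by positivity, fun E _ w x hw => ?_⟩
    have key : ∀ n : ℕ, ‖w ^ n * x - x * w ^ n‖ ≤ n * ‖w * x - x * w‖ := by
      intro n
      induction n with
      | zero => simp
      | succ n ih =>
        have hwn : ‖w ^ n‖ ≤ 1 := by
          rcases subsingleton_or_nontrivial E with hE | hE
          · rw [Subsingleton.elim (w ^ n) 0, norm_zero]; exact zero_le_one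
          · exact (norm_pow_le w n).trans (pow_le_one₀ (norm_nonneg _) hw)
        have e : w ^ (n + 1) * x - x * w ^ (n + 1)
            = w * (w ^ n * x - x * w ^ n) + (w * x - x * w) * w ^ n := by
          rw [pow_succ' w n]; noncomm_ring
        rw [e]
        calc ‖w * (w ^ n * x - x * w ^ n) + (w * x - x * w) * w ^ n‖
            ≤ ‖w‖ * ‖w ^ n * x - x * w ^ n‖ + ‖w * x - x * w‖ * ‖w ^ n‖ :=
              (norm_add_le _ _).trans (add_le_add (norm_mul_le _ _) (norm_mul_le _ _))
          _ ≤ 1 * (n * ‖w * x - x * w‖) + ‖w * x - x * w‖ * 1 := by gcongr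
          _ = ((n + 1 : ℕ) : ℝ) * ‖w * x - x * w‖ := by push_cast; ring
    have e : aeval w (monomial n a) * x - x * aeval w (monomial n a)
        = a • (w ^ n * x - x * w ^ n) := by
      rw [aeval_monomial, ← Algebra.smul_def, smul_mul_assoc, mul_smul_comm, smul_sub]
    rw [e, norm_smul, Real.norm_eq_abs, mul_assoc]
    gcongr
    exact key n

/-- Continuous functional calculus almost commutes with what the element almost commutes with,
uniformly over all C*-algebras. -/
theorem comm_cfc (f : ℝ → ℝ) (hf : ContinuousOn f (Set.Icc 0 1)) (R : ℝ) {ε : ℝ} (hε : 0 < ε) :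
    ∃ δ > 0, ∀ (E : Type u) [CStarAlgebra E] [PartialOrder E] [StarOrderedRing E] (w x : E),
      0 ≤ w → w ≤ 1 → ‖x‖ ≤ R → ‖w * x - x * w‖ ≤ δ → ‖cfc f w * x - x * cfc f w‖ ≤ ε := by
  set R' : ℝ := |R| + 1 with hR'
  have hR'pos : 0 < R' := by positivity
  obtain ⟨p, hp⟩ := exists_polynomial_near_of_continuousOn 0 1 f hf (ε / (4 * R')) (by positivity)
  obtain ⟨C, hC, hcomm⟩ := comm_aeval.{u} p
  refine ⟨ε / (2 * (C + 1)), by positivity, ?_⟩
  intro E _ _ _ w x hw0 hw1 hx hwx
  have hsa : IsSelfAdjoint w := .of_nonneg hw0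
  have hspec : spectrum ℝ w ⊆ Set.Icc 0 1 := by
    intro t ht
    refine ⟨spectrum_nonneg_of_nonneg hw0 ht, ?_⟩
    have := (le_algebraMap_iff_spectrum_le (r := (1 : ℝ)) (a := w)).mp (by simpa using hw1)
    exact this t ht
  have hwn : ‖w‖ ≤ 1 := norm_le_one_of_nonneg_of_le_one hw0 hw1
  have hfs : ContinuousOn f (spectrum ℝ w) := hf.mono hspec
  have hps : ContinuousOn (fun t => p.eval t) (spectrum ℝ w) := by fun_prop
  have hdiff : ‖cfc f w - Polynomial.aeval w p‖ ≤ ε / (4 * R') := by
    rw [← cfc_polynomial p w, ← cfc_sub f (fun t => p.eval t) w hfs hps]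
    refine norm_cfc_le (by positivity) ?_
    intro t ht
    have := hp t (hspec ht)
    rw [Real.norm_eq_abs, abs_sub_comm]
    exact this.le
  have hxR : ‖x‖ ≤ R' := by rw [hR']; linarith [le_abs_self R]
  have e : cfc f w * x - x * cfc f w
      = (cfc f w - Polynomial.aeval w p) * x
        + (Polynomial.aeval w p * x - x * Polynomial.aeval w p)
        - x * (cfc f w - Polynomial.aeval w p) := by noncomm_ring
  rw [e]
  have hpc := hcomm E w x hwn
  calc ‖(cfc f w - Polynomial.aeval w p) * x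
        + (Polynomial.aeval w p * x - x * Polynomial.aeval w p)
        - x * (cfc f w - Polynomial.aeval w p)‖
      ≤ ‖cfc f w - Polynomial.aeval w p‖ * ‖x‖
        + ‖Polynomial.aeval w p * x - x * Polynomial.aeval w p‖
        + ‖x‖ * ‖cfc f w - Polynomial.aeval w p‖ := by
        refine (norm_sub_le _ _).trans ?_
        refine add_le_add ((norm_add_le _ _).trans (add_le_add (norm_mul_le _ _) le_rfl))
          (norm_mul_le _ _)
    _ ≤ ε / (4 * R') * R' + C * (ε / (2 * (C + 1))) + R' * (ε / (4 * R')) := by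
        gcongr
        exact hpc.trans (by gcongr)
    _ ≤ ε := by
        have h1 : ε / (4 * R') * R' = ε / 4 := by field_simp
        have h2 : R' * (ε / (4 * R')) = ε / 4 := by field_simp
        have h3 : C * (ε / (2 * (C + 1))) ≤ ε / 2 := by
          rw [mul_div_assoc', div_le_div_iff₀ (by positivity) (by norm_num)]
          nlinarith
        linarith

end CommCfc

end Crest.Agent.R110
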